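import Crest.Agent.Prp.Cell

set_option autoImplicit false
set_option linter.unusedSectionVars false
set_option linter.unusedVariables false

open MeasureTheory ProbabilityTheory Set Filter Topology
open scoped RealInnerProductSpace

namespace Crest.Agent.Prp

universe u v

lemma Lines.mono {y y' p : ℝ} (h : Lines y p) (hy : y' ≤ y) : Lines y' p := by
  unfold Lines at *
  rcases h with h | h
  · exact Or.inl h
  refine Or.inr ?_
  iterate 17 refine h.imp (fun h => hy.trans h) fun h => ?_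
  exact hy.trans h

lemma c0_sq_ge : 0.358097 ≤ c0 ^ 2 := by
  rw [c0_sq, le_div_iff₀ (by positivity)]
  have := Real.pi_lt_d4
  norm_num at this ⊢
  linarith

lemma c0_ge : 0.59841 ≤ c0 := by
  have := c0_sq_ge
  have := c0_pos
  by_contra h
  push Not at h
  nlinarith

variable {E : Type u} [NormedAddCommGroup E] [InnerProductSpace ℝ E] [FiniteDimensional ℝ E]
  [MeasurableSpace E] [BorelSpace E] {ι : Type v}
variable [Fintype ι] [DecidableEq ι] [Nonempty ι] {w : ι → E} {μ : ℝ}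

lemma Crit.lines (hA : EhrhardStmt E) (hS : ShiftStmt E) (hN : NumStmt) (h : Crit w μ) (m : ι) :
    Lines (μ * ((Fintype.card ι - 1 : ℝ) / Fintype.card ι) * (μ - V _ (h.erase_nonempty m) w))
      ((stdGaussian E).real (cell w m)) := by
  obtain ⟨a, ha⟩ := exists_Qb_eq (h.p_pos m) (h.p_lt_one m)
  rw [← ha]
  exact (hN.1 a).mono (h.cell_bound hA hS m ha)

lemma Crit.V_erase_bound (h : Crit w μ) (m : ι) :
    V _ (h.erase_nonempty m) w ≤
      c0 * Real.sqrt (1 - ‖w m‖ ^ 2 - ‖w m‖ ^ 2 / (Fintype.card ι - 1)) := by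
  have hk2 := h.two_le
  have h1 := V_centered h.ih _ (h.erase_nonempty m) w (by
    rw [Finset.card_erase_of_mem (Finset.mem_univ m), Finset.card_univ]; omega)
  have hcard : ((Finset.univ.erase m).card : ℝ) = Fintype.card ι - 1 := by
    rw [Finset.card_erase_of_mem (Finset.mem_univ m), Finset.card_univ, Nat.cast_sub (by omega)]
    simp
  have h2 : ∑ i ∈ Finset.univ.erase m, ‖w i‖ ^ 2 = 1 - ‖w m‖ ^ 2 := by
    rw [← h.obt.sum_sq, ← Finset.add_sum_erase _ _ (Finset.mem_univ m)]; ring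
  have h3 : ∑ i ∈ Finset.univ.erase m, w i = - w m := by
    have := h.obt.sum_zero
    rw [← Finset.add_sum_erase _ _ (Finset.mem_univ m)] at this
    exact eq_neg_of_add_eq_zero_right this
  rwa [hcard, h2, h3, norm_neg] at h1

theorem Crit.good (hA : EhrhardStmt E) (hS : ShiftStmt E) (hN : NumStmt) (h : Crit w μ)
    {k0 : ℝ} (hk0 : 0 < k0) (hk : k0 * (Fintype.card ι - 1) ≤ Fintype.card ι) (m : ι) :
    Good k0 (‖w m‖ ^ 2) ((stdGaussian E).real (cell w m)) := by
  have hn : 0 < ‖w m‖ := norm_pos_iff.2 (h.ne_zero m)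
  have hμ := h.lt
  have hc := c0_ge
  have hμn : 0.59841 * ‖w m‖ ≤ μ * ‖w m‖ := by gcongr; linarith
  obtain ⟨-, n1, n2, n3, n4, n5⟩ := id hN
  refine ⟨by positivity, ?_, ⟨_, h.lines hA hS hN m, fun c hc0 => ?_⟩, ?_, ?_, ?_, ?_, ?_⟩
  · have h1 := h.half m 0
    rw [psi_zero, zero_mul, sub_zero] at h1
    have h2 : c0 * ‖w m‖ ≤ μ * ‖w m‖ := by gcongr
    rw [c0] at h2
    have h3 : phi 0 * (3 / 2 * ‖w m‖) ≤ phi 0 * 1 := by linarith
    have h4 := le_of_mul_le_mul_left h3 (phi_pos 0)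
    nlinarith
  · have hk2 : (2:ℝ) ≤ Fintype.card ι := by exact_mod_cast h.two_le
    have h1 := h.V_erase_bound m
    set k : ℝ := ((Fintype.card ι : ℕ) : ℝ) with hkd
    set R := ‖w m‖ ^ 2 with hR
    have h0 := h.V_erase_le m
    set V' := V _ (h.erase_nonempty m) w
    have hq : 0 < (k - 1) / k := div_pos (by linarith) (by linarith)
    have hμ0 := h.mu_pos
    by_cases hb : R / (2 * c) - (1 - c) ^ 2 / (2 * c * k0) ≤ 0
    · have : 0 ≤ μ * ((k - 1) / k) * (μ - V') := by
        have := sub_nonneg.2 h0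
        positivity
      nlinarith
    push Not at hb
    have hRk : 0 ≤ 1 - R - R / (k - 1) := by
      have hcard : ((Finset.univ.erase m).card : ℝ) = k - 1 := by
        rw [Finset.card_erase_of_mem (Finset.mem_univ m), Finset.card_univ,
          Nat.cast_sub (by have := h.two_le; omega)]
        simp [hkd]
      have h2 : ∑ i ∈ Finset.univ.erase m, ‖w i‖ ^ 2 = 1 - R := by
        rw [← h.obt.sum_sq, ← Finset.add_sum_erase _ _ (Finset.mem_univ m)]; ring
      have h3 : ∑ i ∈ Finset.univ.erase m, w i = - w m := by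
        have := h.obt.sum_zero
        rw [← Finset.add_sum_erase _ _ (Finset.mem_univ m)] at this
        exact eq_neg_of_add_eq_zero_right this
      have h4 : ‖w m‖ ≤ ∑ i ∈ Finset.univ.erase m, ‖w i‖ := by
        rw [← norm_neg, ← h3]; exact norm_sum_le _ _
      have h5 := sq_sum_le_card_mul_sum_sq (s := Finset.univ.erase m) (f := fun i => ‖w i‖)
      rw [hcard, h2] at h5
      have h6 : R ≤ (k - 1) * (1 - R) := le_trans (by rw [hR]; gcongr) h5
      rw [sub_nonneg, div_le_iff₀ (by linarith)]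
      linarith
    set s := Real.sqrt (1 - R - R / (k - 1)) with hs
    have hs0 : 0 ≤ s := Real.sqrt_nonneg _
    have hs2 : s ^ 2 = 1 - R - R / (k - 1) := Real.sq_sqrt hRk
    have h2 : s ≤ (1 - R - R / (k - 1) + c ^ 2) / (2 * c) := by
      rw [le_div_iff₀ (by positivity), ← hs2]; nlinarith [sq_nonneg (s - c)]
    have h3 : V' ≤ μ * ((1 - R - R / (k - 1) + c ^ 2) / (2 * c)) :=
      h1.trans (mul_le_mul hμ.le h2 hs0 hμ0.le)
    have h4 : μ * ((k - 1) / k) * (μ - μ * ((1 - R - R / (k - 1) + c ^ 2) / (2 * c))) ≤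
        μ * ((k - 1) / k) * (μ - V') := by gcongr
    refine le_trans ?_ h4
    have h5 : μ * ((k - 1) / k) * (μ - μ * ((1 - R - R / (k - 1) + c ^ 2) / (2 * c))) =
        μ ^ 2 * (R / (2 * c) - (1 - c) ^ 2 / (2 * c) * ((k - 1) / k)) := by
      have : k - 1 ≠ 0 := by linarith
      have : k ≠ 0 := by linarith
      field_simp; ring
    rw [h5]
    have h6 : (1 - c) ^ 2 / (2 * c) * ((k - 1) / k) ≤ (1 - c) ^ 2 / (2 * c * k0) := by
      rw [← div_div _ (2 * c) k0, div_eq_mul_inv _ k0]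
      gcongr
      rw [← one_div, div_le_div_iff₀ (by linarith) hk0]; linarith
    have h7 : 0.35809 ≤ μ ^ 2 := by
      have := c0_sq_ge
      have h8 : c0 ^ 2 ≤ μ ^ 2 := by have := c0_pos; gcongr
      linarith
    exact mul_le_mul h7 (by linarith) hb.le (by positivity)
  all_goals rw [Real.sqrt_sq hn.le]
  · have := h.half m 0.2; linarith
  · have := h.half m 0.3; linarith
  · have := h.half m 0.4; linarith
  · have := h.half m 0.45; linarith
  · have := h.half m 0.5; linarith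

lemma V_triple {s : Finset ι} (hs : s.Nonempty) (w : ι → E) (a b c : ι) (h : s = {a, b, c}) :
    V s hs w = phi 0 * ((‖w a - w b‖ + ‖w a - w c‖ + ‖w b - w c‖) / 2) := by
  rw [← integral_max3]
  unfold V
  congr 1; funext x
  apply le_antisymm
  · refine mx_le _ _ _ fun i hi => ?_
    rw [h] at hi
    simp only [Finset.mem_insert, Finset.mem_singleton] at hi
    rcases hi with rfl | rfl | rfl
    · exact le_max_left _ _
    · exact le_max_of_le_right (le_max_left _ _)
    · exact le_max_of_le_right (le_max_right _ _)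
  · refine max_le (le_mx _ _ _ ?_) (max_le (le_mx _ _ _ ?_) (le_mx _ _ _ ?_)) <;> simp [h]

theorem Crit.card_ne_two (h : Crit w μ) : Fintype.card ι ≠ 2 := by
  intro hc
  obtain ⟨a, b, hab, hu⟩ := Finset.card_eq_two.1 (Finset.card_univ.trans hc)
  have h1 := V_triple Finset.univ_nonempty w a b b (by rw [hu]; simp)
  have h2 := h.obt.sum_sq
  rw [hu, Finset.sum_pair hab] at h2
  rw [h.val, sub_self, norm_zero] at h1
  have h3 := h.lt
  rw [h1, c0] at h3
  have h4 : phi 0 * (3 / 2) < phi 0 * ‖w a - w b‖ := by linarith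
  have h5 := lt_of_mul_lt_mul_left h4 (phi_pos 0).le
  have h6 := norm_sub_le (w a) (w b)
  nlinarith [sq_nonneg (‖w a‖ - ‖w b‖)]

theorem Crit.card_ne_three (h : Crit w μ) : Fintype.card ι ≠ 3 := by
  intro hc
  obtain ⟨a, b, c, hab, hac, hbc, hu⟩ := Finset.card_eq_three.1 (Finset.card_univ.trans hc)
  have h1 := V_triple Finset.univ_nonempty w a b c hu
  have h2 := h.obt.sum_sq
  rw [hu, Finset.sum_insert (by simp [hab, hac]), Finset.sum_pair hbc] at h2
  rw [h.val] at h1
  have h3 := h.lt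
  rw [h1, c0] at h3
  have h4 : phi 0 * 3 < phi 0 * (‖w a - w b‖ + ‖w a - w c‖ + ‖w b - w c‖) := by linarith
  have h5 := lt_of_mul_lt_mul_left h4 (phi_pos 0).le
  have h6 : ‖w a - w b‖ ^ 2 + ‖w a - w c‖ ^ 2 + ‖w b - w c‖ ^ 2 + ‖w a + w b + w c‖ ^ 2 = 3 := by
    rw [norm_sub_sq_real, norm_sub_sq_real, norm_sub_sq_real, norm_add_sq_real, norm_add_sq_real,
      inner_add_left]
    linarith
  nlinarith [sq_nonneg (‖w a - w b‖ - 1), sq_nonneg (‖w a - w c‖ - 1), sq_nonneg (‖w b - w c‖ - 1),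
    sq_nonneg ‖w a + w b + w c‖]

lemma Crit.y_four (h : Crit w μ) (hc : Fintype.card ι = 4) (m a b c : ι)
    (hs : Finset.univ.erase m = {a, b, c}) :
    0.17904 * (3 / 2 - (‖w a - w b‖ + ‖w a - w c‖ + ‖w b - w c‖) / 2) ≤
      μ * ((Fintype.card ι - 1 : ℝ) / Fintype.card ι) * (μ - V _ (h.erase_nonempty m) w) := by
  have h0 := h.V_erase_le m
  have h1 := V_triple (h.erase_nonempty m) w a b c hs
  rw [h1] at h0 ⊢
  rw [hc]
  set P := (‖w a - w b‖ + ‖w a - w c‖ + ‖w b - w c‖) / 2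
  have hμ0 := h.mu_pos
  have h2 := h.lt
  have h3 := c0_sq_ge
  rw [c0] at h2 h3
  have hp := phi_pos 0
  by_cases hP : 3 / 2 - P ≤ 0
  · have : 0 ≤ μ * ((((4:ℕ):ℝ) - 1) / (4:ℕ)) * (μ - phi 0 * P) := by
      have := sub_nonneg.2 h0
      have : (0:ℝ) ≤ (((4:ℕ):ℝ) - 1) / (4:ℕ) := by norm_num
      positivity
    nlinarith
  · push Not at hP
    have h4 : phi 0 * (3 / 2 - P) ≤ μ - phi 0 * P := by linarith
    have h5 : 3 / 2 * phi 0 * (3 / 4) * (phi 0 * (3 / 2 - P)) ≤ μ * (3 / 4) * (μ - phi 0 * P) := by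
      gcongr
    have h6 : 0.17904 ≤ 9 / 8 * phi 0 ^ 2 := by nlinarith
    have h7 := mul_le_mul_of_nonneg_right h6 hP.le
    have e : ((((4:ℕ):ℝ) - 1) / (4:ℕ)) = 3 / 4 := by norm_num
    rw [e]
    nlinarith

end Crest.Agent.Prp
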