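import Crest.Agent.Prp.Asm1

set_option autoImplicit false
set_option linter.unusedSectionVars false
set_option linter.unusedVariables false

open MeasureTheory ProbabilityTheory Set Filter Topology
open scoped RealInnerProductSpace

namespace Crest.Agent.Prp

universe u v

lemma exists_top {ι : Type v} [DecidableEq ι] (f : ι → ℝ) (s : Finset ι) (n : ℕ)
    (h : n + 1 ≤ s.card) : ∃ i ∈ s, (∀ j ∈ s, f j ≤ f i) ∧ n ≤ (s.erase i).card := by
  obtain ⟨i, hi, hm⟩ := Finset.exists_max_image s f (Finset.card_pos.1 (by omega))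
  exact ⟨i, hi, hm, by rw [Finset.card_erase_of_mem hi]; omega⟩

/-- four top elements and the rest -/
structure Top4 {ι : Type v} [Fintype ι] (f : ι → ℝ) (i1 i2 i3 i4 : ι) (T : Finset ι) : Prop where
  n12 : i1 ≠ i2
  n13 : i1 ≠ i3
  n14 : i1 ≠ i4
  n23 : i2 ≠ i3
  n24 : i2 ≠ i4
  n34 : i3 ≠ i4
  mem : ∀ j, j ∈ T ↔ j ≠ i1 ∧ j ≠ i2 ∧ j ≠ i3 ∧ j ≠ i4
  card : T.card + 4 = Fintype.card ι
  h12 : f i2 ≤ f i1
  h23 : f i3 ≤ f i2
  h34 : f i4 ≤ f i3
  h4T : ∀ j ∈ T, f j ≤ f i4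

lemma exists_top4 {ι : Type v} [Fintype ι] [DecidableEq ι] (f : ι → ℝ) (h : 4 ≤ Fintype.card ι) :
    ∃ i1 i2 i3 i4 T, Top4 f i1 i2 i3 i4 T := by
  obtain ⟨i1, m1, h1, c1⟩ := exists_top f Finset.univ 3 (by simpa using h)
  obtain ⟨i2, m2, h2, c2⟩ := exists_top f _ 2 c1
  obtain ⟨i3, m3, h3, c3⟩ := exists_top f _ 1 c2
  obtain ⟨i4, m4, h4, c4⟩ := exists_top f _ 0 c3
  have hc : ((((Finset.univ.erase i1).erase i2).erase i3).erase i4).card + 4 = Fintype.card ι := by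
    rw [Finset.card_erase_of_mem m4, Finset.card_erase_of_mem m3, Finset.card_erase_of_mem m2,
      Finset.card_erase_of_mem m1, Finset.card_univ]
    omega
  have a12 := h1 i2 (Finset.mem_univ _)
  have a23 := h2 i3 (Finset.mem_of_mem_erase m3)
  have a34 := h3 i4 (Finset.mem_of_mem_erase m4)
  refine ⟨i1, i2, i3, i4, _, ?_, ?_, ?_, ?_, ?_, ?_, ?_, hc, a12, a23, a34,
    fun j hj => h4 j (Finset.mem_of_mem_erase hj)⟩
  all_goals simp only [Finset.mem_erase, ne_eq, Finset.mem_univ, and_true] at m2 m3 m4 ⊢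
  · exact Ne.symm m2
  · exact Ne.symm m3.2
  · exact Ne.symm m4.2.2
  · exact Ne.symm m3.1
  · exact Ne.symm m4.2.1
  · exact Ne.symm m4.1
  · intro j; tauto

lemma Top4.sum {ι : Type v} [Fintype ι] [DecidableEq ι] {f : ι → ℝ} {i1 i2 i3 i4 : ι}
    {T : Finset ι} (h : Top4 f i1 i2 i3 i4 T) {M : Type*} [AddCommMonoid M] (g : ι → M) :
    ∑ i, g i = g i1 + g i2 + g i3 + g i4 + ∑ j ∈ T, g j := by
  have hu : Finset.univ = insert i1 (insert i2 (insert i3 (insert i4 T))) := by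
    ext j
    simp only [Finset.mem_univ, Finset.mem_insert, h.mem, true_iff]
    tauto
  have := h.n12; have := h.n13; have := h.n14; have := h.n23; have := h.n24; have := h.n34
  rw [hu, Finset.sum_insert, Finset.sum_insert, Finset.sum_insert, Finset.sum_insert]
  · simp only [add_assoc]
  all_goals simp [h.mem, *]

variable {E : Type u} [NormedAddCommGroup E] [InnerProductSpace ℝ E] [FiniteDimensional ℝ E]
  [MeasurableSpace E] [BorelSpace E] {ι : Type v}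
variable [Fintype ι] [DecidableEq ι] [Nonempty ι] {w : ι → E} {μ : ℝ}

theorem Crit.card_ne_four (hA : EhrhardStmt E) (hS : ShiftStmt E) (hT : StripStmt.{u, v} E)
    (hN : NumStmt) (hG : GeomStmt.{u, v}) (h4 : K4Stmt) (h : Crit w μ) : Fintype.card ι ≠ 4 := by
  intro hc
  obtain ⟨i1, i2, i3, i4, T, ht⟩ :=
    exists_top4 (fun m => (stdGaussian E).real (cell w m)) hc.ge
  have hT0 : T = ∅ := Finset.card_eq_zero.1 (by have := ht.card; omega)
  have hsum : ∀ {M : Type u} [AddCommMonoid M] (g : ι → M), ∑ i, g i = g i1 + g i2 + g i3 + g i4 :=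
    fun g => by rw [ht.sum g, hT0, Finset.sum_empty, add_zero]
  have hsumR : ∀ (g : ι → ℝ), ∑ i, g i = g i1 + g i2 + g i3 + g i4 :=
    fun g => by rw [ht.sum g, hT0, Finset.sum_empty, add_zero]
  have hall : ∀ j, j = i1 ∨ j = i2 ∨ j = i3 ∨ j = i4 := by
    intro j
    have := (ht.mem j).not
    rw [hT0] at this
    simp only [Finset.notMem_empty, not_false_eq_true, ne_eq, true_iff] at this
    tauto
  have n12 := ht.n12; have n13 := ht.n13; have n14 := ht.n14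
  have n23 := ht.n23; have n24 := ht.n24; have n34 := ht.n34
  have hz := h.obt.sum_zero
  rw [hsum] at hz
  have hq := h.obt.sum_sq
  rw [hsumR] at hq
  have hp := h.sump
  rw [hsumR] at hp
  have hrow : ∀ x : E, ⟪x, w i1⟫ + ⟪x, w i2⟫ + ⟪x, w i3⟫ + ⟪x, w i4⟫ = 0 := by
    intro x
    rw [← inner_add_right, ← inner_add_right, ← inner_add_right, hz, inner_zero_right]
  have r1 := hrow (w i1); have r2 := hrow (w i2); have r3 := hrow (w i3); have r4 := hrow (w i4)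
  rw [real_inner_self_eq_norm_sq] at r1 r2 r3 r4
  rw [real_inner_comm (w i1) (w i2)] at r2
  rw [real_inner_comm (w i1) (w i3), real_inner_comm (w i2) (w i3)] at r3
  rw [real_inner_comm (w i1) (w i4), real_inner_comm (w i2) (w i4),
    real_inner_comm (w i3) (w i4)] at r4
  have e1 : Finset.univ.erase i1 = {i2, i3, i4} := by
    ext j; rcases hall j with rfl | rfl | rfl | rfl <;> simp [*, Ne.symm]
  have e2 : Finset.univ.erase i2 = {i1, i3, i4} := by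
    ext j; rcases hall j with rfl | rfl | rfl | rfl <;> simp [*, Ne.symm]
  have e3 : Finset.univ.erase i3 = {i1, i2, i4} := by
    ext j; rcases hall j with rfl | rfl | rfl | rfl <;> simp [*, Ne.symm]
  have e4 : Finset.univ.erase i4 = {i1, i2, i3} := by
    ext j; rcases hall j with rfl | rfl | rfl | rfl <;> simp [*, Ne.symm]
  have hg := (hG E ι w h.obt (faceMulti hS hT h) (faceOne hS hT h) i1 i2 i3 n12 n13 n23).1 i4
    n14.symm n24.symm n34.symm
  have z1 : 1 - ‖w i1‖ ^ 2 - ‖w i2‖ ^ 2 - ‖w i3‖ ^ 2 = ‖w i4‖ ^ 2 := by linarith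
  have z2 : ‖w i4 - (1 / 3 : ℝ) • (w i1 + w i2 + w i3)‖ ^ 2 = 16 / 9 * ‖w i4‖ ^ 2 := by
    rw [eq_neg_of_add_eq_zero_left hz,
      show w i4 - (1 / 3 : ℝ) • -w i4 = (4 / 3 : ℝ) • w i4 by module, norm_smul, mul_pow]
    norm_num
  rw [z1, z2, hc] at hg
  refine h4 (-⟪w i1, w i2⟫) (-⟪w i1, w i3⟫) (-⟪w i1, w i4⟫) (-⟪w i2, w i3⟫) (-⟪w i2, w i4⟫)
    (-⟪w i3, w i4⟫) (‖w i1‖ ^ 2) (‖w i2‖ ^ 2) (‖w i3‖ ^ 2) (‖w i4‖ ^ 2)
    ‖w i1 - w i2‖ ‖w i1 - w i3‖ ‖w i1 - w i4‖ ‖w i2 - w i3‖ ‖w i2 - w i4‖ ‖w i3 - w i4‖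
    _ _ _ _ _ _ _ _
    (neg_pos.2 (h.obt.neg _ _ n12)) (neg_pos.2 (h.obt.neg _ _ n13)) (neg_pos.2 (h.obt.neg _ _ n14))
    (neg_pos.2 (h.obt.neg _ _ n23)) (neg_pos.2 (h.obt.neg _ _ n24)) (neg_pos.2 (h.obt.neg _ _ n34))
    (by linarith) (by linarith) (by linarith) (by linarith) hq
    (by rw [norm_sub_sq_real]; ring) (by rw [norm_sub_sq_real]; ring)
    (by rw [norm_sub_sq_real]; ring) (by rw [norm_sub_sq_real]; ring)
    (by rw [norm_sub_sq_real]; ring) (by rw [norm_sub_sq_real]; ring)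
    ht.h12 ht.h23 ht.h34 measureReal_nonneg hp
    (h.lines hA hS hN i1) (h.lines hA hS hN i2) (h.lines hA hS hN i3) (h.lines hA hS hN i4)
    (h.y_four hc i1 _ _ _ e1) (h.y_four hc i2 _ _ _ e2) (h.y_four hc i3 _ _ _ e3)
    (h.y_four hc i4 _ _ _ e4) (by exact_mod_cast hg)

lemma Test1.mono {kk R1 R2 R3 Rj th z z' : ℝ} (h : Test1 kk R1 R2 R3 Rj th z) (hz : z ≤ z') :
    Test1 kk R1 R2 R3 Rj th z' := by
  intro r1 r3 tm r5 D0 δ K0 a1 a2 a3 a4 a5 a6 a7 a8 a9 a10 a11 a12 a13 a14 a15 a16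
  exact (h r1 r3 tm r5 D0 δ K0 a1 a2 a3 a4 a5 a6 a7 a8 a9 a10 a11 a12 a13 a14 a15 a16).trans hz

lemma Test3.mono {q q' R1 R2 R3 R4 tT : ℝ} (h : Test3 q R1 R2 R3 R4 tT) (h0 : 0 ≤ q')
    (hq : q' ≤ q) : Test3 q' R1 R2 R3 R4 tT := by
  intro r1 r3 tm um D0 C a1 a2 a3 a4 a5 a6 a7 a8 a9 a10 a11 a12 a13 a14
  refine le_trans ?_ (h r1 r3 tm um D0 C a1 a2 a3 a4 a5 a6 a7 a8 a9 a10 a11 a12 a13 a14)
  gcongr

lemma Test4.mono {G G' R2 R3 tT : ℝ} (h : Test4 G R2 R3 tT) (hq : G' ≤ G) :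
    Test4 G' R2 R3 tT := by
  intro r2 r3 um D0 C a1 a2 a3 a4 a5 a6 a7 a8 a9
  refine le_trans ?_ (h r2 r3 um D0 C a1 a2 a3 a4 a5 a6 a7 a8 a9)
  gcongr

theorem Crit.not_big (hA : EhrhardStmt E) (hS : ShiftStmt E) (hT : StripStmt.{u, v} E)
    (hN : NumStmt) (hG : GeomStmt.{u, v}) (h5 : K5Stmt) (h6 : K6Stmt) (h7 : K7Stmt)
    (h : Crit w μ) : ¬ 5 ≤ Fintype.card ι := by
  intro hc
  obtain ⟨i1, i2, i3, i4, T, ht⟩ := exists_top4 (fun m => ‖w m‖ ^ 2) (by omega : 4 ≤ Fintype.card ι)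
  have hTc := ht.card
  obtain ⟨i5, m5, hm5, -⟩ := exists_top (fun m => ‖w m‖ ^ 2) T 0 (by omega)
  have hq := h.obt.sum_sq
  rw [ht.sum] at hq
  have hp := h.sump
  rw [ht.sum] at hp
  set tT := ∑ j ∈ T, ‖w j‖ ^ 2 with htT
  have hbig : ∀ k0 : ℝ, 0 < k0 → k0 * (Fintype.card ι - 1) ≤ Fintype.card ι →
      Big k0 (‖w i1‖ ^ 2) (‖w i2‖ ^ 2) (‖w i3‖ ^ 2) (‖w i4‖ ^ 2) (‖w i5‖ ^ 2) tT
        ((stdGaussian E).real (cell w i1)) ((stdGaussian E).real (cell w i2))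
        ((stdGaussian E).real (cell w i3)) ((stdGaussian E).real (cell w i4))
        ((stdGaussian E).real (cell w i5)) (∑ j ∈ T, (stdGaussian E).real (cell w j)) := by
    intro k0 hk0 hk
    have hg := h.good hA hS hN hk0 hk
    refine ⟨ht.h12, ht.h23, ht.h34, ht.h4T i5 m5, ?_, hq, hp, hg _, hg _, hg _, hg _, hg _, ?_⟩
    · exact Finset.single_le_sum (f := fun j => ‖w j‖ ^ 2) (fun _ _ => sq_nonneg _) m5
    · intro x γ hγ hx
      rw [htT, ← Finset.add_sum_erase _ _ m5, ← Finset.add_sum_erase _ _ m5, add_sub_cancel_left,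
        Finset.mul_sum]
      gcongr with j hj
      exact hγ _ _ (hg j) ((hm5 j (Finset.mem_of_mem_erase hj)).trans hx)
  obtain ⟨g1, g2, g3⟩ := hG E ι w h.obt (faceMulti hS hT h) (faceOne hS hT h) i1 i2 i3 ht.n12 ht.n13
    ht.n23
  obtain ⟨g3, g4⟩ := g3 i4 ht.n14.symm ht.n24.symm ht.n34.symm hc
  have hk5 : (5:ℝ) ≤ Fintype.card ι := by exact_mod_cast hc
  have g4 := g4 (hbig 1 one_pos (by linarith)).g1.2.1 ht.h12 ht.h23
  have z1 : 1 - ‖w i1‖ ^ 2 - ‖w i2‖ ^ 2 - ‖w i3‖ ^ 2 = ‖w i4‖ ^ 2 + tT := by linarith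
  have z2 : 1 - ‖w i1‖ ^ 2 - ‖w i2‖ ^ 2 - ‖w i3‖ ^ 2 - ‖w i4‖ ^ 2 = tT := by linarith
  rw [z2] at g3 g4
  rw [z1] at g1 g2
  have hle : tT ≤ T.card * ‖w i5‖ ^ 2 := by
    have := Finset.sum_le_card_nsmul T (fun j => ‖w j‖ ^ 2) _ hm5
    rwa [nsmul_eq_mul] at this
  rcases Nat.lt_or_ge 5 (Fintype.card ι) with hc6 | hc5
  · rw [if_neg (by omega)] at g4
    rcases Nat.lt_or_ge 6 (Fintype.card ι) with hc7 | hc6'
    · have hk7 : (7:ℝ) ≤ Fintype.card ι := by exact_mod_cast hc7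
      have hq : (3 / 7 : ℝ) ≤ ((Fintype.card ι : ℝ) - 4) / Fintype.card ι := by
        rw [le_div_iff₀ (by linarith)]; linarith
      refine h7 _ _ _ _ _ _ _ _ _ _ _ _ (hbig 1 one_pos (by linarith)) (g3.mono (by norm_num) hq)
        (g4.mono ?_)
      refine le_trans (by norm_num) (div_le_div_of_nonneg_right
        (pow_le_pow_left₀ (by norm_num) hq 2) (by norm_num))
    · have he : Fintype.card ι = 6 := by omega
      have hT2 : T.card = 2 := by omega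
      rw [he] at g3 g4
      rw [hT2] at hle
      refine h6 _ _ _ _ _ _ _ _ _ _ _ _ (hbig (6 / 5) (by norm_num) (by rw [he]; norm_num))
        (by exact_mod_cast hle) (g3.mono (by norm_num) (by norm_num)) (g4.mono (by norm_num))
  · have he : Fintype.card ι = 5 := by omega
    have hT1 : T.card = 1 := by omega
    obtain ⟨j, hj⟩ := Finset.card_eq_one.1 hT1
    have hj5 : T = {i5} := by rw [hj] at m5 ⊢; rw [Finset.mem_singleton.1 m5]
    have e5 : tT = ‖w i5‖ ^ 2 := by rw [htT, hj5, Finset.sum_singleton]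
    obtain ⟨n1, n2, n3, n4⟩ := (ht.mem i5).1 m5
    have g1 := g1 i5 n1 n2 n3
    have g2 := g2 he
    rw [if_pos he, he] at g4
    rw [he] at g1
    have hz := h.obt.sum_zero
    rw [ht.sum, hj5, Finset.sum_singleton] at hz
    have z3 : ‖w i5 - (1 / 3 : ℝ) • (w i1 + w i2 + w i3)‖ ^ 2 ≤
        (16 * ‖w i5‖ ^ 2 + ‖w i4‖ ^ 2) / 9 := by
      have : w i1 + w i2 + w i3 = -(w i4 + w i5) := by
        rw [add_assoc (w i1 + w i2 + w i3)] at hz; exact eq_neg_of_add_eq_zero_left hz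
      rw [this, show w i5 - (1 / 3 : ℝ) • -(w i4 + w i5) = (4 / 3 : ℝ) • w i5 + (1 / 3 : ℝ) • w i4
        by module, norm_add_sq_real, norm_smul, norm_smul, real_inner_smul_left,
        real_inner_smul_right, mul_pow, mul_pow]
      have := h.obt.neg i5 i4 n4
      norm_num
      linarith
    exact h5 _ _ _ _ _ _ _ _ _ _ _ _ _ (hbig (5 / 4) (by norm_num) (by rw [he]; norm_num)) e5 z3
      (by exact_mod_cast g1) g2 (g4.mono (by norm_num))

lemma V_subtype {ι : Type v} (s : Finset ι) (hs : s.Nonempty) [Nonempty s] (u : ι → E) :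
    V s hs u = V Finset.univ Finset.univ_nonempty (fun i : s => u i) := by
  unfold V
  congr 1; funext x
  apply le_antisymm
  · exact mx_le _ _ _ fun i hi => le_mx Finset.univ_nonempty (fun i : s => u i) x
      (Finset.mem_univ ⟨i, hi⟩)
  · exact mx_le _ _ _ fun i _ => le_mx hs u x i.2

theorem bound (hA : EhrhardStmt E) (hS : ShiftStmt E) (hT : StripStmt.{u, v} E)
    (hN : NumStmt) (hG : GeomStmt.{u, v}) (h4 : K4Stmt) (h5 : K5Stmt) (h6 : K6Stmt) (h7 : K7Stmt)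
    (n : ℕ) : ∀ (ι : Type v) [Fintype ι] [Nonempty ι], Fintype.card ι = n → ∀ w : ι → E,
      V Finset.univ Finset.univ_nonempty w ≤ c0 * Real.sqrt (∑ i, ‖w i‖ ^ 2) := by
  induction n using Nat.strong_induction_on with
  | _ n ih =>
  intro ι _ _ hn w0
  classical
  by_contra hcon
  push Not at hcon
  have hih : IH E ι := by
    intro s hs u hc
    have : Nonempty s := hs.to_subtype
    rw [V_subtype s hs u, ← Finset.sum_coe_sort s (fun i => ‖u i‖ ^ 2)]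
    exact ih _ (by rw [← hn]; simpa using hc) s rfl _
  obtain ⟨w, μ, h⟩ := exists_crit hih w0 hcon
  have a1 := h.two_le
  have a2 := h.card_ne_two
  have a3 := h.card_ne_three
  have a4 := h.card_ne_four hA hS hT hN hG h4
  have a5 := h.not_big hA hS hT hN hG h5 h6 h7
  omega

theorem propeller_of (hA : EhrhardStmt E) (hS : ShiftStmt E) (hT : StripStmt.{u, v} E)
    (hN : NumStmt) (hG : GeomStmt.{u, v}) (h4 : K4Stmt) (h5 : K5Stmt) (h6 : K6Stmt) (h7 : K7Stmt)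
    (ι : Type v) [Fintype ι] (A : ι → Set E) (hAm : ∀ i, MeasurableSet (A i))
    (hdisj : Pairwise fun i j => Disjoint (A i) (A j)) (hcov : ⋃ i, A i = univ) :
    ∑ i, ‖∫ x in A i, x ∂stdGaussian E‖ ^ 2 ≤ 9 / (8 * Real.pi) := by
  rcases isEmpty_or_nonempty ι with hι | hι
  · simp only [Finset.univ_eq_empty, Finset.sum_empty]; positivity
  set z : ι → E := fun i => ∫ x in A i, x ∂(stdGaussian E) with hz
  rw [← c0_sq]
  refine sq_le_of_le_mul_sqrt c0_pos.le (Finset.sum_nonneg fun _ _ => sq_nonneg _) ?_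
  refine le_trans ?_ (bound hA hS hT hN hG h4 h5 h6 h7 _ ι rfl z)
  have := sum_inner_le A hAm hdisj hcov z _ (integrable_mx Finset.univ_nonempty z)
    fun i x hx => le_mx _ _ _ (Finset.mem_univ i)
  simp_rw [← real_inner_self_eq_norm_sq]
  exact this

end Crest.Agent.Prp
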