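import Crest.Agent.Prp.Face

set_option autoImplicit false
set_option linter.unusedSectionVars false
set_option linter.unusedVariables false

open MeasureTheory ProbabilityTheory Set Filter Topology
open scoped RealInnerProductSpace

namespace Crest.Agent.Prp

universe u v

lemma integral_le_of_tail {α β : Type*} [MeasurableSpace α] [MeasurableSpace β] (μ : Measure α)
    (ν : Measure β) (f : α → ℝ) (g : β → ℝ) (hf : Integrable f μ) (hg : Integrable g ν)
    (hf0 : ∀ x, 0 ≤ f x) (hg0 : ∀ x, 0 ≤ g x)
    (h : ∀ t : ℝ, 0 < t → μ {x | t ≤ f x} ≤ ν {x | t ≤ g x}) :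
    ∫ x, f x ∂μ ≤ ∫ x, g x ∂ν := by
  rw [← ENNReal.ofReal_le_ofReal_iff (integral_nonneg hg0),
    ofReal_integral_eq_lintegral_ofReal hf (ae_of_all _ hf0),
    ofReal_integral_eq_lintegral_ofReal hg (ae_of_all _ hg0),
    lintegral_eq_lintegral_meas_le μ (ae_of_all _ hf0) hf.aemeasurable,
    lintegral_eq_lintegral_meas_le ν (ae_of_all _ hg0) hg.aemeasurable]
  exact setLIntegral_mono' measurableSet_Ioi fun t ht => h t ht

variable {E : Type u} [NormedAddCommGroup E] [InnerProductSpace ℝ E] [FiniteDimensional ℝ E]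
  [MeasurableSpace E] [BorelSpace E] {ι : Type v}

lemma shift_tail (hA : EhrhardStmt E) (C : Set E) (hC : Convex ℝ C) (hCm : MeasurableSet C)
    (v : E) (ρ K a : ℝ) (ha : Qb a = (stdGaussian E).real C)
    (hK : ∀ ε : ℝ, 0 ≤ ε → ε ≤ 1 → ε * ρ - K * ε ^ 2 ≤
      (stdGaussian E).real C - (stdGaussian E).real {x | x - ε • v ∈ C})
    (t : ℝ) (ht : 0 < t) :
    (stdGaussian E).real {x | x - t • v ∈ C} ≤ Qb (a + t * (ρ / phi a)) := by
  by_contra hcon
  push Not at hcon
  have hm : ∀ s : ℝ, MeasurableSet {x | x - s • v ∈ C} := fun s =>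
    (measurable_sub_const (s • v)) hCm
  have hconv : Convex ℝ {x | x - t • v ∈ C} := by
    intro x hx y hy p q hp hq hpq
    have := hC hx hy hp hq hpq
    simp only [mem_ofPred_eq]
    convert this using 1
    rw [show q = 1 - p by linarith]
    module
  -- a smaller slope
  obtain ⟨s, hs, hs'⟩ : ∃ s, s < ρ / phi a ∧
      Qb (a + t * s) < (stdGaussian E).real {x | x - t • v ∈ C} := by
    have h1 : ContinuousAt (fun s => Qb (a + t * s)) (ρ / phi a) :=
      (continuous_Qb.comp (by fun_prop)).continuousAt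
    have h2 := (h1.eventually (gt_mem_nhds hcon)).filter_mono
      (nhdsWithin_le_nhds (s := Iio (ρ / phi a)))
    obtain ⟨s, h3, h4⟩ := (h2.and self_mem_nhdsWithin).exists
    exact ⟨s, h4, h3⟩
  have key : ∀ ε : ℝ, 0 < ε → ε ≤ t → Qb (a + ε * s) ≤ (stdGaussian E).real {x | x - ε • v ∈ C} := by
    intro ε h0 h1
    have h2 : Tendsto (fun a' => Qb ((1 - ε / t) * a' + ε / t * (a + t * s))) (𝓝[>] a)
        (𝓝 (Qb ((1 - ε / t) * a + ε / t * (a + t * s)))) :=
      ((continuous_Qb.comp (by fun_prop)).tendsto a).mono_left nhdsWithin_le_nhds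
    have h3 : (1 - ε / t) * a + ε / t * (a + t * s) = a + ε * s := by field_simp; ring
    rw [h3] at h2
    refine le_of_tendsto h2 (eventually_nhdsWithin_of_forall fun a' ha' => le_of_lt ?_)
    refine hA C _ _ hC hconv hCm (hm t) (hm ε) (ε / t) (by positivity) ((div_le_one ht).2 h1)
      (fun x hx y hy => ?_) a' _ (ha ▸ Qb_strictAnti ha') hs'
    have := hC hx hy (sub_nonneg.2 ((div_le_one ht).2 h1)) (by positivity : 0 ≤ ε / t) (by ring)
    simp only [mem_ofPred_eq]
    convert this using 1
    rw [smul_sub, smul_smul, div_mul_cancel₀ _ ht.ne', add_sub_assoc]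
  have hder : HasDerivAt (fun ε : ℝ => Qb a - Qb (a + ε * s) - (ε * ρ - K * ε ^ 2))
      (phi a * s - ρ) 0 := by
    have h0 : HasDerivAt (fun ε : ℝ => a + ε * s) s 0 := by
      simpa using ((hasDerivAt_id' (0:ℝ)).mul_const s).const_add a
    have h1 : HasDerivAt Qb (-phi a) (a + 0 * s) := by simpa using hasDerivAt_Qb a
    have h2 := ((h1.comp (0:ℝ) h0).const_sub (Qb a)).fun_sub
      (((hasDerivAt_id' (0:ℝ)).mul_const ρ).fun_sub ((hasDerivAt_pow 2 (0:ℝ)).const_mul K))
    exact h2.congr_deriv (by simp)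
  have := deriv_nonneg_of_eventually hder (by simp) (by
    filter_upwards [Ioc_mem_nhdsGT (lt_min zero_lt_one ht)] with ε hε
    have h1 := hK ε hε.1.le (hε.2.trans (min_le_left _ _))
    have h2 := key ε hε.1 (hε.2.trans (min_le_right _ _))
    linarith)
  rw [lt_div_iff₀ (phi_pos a)] at hs
  linarith

variable [Fintype ι] [DecidableEq ι] [Nonempty ι] {w : ι → E} {μ : ℝ}

lemma Crit.mu_pos (h : Crit w μ) : 0 < μ := c0_pos.trans h.lt

lemma Crit.exists_ne (h : Crit w μ) (m : ι) : ∃ l, l ≠ m := by
  by_contra hc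
  push Not at hc
  have h1 := h.obt.sum_zero
  have h2 := h.obt.sum_sq
  rw [Finset.sum_eq_single m (fun l _ hl => absurd (hc l) hl) (by simp)] at h1 h2
  rw [h1] at h2; simp at h2

lemma Crit.ne_zero (h : Crit w μ) (m : ι) : w m ≠ 0 := by
  obtain ⟨l, hl⟩ := h.exists_ne m
  intro h0
  have := h.obt.neg l m hl
  rw [h0] at this; simp at this

lemma Crit.p_pos (h : Crit w μ) (m : ι) : 0 < (stdGaussian E).real (cell w m) := by
  refine lt_of_le_of_ne measureReal_nonneg fun h0 => ?_
  have h1 : stdGaussian E (cell w m) = 0 := (measureReal_eq_zero_iff (measure_ne_top _ _)).1 h0.symm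
  have h2 := h.mom m
  rw [setIntegral_measure_zero _ h1] at h2
  exact (smul_ne_zero h.mu_pos.ne' (h.ne_zero m)) h2.symm

lemma Crit.p_lt_one (h : Crit w μ) (m : ι) : (stdGaussian E).real (cell w m) < 1 := by
  obtain ⟨l, hl⟩ := h.exists_ne m
  have h1 := Finset.add_le_sum (s := Finset.univ) (f := fun m => (stdGaussian E).real (cell w m))
    (fun _ _ => measureReal_nonneg) (Finset.mem_univ l) (Finset.mem_univ m) hl
  have := h.p_pos l
  have := h.sump
  linarith

lemma Crit.erase_nonempty (h : Crit w μ) (m : ι) : (Finset.univ.erase m).Nonempty := by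
  obtain ⟨l, hl⟩ := h.exists_ne m
  exact ⟨l, by simp [hl]⟩

lemma Crit.two_le (h : Crit w μ) : 2 ≤ Fintype.card ι := by
  obtain ⟨m⟩ := ‹Nonempty ι›
  obtain ⟨l, hl⟩ := h.exists_ne m
  exact Fintype.one_lt_card_iff.2 ⟨l, m, hl⟩

lemma Crit.V_erase_le (h : Crit w μ) (m : ι) : V _ (h.erase_nonempty m) w ≤ μ := by
  refine le_trans ?_ h.val.le
  exact integral_mono (integrable_mx _ w) (integrable_mx _ w) fun x =>
    mx_le _ _ _ fun i _ => le_mx _ _ _ (Finset.mem_univ i)

theorem Crit.cell_bound (hA : EhrhardStmt E) (hS : ShiftStmt E) (h : Crit w μ) (m : ι) {a : ℝ}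
    (ha : Qb a = (stdGaussian E).real (cell w m)) :
    μ * ((Fintype.card ι - 1 : ℝ) / Fintype.card ι) * (μ - V _ (h.erase_nonempty m) w) ≤
      phi a * psi a := by
  obtain ⟨v, hv⟩ := exists_dual_T h.obt (Finset.univ.erase m)
  obtain ⟨K, hK⟩ := hS (cell w m) (measurableSet_cell w m) v
  have hk2 := h.two_le
  have hcard : ((Finset.univ.erase m).card : ℝ) = Fintype.card ι - 1 := by
    rw [Finset.card_erase_of_mem (Finset.mem_univ m), Finset.card_univ, Nat.cast_sub (by omega)]
    simp
  rw [hcard] at hv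
  set q : ℝ := (Fintype.card ι - 1 : ℝ) / Fintype.card ι with hq
  have hk2' : (2:ℝ) ≤ Fintype.card ι := by exact_mod_cast hk2
  have hq0 : 0 < q := div_pos (by linarith) (by linarith)
  have hm : ⟪w m, v⟫ = q := by rw [hv m]; simp
  have hl : ∀ l, l ≠ m → ⟪w l, v⟫ = q - 1 := fun l hl => by rw [hv l]; simp [hl]
  rw [h.mom m, real_inner_smul_left, hm] at hK
  set ρ := μ * q with hρ
  have hρ0 : 0 < ρ := mul_pos h.mu_pos hq0
  have hconv : Convex ℝ (cell w m) := by
    intro x hx y hy p r hp hr hpr l
    simp only [inner_add_right, real_inner_smul_right]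
    have := mul_le_mul_of_nonneg_left (hx l) hp
    have := mul_le_mul_of_nonneg_left (hy l) hr
    linarith
  have htail := shift_tail hA _ hconv (measurableSet_cell w m) v ρ K a ha hK
  have hs := h.erase_nonempty m
  set D : E → ℝ := fun x => max (⟪w m, x⟫ - mx _ hs w x) 0 with hD
  have hDi : Integrable D (stdGaussian E) :=
    ((integrable_inner_g _).sub (integrable_mx hs w)).sup (integrable_const 0)
  have e1 : ∀ x, mx Finset.univ Finset.univ_nonempty w x = mx _ hs w x + D x := by
    intro x
    apply le_antisymm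
    · refine mx_le _ _ _ fun i _ => ?_
      by_cases hi : i = m
      · rw [hi]; have := le_max_left (⟪w m, x⟫ - mx _ hs w x) 0; simp only [hD]; linarith
      · have := le_mx hs w x (i := i) (by simp [hi])
        have := le_max_right (⟪w m, x⟫ - mx _ hs w x) 0; simp only [hD]; linarith
    · have h1 := le_mx Finset.univ_nonempty w x (Finset.mem_univ m)
      have h2 : mx _ hs w x ≤ mx Finset.univ Finset.univ_nonempty w x :=
        mx_le _ _ _ fun i _ => le_mx _ _ _ (Finset.mem_univ i)
      simp only [hD]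
      rcases le_total (⟪w m, x⟫ - mx _ hs w x) 0 with h3 | h3
      · rw [max_eq_right h3]; linarith
      · rw [max_eq_left h3]; linarith
  have e2 : μ - V _ hs w = ∫ x, D x ∂(stdGaussian E) := by
    rw [← h.val]
    unfold V
    simp_rw [e1]
    rw [integral_add (integrable_mx hs w) hDi]; ring
  have hpa := phi_pos a
  have hgi : Integrable (fun y : ℝ => max (y - a) 0) (gaussianReal 0 1) :=
    (integrable_id_gauss.sub (integrable_const a)).sup (integrable_const 0)
  have e3 := integral_le_of_tail (stdGaussian E) (gaussianReal 0 1) D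
    (fun y => phi a / ρ * max (y - a) 0) hDi (hgi.const_mul _) (fun x => le_max_right _ _)
    (fun y => mul_nonneg (by positivity) (le_max_right _ _)) (fun t ht => by
      have h1 : {x | t ≤ D x} ⊆ {x | x - t • v ∈ cell w m} := by
        intro x hx l
        simp only [hD, mem_ofPred_eq, le_max_iff, not_le.2 ht, or_false] at hx
        by_cases hlm : l = m
        · rw [hlm]
        · have := le_mx hs w x (i := l) (by simp [hlm])
          rw [inner_sub_right, inner_sub_right, real_inner_smul_right, real_inner_smul_right, hm,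
            hl l hlm]
          linarith
      have h2 : Ici (a + t * (ρ / phi a)) ⊆ {y | t ≤ phi a / ρ * max (y - a) 0} := by
        intro y hy
        have h3 : t * (ρ / phi a) ≤ max (y - a) 0 :=
          le_trans (by have : a + t * (ρ / phi a) ≤ y := hy; linarith) (le_max_left _ _)
        have h4 := mul_le_mul_of_nonneg_left h3 (by positivity : 0 ≤ phi a / ρ)
        refine le_trans (le_of_eq ?_) h4
        field_simp
      refine (measure_mono h1).trans (le_trans ?_ (measure_mono h2))
      have h5 := htail t ht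
      rw [← real_Ici] at h5
      exact (ENNReal.toReal_le_toReal (measure_ne_top _ _) (measure_ne_top _ _)).1 h5)
  rw [integral_const_mul, integral_posPart] at e3
  rw [e2]
  have := mul_le_mul_of_nonneg_left e3 hρ0.le
  refine this.trans (le_of_eq ?_)
  field_simp

theorem Crit.half (h : Crit w μ) (m : ι) (a : ℝ) :
    μ * ‖w m‖ - a * (stdGaussian E).real (cell w m) ≤ psi a := by
  have hn : 0 < ‖w m‖ := norm_pos_iff.2 (h.ne_zero m)
  have h1 := integral_posPart_inner (w m) a
  have hi := integrable_max_inner (w m) (‖w m‖ * a)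
  have h2 : ∫ x in cell w m, (⟪w m, x⟫ - ‖w m‖ * a) ∂(stdGaussian E) ≤
      ∫ x, max (⟪w m, x⟫ - ‖w m‖ * a) 0 ∂(stdGaussian E) := by
    refine le_trans (setIntegral_mono
      ((integrable_inner_g _).sub (integrable_const _)).integrableOn hi.integrableOn
      fun x => le_max_left _ _) ?_
    exact setIntegral_le_integral hi (ae_of_all _ fun x => le_max_right _ _)
  rw [integral_sub (integrable_inner_g _).integrableOn (integrable_const _),
    integral_inner integrable_id_g.integrableOn, h.mom m, real_inner_smul_right,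
    real_inner_self_eq_norm_sq, setIntegral_const, h1, smul_eq_mul] at h2
  refine le_of_mul_le_mul_left ?_ hn
  linarith

end Crest.Agent.Prp
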