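import Crest.Agent.Prp.OneD

set_option autoImplicit false
set_option linter.unusedSectionVars false
set_option linter.unusedVariables false

open MeasureTheory ProbabilityTheory Set Filter Topology
open scoped RealInnerProductSpace

namespace Crest.Agent.Prp

universe u v

variable {E : Type u} [NormedAddCommGroup E] [InnerProductSpace ℝ E] [FiniteDimensional ℝ E]
  [MeasurableSpace E] [BorelSpace E] {ι : Type v}

/-- maximum of the linear forms -/
noncomputable def mx (s : Finset ι) (hs : s.Nonempty) (w : ι → E) (x : E) : ℝ :=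
  s.sup' hs (fun i => ⟪w i, x⟫)

/-- expected maximum -/
noncomputable def V (s : Finset ι) (hs : s.Nonempty) (w : ι → E) : ℝ :=
  ∫ x, mx s hs w x ∂(stdGaussian E)

/-- the constant `√(9/(8π))` -/
noncomputable def c0 : ℝ := 3 / 2 * phi 0

lemma c0_pos : 0 < c0 := by unfold c0; have := phi_pos 0; positivity

lemma c0_sq : c0 ^ 2 = 9 / (8 * Real.pi) := by
  rw [c0, mul_pow, phi_zero_sq]; field_simp; norm_num

lemma le_mx {s : Finset ι} (hs : s.Nonempty) (w : ι → E) (x : E) {i : ι} (hi : i ∈ s) :
    ⟪w i, x⟫ ≤ mx s hs w x := Finset.le_sup' (fun i => ⟪w i, x⟫) hi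

lemma mx_le {s : Finset ι} (hs : s.Nonempty) (w : ι → E) (x : E) {a : ℝ}
    (h : ∀ i ∈ s, ⟪w i, x⟫ ≤ a) : mx s hs w x ≤ a := Finset.sup'_le _ _ h

lemma exists_mx {s : Finset ι} (hs : s.Nonempty) (w : ι → E) (x : E) :
    ∃ i ∈ s, mx s hs w x = ⟪w i, x⟫ := Finset.exists_mem_eq_sup' hs _

lemma continuous_mx {s : Finset ι} (hs : s.Nonempty) (w : ι → E) : Continuous (mx s hs w) := by
  unfold mx
  exact Continuous.finset_sup'_apply hs fun i _ => by fun_prop

lemma integrable_norm_g : Integrable (fun x : E => ‖x‖) (stdGaussian E) :=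
  (IsGaussian.integrable_id (μ := stdGaussian E)).norm

lemma integrable_id_g : Integrable (fun x : E => x) (stdGaussian E) :=
  IsGaussian.integrable_id (μ := stdGaussian E)

lemma integrable_inner_g (a : E) : Integrable (fun x : E => ⟪a, x⟫) (stdGaussian E) :=
  integrable_id_g.const_inner a

lemma integral_inner_g (a : E) : ∫ x, ⟪a, x⟫ ∂(stdGaussian E) = 0 := by
  rw [integral_inner integrable_id_g, integral_id_stdGaussian, inner_zero_right]

lemma integrable_mx {s : Finset ι} (hs : s.Nonempty) (w : ι → E) :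
    Integrable (mx s hs w) (stdGaussian E) := by
  refine (integrable_norm_g.const_mul (∑ i ∈ s, ‖w i‖)).mono'
    (continuous_mx hs w).aestronglyMeasurable (ae_of_all _ fun x => ?_)
  obtain ⟨i, hi, h⟩ := exists_mx hs w x
  rw [h]
  refine (norm_inner_le_norm _ _).trans ?_
  gcongr
  exact Finset.single_le_sum (f := fun i => ‖w i‖) (fun _ _ => norm_nonneg _) hi

lemma V_sub {s : Finset ι} (hs : s.Nonempty) (w : ι → E) (c : E) :
    V s hs (fun i => w i - c) = V s hs w := by
  have h : ∀ x, mx s hs (fun i => w i - c) x = mx s hs w x - ⟪c, x⟫ := by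
    intro x
    apply le_antisymm
    · refine mx_le hs _ x fun i hi => ?_
      rw [inner_sub_left]; linarith [le_mx hs w x hi]
    · obtain ⟨i, hi, h⟩ := exists_mx hs w x
      have := le_mx hs (fun i => w i - c) x hi
      rw [inner_sub_left] at this; linarith
  unfold V
  simp_rw [h]
  rw [integral_sub (integrable_mx hs w) (integrable_inner_g c), integral_inner_g, sub_zero]

lemma V_smul {s : Finset ι} (hs : s.Nonempty) (w : ι → E) {t : ℝ} (ht : 0 ≤ t) :
    V s hs (fun i => t • w i) = t * V s hs w := by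
  have h : ∀ x, mx s hs (fun i => t • w i) x = t * mx s hs w x := by
    intro x
    apply le_antisymm
    · refine mx_le hs _ x fun i hi => ?_
      rw [real_inner_smul_left]; exact mul_le_mul_of_nonneg_left (le_mx hs w x hi) ht
    · obtain ⟨i, hi, h⟩ := exists_mx hs w x
      have := le_mx hs (fun i => t • w i) x hi
      rw [real_inner_smul_left] at this; rw [h]; exact this
  unfold V
  simp_rw [h]
  rw [integral_const_mul]

lemma V_congr {s : Finset ι} (hs : s.Nonempty) {w w' : ι → E} (h : ∀ i ∈ s, w i = w' i) :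
    V s hs w = V s hs w' := by
  unfold V mx
  congr 1; funext x
  exact Finset.sup'_congr hs rfl fun i hi => by rw [h i hi]

lemma continuous_V [Fintype ι] {s : Finset ι} (hs : s.Nonempty) :
    Continuous (fun w : ι → E => V s hs w) := by
  set M : ℝ := ∫ x, ‖x‖ ∂(stdGaussian E)
  have hM : 0 ≤ M := integral_nonneg fun x => norm_nonneg _
  refine (LipschitzWith.of_le_add_mul ⟨M, hM⟩ fun w w' => ?_).continuous
  have h : ∀ x, mx s hs w x ≤ mx s hs w' x + dist w w' * ‖x‖ := by
    intro x
    refine mx_le hs _ x fun i hi => ?_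
    have h1 := le_mx hs w' x hi
    have h2 : ⟪w i - w' i, x⟫ ≤ dist w w' * ‖x‖ := by
      refine (real_inner_le_norm _ _).trans ?_
      gcongr
      rw [← dist_eq_norm]; exact dist_le_pi_dist w w' i
    rw [inner_sub_left] at h2; linarith
  have := integral_mono (integrable_mx hs w)
    ((integrable_mx hs w').add (integrable_norm_g.const_mul (dist w w'))) h
  rw [integral_add' (integrable_mx hs w') (integrable_norm_g.const_mul _), integral_const_mul]
    at this
  show V s hs w ≤ V s hs w' + M * dist w w'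
  rw [mul_comm]; exact this

/-- partition inequality -/
lemma sum_inner_le [Fintype ι] (A : ι → Set E) (hA : ∀ i, MeasurableSet (A i))
    (hdisj : Pairwise fun i j => Disjoint (A i) (A j)) (hcov : ⋃ i, A i = univ)
    (g : ι → E) (F : E → ℝ) (hF : Integrable F (stdGaussian E))
    (h : ∀ i, ∀ x ∈ A i, ⟪g i, x⟫ ≤ F x) :
    ∑ i, ⟪g i, ∫ x in A i, x ∂(stdGaussian E)⟫ ≤ ∫ x, F x ∂(stdGaussian E) := by
  rw [← setIntegral_univ, ← hcov, integral_iUnion_fintype hA hdisj fun i => hF.integrableOn]
  refine Finset.sum_le_sum fun i _ => ?_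
  rw [← integral_inner integrable_id_g.integrableOn]
  exact setIntegral_mono_on (integrable_inner_g _).integrableOn hF.integrableOn (hA i) (h i)

lemma le_sum_inner [Fintype ι] (A : ι → Set E) (hA : ∀ i, MeasurableSet (A i))
    (hdisj : Pairwise fun i j => Disjoint (A i) (A j)) (hcov : ⋃ i, A i = univ)
    (g : ι → E) (F : E → ℝ) (hF : Integrable F (stdGaussian E))
    (h : ∀ i, ∀ x ∈ A i, F x ≤ ⟪g i, x⟫) :
    ∫ x, F x ∂(stdGaussian E) ≤ ∑ i, ⟪g i, ∫ x in A i, x ∂(stdGaussian E)⟫ := by
  rw [← setIntegral_univ, ← hcov, integral_iUnion_fintype hA hdisj fun i => hF.integrableOn]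
  refine Finset.sum_le_sum fun i _ => ?_
  rw [← integral_inner integrable_id_g.integrableOn]
  exact setIntegral_mono_on hF.integrableOn (integrable_inner_g _).integrableOn (hA i) (h i)

lemma map_inner_g (a : E) :
    (stdGaussian E).map (fun x => ⟪a, x⟫) = gaussianReal 0 (‖a‖₊ ^ 2) := by
  rw [← SL.map_inner_std a]
  congr 1; funext x; exact real_inner_comm _ _

lemma hyperplane_null {a : E} (ha : a ≠ 0) (c : ℝ) : stdGaussian E {x | ⟪a, x⟫ = c} = 0 := by
  have h : stdGaussian E {x | ⟪a, x⟫ = c} = ((stdGaussian E).map (fun x => ⟪a, x⟫)) {c} := by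
    rw [Measure.map_apply (by fun_prop) (measurableSet_singleton c)]; rfl
  rw [h, map_inner_g]
  have := nullSingletonClass_gaussianReal (μ := 0) (v := ‖a‖₊ ^ 2) (by simpa using ha)
  exact measure_singleton c

/-- integrals of functions of one linear form -/
lemma integral_comp_inner (a : E) (f : ℝ → ℝ) (hf : Measurable f) :
    ∫ x, f ⟪a, x⟫ ∂(stdGaussian E) = ∫ t, f (‖a‖ * t) ∂(gaussianReal 0 1) := by
  have h1 : ∫ x, f ⟪a, x⟫ ∂(stdGaussian E) =
      ∫ t, f t ∂((stdGaussian E).map (fun x => ⟪a, x⟫)) := by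
    rw [integral_map (by fun_prop) hf.aestronglyMeasurable]
  have h2 : gaussianReal 0 (‖a‖₊ ^ 2) = (gaussianReal 0 1).map (fun t => ‖a‖ * t) := by
    rw [gaussianReal_map_const_mul]
    congr 1
    · simp
    · ext; simp
  rw [h1, map_inner_g, h2, integral_map (by fun_prop) hf.aestronglyMeasurable]

lemma integral_posPart_inner (a : E) (c : ℝ) :
    ∫ x, max (⟪a, x⟫ - ‖a‖ * c) 0 ∂(stdGaussian E) = ‖a‖ * psi c := by
  rw [integral_comp_inner a (fun t => max (t - ‖a‖ * c) 0) (by fun_prop), ← integral_posPart,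
    ← integral_const_mul]
  congr 1; funext t
  rw [← mul_sub, mul_max_of_nonneg _ _ (norm_nonneg a), mul_zero]

lemma integral_max_inner (a : E) : ∫ x, max ⟪a, x⟫ 0 ∂(stdGaussian E) = phi 0 * ‖a‖ := by
  have := integral_posPart_inner a 0
  simp only [mul_zero, sub_zero, psi_zero] at this
  rw [this, mul_comm]

lemma integrable_max_inner (a : E) (c : ℝ) :
    Integrable (fun x => max (⟪a, x⟫ - c) 0) (stdGaussian E) :=
  ((integrable_inner_g a).sub (integrable_const c)).sup (integrable_const 0)

lemma integral_abs_inner (a : E) : ∫ x, |⟪a, x⟫| ∂(stdGaussian E) = 2 * phi 0 * ‖a‖ := by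
  have h : ∀ x, |⟪a, x⟫| = 2 * max ⟪a, x⟫ 0 - ⟪a, x⟫ := by
    intro x
    rcases le_total ⟪a, x⟫ 0 with h | h
    · rw [abs_of_nonpos h, max_eq_right h]; ring
    · rw [abs_of_nonneg h, max_eq_left h]; ring
  simp_rw [h]
  have hi := integrable_max_inner a 0
  simp only [sub_zero] at hi
  rw [integral_sub (hi.const_mul 2) (integrable_inner_g a), integral_const_mul,
    integral_max_inner, integral_inner_g]
  ring

/-- expected maximum of three linear forms -/
lemma integral_max3 (a b c : E) :
    ∫ x, max ⟪a, x⟫ (max ⟪b, x⟫ ⟪c, x⟫) ∂(stdGaussian E) =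
      phi 0 * ((‖a - b‖ + ‖a - c‖ + ‖b - c‖) / 2) := by
  set F : E → ℝ := fun x => max ⟪a, x⟫ (max ⟪b, x⟫ ⟪c, x⟫) with hF
  have hFi : Integrable F (stdGaussian E) :=
    (integrable_inner_g a).sup ((integrable_inner_g b).sup (integrable_inner_g c))
  have hmap : (stdGaussian E).map (LinearIsometryEquiv.neg ℝ (E := E)) = stdGaussian E :=
    stdGaussian_map _
  have hmp : MeasurePreserving (fun x : E => -x) (stdGaussian E) (stdGaussian E) :=
    ⟨measurable_neg, hmap⟩
  have hneg : ∫ x, F (-x) ∂(stdGaussian E) = ∫ x, F x ∂(stdGaussian E) :=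
    hmp.integral_comp (MeasurableEquiv.neg E).measurableEmbedding F
  have hFn : Integrable (fun x => F (-x)) (stdGaussian E) := hmp.integrable_comp_of_integrable hFi
  have key : ∀ x, F x + F (-x) = (|⟪a - b, x⟫| + |⟪a - c, x⟫| + |⟪b - c, x⟫|) / 2 := by
    intro x
    simp only [hF, inner_neg_right, inner_sub_left]
    generalize ⟪a, x⟫ = p; generalize ⟪b, x⟫ = q; generalize ⟪c, x⟫ = r
    simp only [max_def, abs_eq_max_neg]
    split_ifs <;> linarith
  have h2 : ∫ x, F x + F (-x) ∂(stdGaussian E) = 2 * ∫ x, F x ∂(stdGaussian E) := by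
    rw [integral_add hFi hFn, hneg]; ring
  simp_rw [key] at h2
  have h12 : Integrable (fun x => |⟪a - b, x⟫| + |⟪a - c, x⟫|) (stdGaussian E) :=
    (integrable_inner_g _).abs.add (integrable_inner_g _).abs
  rw [integral_div, integral_add h12
    (integrable_inner_g _).abs, integral_add (integrable_inner_g _).abs (integrable_inner_g _).abs,
    integral_abs_inner, integral_abs_inner, integral_abs_inner] at h2
  linarith

end Crest.Agent.Prp
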