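import Crest.Agent.Prp.Crit0

set_option autoImplicit false
set_option linter.unusedSectionVars false
set_option linter.unusedVariables false

open MeasureTheory ProbabilityTheory Set Filter Topology
open scoped RealInnerProductSpace

namespace Crest.Agent.Prp

universe u v

variable {E : Type u} [NormedAddCommGroup E] [InnerProductSpace ℝ E] [FiniteDimensional ℝ E]
  [MeasurableSpace E] [BorelSpace E] {ι : Type v}

/-- the Voronoi cone of `w m` -/
def cell (w : ι → E) (m : ι) : Set E := {x | ∀ l, ⟪w l, x⟫ ≤ ⟪w m, x⟫}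

lemma measurableSet_cell [Fintype ι] (w : ι → E) (m : ι) : MeasurableSet (cell w m) := by
  have : cell w m = ⋂ l, {x | ⟪w l, x⟫ ≤ ⟪w m, x⟫} := by ext x; simp [cell]
  rw [this]
  exact MeasurableSet.iInter fun l => measurableSet_le (by fun_prop) (by fun_prop)

/-- induction hypothesis -/
def IH (E : Type u) [NormedAddCommGroup E] [InnerProductSpace ℝ E] [FiniteDimensional ℝ E]
    [MeasurableSpace E] [BorelSpace E] (ι : Type v) [Fintype ι] : Prop :=
  ∀ (s : Finset ι) (hs : s.Nonempty) (u : ι → E), s.card < Fintype.card ι →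
    V s hs u ≤ c0 * Real.sqrt (∑ i ∈ s, ‖u i‖ ^ 2)

structure Crit [Fintype ι] [Nonempty ι] (w : ι → E) (μ : ℝ) : Prop where
  obt : Obtuse w
  lt : c0 < μ
  val : V Finset.univ Finset.univ_nonempty w = μ
  mom : ∀ m, ∫ x in cell w m, x ∂(stdGaussian E) = μ • w m
  sump : ∑ m, (stdGaussian E).real (cell w m) ≤ 1
  ih : IH E ι

lemma V_zero {s : Finset ι} (hs : s.Nonempty) {w : ι → E} (h : ∀ i ∈ s, w i = 0) :
    V s hs w = 0 := by
  have h1 : V s hs w = V s hs (fun i => (0:ℝ) • w i) := V_congr hs fun i hi => by simp [h i hi]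
  rw [h1, V_smul hs w le_rfl, zero_mul]

lemma sq_le_of_le_mul_sqrt {S c : ℝ} (hc : 0 ≤ c) (hS : 0 ≤ S) (h : S ≤ c * Real.sqrt S) :
    S ≤ c ^ 2 := by
  have h1 := Real.sq_sqrt hS
  have h2 := Real.sqrt_nonneg S
  by_contra hcon
  push Not at hcon
  have : c < Real.sqrt S := by
    by_contra h3; push Not at h3; nlinarith
  nlinarith

lemma exists_max_V [Fintype ι] [Nonempty ι] (w0 : ι → E)
    (h0 : c0 * Real.sqrt (∑ i, ‖w0 i‖ ^ 2) < V Finset.univ Finset.univ_nonempty w0) :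
    ∃ (w : ι → E) (μ : ℝ), c0 < μ ∧ ∑ i, ‖w i‖ ^ 2 = 1 ∧ V Finset.univ Finset.univ_nonempty w = μ ∧
      ∀ u : ι → E, V Finset.univ Finset.univ_nonempty u ≤ μ * Real.sqrt (∑ i, ‖u i‖ ^ 2) := by
  set K : Set (ι → E) := {w | ∑ i, ‖w i‖ ^ 2 = 1} with hK
  have hnorm : ∀ u : ι → E, 0 < ∑ i, ‖u i‖ ^ 2 →
      (fun i => (Real.sqrt (∑ i, ‖u i‖ ^ 2))⁻¹ • u i) ∈ K := by
    intro u hu
    show ∑ i, ‖(Real.sqrt (∑ i, ‖u i‖ ^ 2))⁻¹ • u i‖ ^ 2 = 1
    simp_rw [norm_smul, mul_pow, ← Finset.mul_sum]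
    rw [Real.norm_eq_abs, sq_abs, inv_pow, Real.sq_sqrt hu.le, inv_mul_cancel₀ hu.ne']
  have hzero : ∀ u : ι → E, ¬ 0 < ∑ i, ‖u i‖ ^ 2 →
      V Finset.univ Finset.univ_nonempty u = 0 ∧ ∑ i, ‖u i‖ ^ 2 = 0 := by
    intro u hu
    have h1 : ∑ i, ‖u i‖ ^ 2 = 0 :=
      le_antisymm (not_lt.1 hu) (Finset.sum_nonneg fun _ _ => sq_nonneg _)
    refine ⟨V_zero _ fun i hi => ?_, h1⟩
    have := (Finset.sum_eq_zero_iff_of_nonneg fun _ _ => sq_nonneg _).1 h1 i hi
    simpa using this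
  have hpos : 0 < ∑ i, ‖w0 i‖ ^ 2 := by
    by_contra h
    obtain ⟨h1, h2⟩ := hzero w0 h
    rw [h1, h2] at h0; simp at h0
  have hKc : IsCompact K := by
    refine Metric.isCompact_of_isClosed_isBounded (isClosed_eq (by fun_prop) continuous_const) ?_
    refine (Metric.isBounded_closedBall (x := (0 : ι → E)) (r := 1)).subset fun w hw => ?_
    rw [mem_closedBall_zero_iff, pi_norm_le_iff_of_nonneg zero_le_one]
    intro i
    have h1 : ‖w i‖ ^ 2 ≤ ∑ i, ‖w i‖ ^ 2 :=
      Finset.single_le_sum (f := fun i => ‖w i‖ ^ 2) (fun _ _ => sq_nonneg _) (Finset.mem_univ i)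
    rw [show ∑ i, ‖w i‖ ^ 2 = 1 from hw] at h1
    nlinarith [norm_nonneg (w i)]
  obtain ⟨w, hwK, hw⟩ := hKc.exists_isMaxOn ⟨_, hnorm w0 hpos⟩
    (continuous_V (E := E) Finset.univ_nonempty).continuousOn
  have hmax : ∀ u : ι → E, V Finset.univ Finset.univ_nonempty u ≤
      V Finset.univ Finset.univ_nonempty w * Real.sqrt (∑ i, ‖u i‖ ^ 2) := by
    intro u
    by_cases hu : 0 < ∑ i, ‖u i‖ ^ 2
    · have h1 := hw (hnorm u hu)
      have hs := Real.sqrt_pos.2 hu
      simp only [mem_ofPred_eq] at h1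
      rw [V_smul _ _ (inv_nonneg.2 hs.le), inv_mul_le_iff₀ hs] at h1
      linarith
    · obtain ⟨h1, h2⟩ := hzero u hu
      rw [h1, h2]; simp
  refine ⟨w, _, ?_, hwK, rfl, hmax⟩
  have hs := Real.sqrt_pos.2 hpos
  have := h0.trans_le (hmax w0)
  exact lt_of_mul_lt_mul_right this hs.le

lemma exists_partition [Fintype ι] [Nonempty ι] (w : ι → E) :
    ∃ A : ι → Set E, (∀ i, MeasurableSet (A i)) ∧ (Pairwise fun i j => Disjoint (A i) (A j)) ∧
      ⋃ i, A i = univ ∧ (∀ i, A i ⊆ cell w i) ∧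
      ∀ i, ∀ x ∈ cell w i, (∀ l, l ≠ i → ⟪w l, x⟫ ≠ ⟪w i, x⟫) → x ∈ A i := by
  classical
  let e := Fintype.equivFin ι
  refine ⟨fun i => cell w i ∩ ⋂ l, {x | e l < e i → ⟪w l, x⟫ < ⟪w i, x⟫}, ?_, ?_, ?_, ?_, ?_⟩
  · intro i
    refine (measurableSet_cell w i).inter (MeasurableSet.iInter fun l => ?_)
    by_cases h : e l < e i
    · simp only [h, true_imp_iff]
      exact measurableSet_lt (by fun_prop) (by fun_prop)
    · simp [h]
  · intro i j hij
    rw [Set.disjoint_left]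
    rintro x ⟨h1, h2⟩ ⟨h3, h4⟩
    simp only [mem_iInter, mem_ofPred_eq] at h2 h4
    rcases lt_or_gt_of_ne (e.injective.ne hij) with h | h
    · exact absurd (h4 i h) (not_lt.2 (h1 j))
    · exact absurd (h2 j h) (not_lt.2 (h3 i))
  · refine eq_univ_of_forall fun x => ?_
    obtain ⟨i0, -, hi0⟩ := Finset.exists_max_image Finset.univ (fun i => ⟪w i, x⟫)
      Finset.univ_nonempty
    obtain ⟨i, hi, hmin⟩ := Finset.exists_min_image
      (Finset.univ.filter fun i => x ∈ cell w i) e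
      ⟨i0, by simpa [cell] using hi0⟩
    simp only [Finset.mem_filter, Finset.mem_univ, true_and] at hi hmin
    refine mem_iUnion.2 ⟨i, hi, mem_iInter.2 fun l hl => ?_⟩
    by_contra hc
    have : x ∈ cell w l := fun l' => (hi l').trans (not_lt.1 hc)
    exact absurd (hmin l this) (not_le.2 hl)
  · intro i; exact inter_subset_left
  · intro i x hx h
    refine ⟨hx, mem_iInter.2 fun l hl => ?_⟩
    exact lt_of_le_of_ne (hx l) (h l (fun h' => by simp [h'] at hl))

theorem exists_crit [Fintype ι] [Nonempty ι] (ih : IH E ι) (w0 : ι → E)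
    (h0 : c0 * Real.sqrt (∑ i, ‖w0 i‖ ^ 2) < V Finset.univ Finset.univ_nonempty w0) :
    ∃ (w : ι → E) (μ : ℝ), Crit w μ := by
  classical
  obtain ⟨w, μ, hlt, hsq, hval, hmax⟩ := exists_max_V w0 h0
  obtain ⟨A, hA, hdisj, hcov, hsub, hsup⟩ := exists_partition w
  have hμ : 0 < μ := c0_pos.trans hlt
  set z : ι → E := fun i => ∫ x in A i, x ∂(stdGaussian E) with hz
  have h1 : μ ≤ ∑ i, ⟪w i, z i⟫ := by
    rw [← hval]
    exact le_sum_inner A hA hdisj hcov w _ (integrable_mx _ w)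
      fun i x hx => mx_le _ _ _ fun l _ => hsub i hx l
  have h2 : ∑ i, ‖z i‖ ^ 2 ≤ μ ^ 2 := by
    refine sq_le_of_le_mul_sqrt hμ.le (Finset.sum_nonneg fun _ _ => sq_nonneg _) ?_
    refine le_trans ?_ (hmax z)
    have := sum_inner_le A hA hdisj hcov z _ (integrable_mx Finset.univ_nonempty z)
      fun i x hx => le_mx _ _ _ (Finset.mem_univ i)
    simp_rw [← real_inner_self_eq_norm_sq]
    exact this
  have h3 : ∀ i, z i = μ • w i := by
    have h4 : ∑ i, ‖z i - μ • w i‖ ^ 2 = ∑ i, ‖z i‖ ^ 2 - 2 * μ * ∑ i, ⟪w i, z i⟫ +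
        μ ^ 2 * ∑ i, ‖w i‖ ^ 2 := by
      rw [Finset.mul_sum, Finset.mul_sum, ← Finset.sum_sub_distrib, ← Finset.sum_add_distrib]
      refine Finset.sum_congr rfl fun i _ => ?_
      rw [norm_sub_sq_real, norm_smul, real_inner_smul_right, real_inner_comm, mul_pow,
        Real.norm_eq_abs, sq_abs]
      ring
    have h5 : ∑ i, ‖z i - μ • w i‖ ^ 2 = 0 := by
      refine le_antisymm ?_ (Finset.sum_nonneg fun _ _ => sq_nonneg _)
      rw [h4, hsq]; nlinarith
    intro i
    have := (Finset.sum_eq_zero_iff_of_nonneg fun _ _ => sq_nonneg _).1 h5 i (Finset.mem_univ i)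
    simpa [sub_eq_zero] using this
  have hsum : ∑ i, w i = 0 := by
    have h4 : ∑ i, z i = 0 := by
      rw [← integral_iUnion_fintype hA hdisj fun i => integrable_id_g.integrableOn, hcov,
        setIntegral_univ, integral_id_stdGaussian]
    simp_rw [h3, ← Finset.smul_sum] at h4
    exact (smul_eq_zero.1 h4).resolve_left hμ.ne'
  have hneg : ∀ i j, i ≠ j → ⟪w i, w j⟫ < 0 := by
    intro i j hij
    set g : ι → E := fun l => if l = i ∨ l = j then z i + z j else z l with hg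
    have hi : i ∈ Finset.univ.erase j := by simp [hij]
    have hs : (Finset.univ.erase j).Nonempty := ⟨i, hi⟩
    have hgi : g i = z i + z j := by simp [hg]
    have hgj : g j = z i + z j := by simp [hg]
    have hgl : ∀ l ∈ (Finset.univ.erase j).erase i, g l = z l := by
      intro l hl
      simp only [Finset.mem_erase, ne_eq, Finset.mem_univ, and_true] at hl
      simp [hg, hl.1, hl.2]
    have e1 : ∑ l, ⟪g l, z l⟫ ≤ V _ hs g := by
      refine sum_inner_le A hA hdisj hcov g _ (integrable_mx hs g) fun l x hx => ?_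
      by_cases hl : l = j
      · rw [hl, hgj, ← hgi]; exact le_mx hs g x hi
      · exact le_mx hs g x (by simp [hl])
    have e2 := ih _ hs g (by rw [Finset.card_erase_of_mem (Finset.mem_univ j), Finset.card_univ]
                             exact Nat.sub_one_lt Fintype.card_ne_zero)
    set r := ∑ l ∈ (Finset.univ.erase j).erase i, ‖z l‖ ^ 2 with hr
    have e3 : ∑ l, ⟪g l, z l⟫ = r + ‖z i + z j‖ ^ 2 := by
      rw [← Finset.add_sum_erase _ _ (Finset.mem_univ j), ← Finset.add_sum_erase _ _ hi, hgi, hgj,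
        Finset.sum_congr rfl (g := fun l => ‖z l‖ ^ 2) fun l hl => by
          rw [hgl l hl, real_inner_self_eq_norm_sq],
        ← real_inner_self_eq_norm_sq (z i + z j), inner_add_right (z i + z j)]
      ring
    have e4 : ∑ l ∈ Finset.univ.erase j, ‖g l‖ ^ 2 = r + ‖z i + z j‖ ^ 2 := by
      rw [← Finset.add_sum_erase _ _ hi, hgi,
        Finset.sum_congr rfl (g := fun l => ‖z l‖ ^ 2) fun l hl => by rw [hgl l hl]]
      ring
    have e5 : ∑ l, ‖z l‖ ^ 2 = r + ‖z i‖ ^ 2 + ‖z j‖ ^ 2 := by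
      rw [← Finset.add_sum_erase _ _ (Finset.mem_univ j), ← Finset.add_sum_erase _ _ hi]
      ring
    have e6 : ∑ l, ‖z l‖ ^ 2 = μ ^ 2 := by
      simp_rw [h3, norm_smul, mul_pow, ← Finset.mul_sum, hsq, Real.norm_eq_abs, sq_abs, mul_one]
    rw [e4] at e2
    rw [e3] at e1
    have e7 := sq_le_of_le_mul_sqrt c0_pos.le (by positivity) (e1.trans e2)
    have e8 : c0 ^ 2 < μ ^ 2 := by have := c0_pos; gcongr
    rw [norm_add_sq_real] at e7
    have e9 : ⟪z i, z j⟫ < 0 := by linarith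
    rw [h3, h3, real_inner_smul_left, real_inner_smul_right] at e9
    by_contra hc
    push Not at hc
    have : 0 ≤ μ * (μ * ⟪w i, w j⟫) := by positivity
    linarith
  have hae : ∀ m, cell w m =ᵐ[stdGaussian E] A m := by
    intro m
    have h4 : ∀ᵐ x ∂(stdGaussian E), ∀ l, l ≠ m → ⟪w l, x⟫ ≠ ⟪w m, x⟫ := by
      rw [ae_all_iff]
      intro l
      by_cases hl : l = m
      · simp [hl]
      · have hne : w l - w m ≠ 0 := by
          intro h
          have h5 := hneg l m hl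
          rw [sub_eq_zero.1 h] at h5
          exact absurd h5 (not_lt.2 real_inner_self_nonneg)
        have h6 := hyperplane_null hne 0
        rw [ae_iff]
        refine measure_mono_null (fun x hx => ?_) h6
        simp only [ne_eq, hl, not_false_eq_true, forall_const, not_not, mem_ofPred_eq] at hx
        simp only [mem_ofPred_eq, inner_sub_left, hx, sub_self]
    filter_upwards [h4] with x hx
    exact propext ⟨fun h => hsup m x h hx, fun h => hsub m h⟩
  refine ⟨w, μ, ⟨hsq, hsum, hneg⟩, hlt, hval, fun m => ?_, ?_, ih⟩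
  · rw [setIntegral_congr_set (hae m)]; exact h3 m
  · simp_rw [fun m => measureReal_congr (hae m)]
    rw [← measureReal_iUnion_fintype hdisj hA, hcov]
    simp

end Crest.Agent.Prp
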