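import Crest.Agent.SL.Gauss

/-! Propeller conjecture (S0334): definitions and exact statements of the pieces. -/

set_option autoImplicit false
set_option linter.unusedSectionVars false
set_option linter.unusedVariables false

open MeasureTheory ProbabilityTheory Set
open scoped RealInnerProductSpace

namespace Crest.Agent.Prp

universe u v

/-- standard normal density -/
noncomputable def phi (a : ℝ) : ℝ := Real.exp (-a ^ 2 / 2) / Real.sqrt (2 * Real.pi)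
/-- standard normal upper tail -/
noncomputable def Qb (a : ℝ) : ℝ := (gaussianReal 0 1).real (Ioi a)
/-- `E (g - a)_+` -/
noncomputable def psi (a : ℝ) : ℝ := phi a - a * Qb a

/-- piecewise linear majorant of `p ↦ phi a * psi a`, `p = Qb a`.
Nodes `a = 0, .25, .4, .5, .6, .7, .8, .95, 1.1, 1.25, 1.4, 1.5, 1.6, 1.7, 1.8, 1.95, 2.1, 2.4`. -/
def Lines (y p : ℝ) : Prop :=
  1 / 2 ≤ p ∨ y ≤ -0.086189 + 0.4907 * p ∨ y ≤ -0.072224 + 0.4559 * p ∨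
  y ≤ -0.060714 + 0.4225 * p ∨ y ≤ -0.051241 + 0.3918 * p ∨ y ≤ -0.042245 + 0.359 * p ∨
  y ≤ -0.034066 + 0.3252 * p ∨ y ≤ -0.025211 + 0.2834 * p ∨ y ≤ -0.016914 + 0.2349 * p ∨
  y ≤ -0.010849 + 0.1902 * p ∨ y ≤ -0.006669 + 0.1506 * p ∨ y ≤ -0.004319 + 0.1215 * p ∨
  y ≤ -0.002976 + 0.1014 * p ∨ y ≤ -0.002012 + 0.0838 * p ∨ y ≤ -0.001339 + 0.0687 * p ∨
  y ≤ -0.000778 + 0.0531 * p ∨ y ≤ -0.000392 + 0.038 * p ∨ y ≤ -0.000126 + 0.0231 * p ∨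
  y ≤ 0.0076 * p

/-- Piece N (numerics). -/
def NumStmt : Prop :=
  (∀ a : ℝ, Lines (phi a * psi a) (Qb a)) ∧ psi 0.2 ≤ 0.30691 ∧ psi 0.3 ≤ 0.26678 ∧
    psi 0.4 ≤ 0.23045 ∧ psi 0.45 ≤ 0.21368 ∧ psi 0.5 ≤ 0.19781

section
variable (E : Type u) [NormedAddCommGroup E] [InnerProductSpace ℝ E] [FiniteDimensional ℝ E]
  [MeasurableSpace E] [BorelSpace E]

/-- Piece A: Ehrhard's inequality for convex sets. -/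
def EhrhardStmt : Prop :=
  ∀ (A0 A1 A : Set E), Convex ℝ A0 → Convex ℝ A1 → MeasurableSet A0 → MeasurableSet A1 →
    MeasurableSet A → ∀ l : ℝ, 0 ≤ l → l ≤ 1 →
    (∀ x ∈ A0, ∀ y ∈ A1, (1 - l) • x + l • y ∈ A) → ∀ c0 c1 : ℝ,
    Qb c0 < (stdGaussian E).real A0 → Qb c1 < (stdGaussian E).real A1 →
    Qb ((1 - l) * c0 + l * c1) < (stdGaussian E).real A

/-- Piece S1: first-order lower bound for the loss of mass under a translation. -/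
def ShiftStmt : Prop :=
  ∀ (C : Set E), MeasurableSet C → ∀ v : E, ∃ K : ℝ, ∀ ε : ℝ, 0 ≤ ε → ε ≤ 1 →
    ε * ⟪∫ x in C, x ∂(stdGaussian E), v⟫ - K * ε ^ 2 ≤
      (stdGaussian E).real C - (stdGaussian E).real {x | x - ε • v ∈ C}

/-- Piece S2: the strip estimate. -/
def StripStmt : Prop :=
  ∀ (ι : Type v) (T : Finset ι) (α β : E) (n : ι → E) (kf kf' : ι → ℝ) (κ κ' t : ℝ)
    (Z : E → ℝ), 0 < κ → 0 < κ' → 0 < t →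
    (∀ j ∈ T, κ ≤ kf j) → (∀ j ∈ T, κ' ≤ kf' j) →
    (∀ j ∈ T, ⟪n j, α⟫ = 0) → (∀ j ∈ T, ⟪n j, β⟫ = 0) →
    0 < ‖α‖ ^ 2 * ‖β‖ ^ 2 - ⟪α, β⟫ ^ 2 →
    Measurable Z → Integrable Z (stdGaussian E) → (∀ x, 0 ≤ Z x) →
    (∀ x, ∀ j ∈ T, ⟪n j, x⟫ ≤ Z x) → (∀ x (s r : ℝ), Z (x + s • α + r • β) = Z x) →
    (stdGaussian E).real {x | 0 ≤ ⟪α, x⟫ ∧ 0 ≤ ⟪β, x⟫ ∧
        (∀ j ∈ T, 0 ≤ kf j * ⟪α, x⟫ + kf' j * ⟪β, x⟫ - ⟪n j, x⟫) ∧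
        ∃ j ∈ T, kf j * ⟪α, x⟫ + kf' j * ⟪β, x⟫ - ⟪n j, x⟫ < t} ≤
      t * (∫ x, Z x ∂(stdGaussian E) + t) /
        (κ * κ' * (2 * Real.pi * Real.sqrt (‖α‖ ^ 2 * ‖β‖ ^ 2 - ⟪α, β⟫ ^ 2)))

end

section
variable {E : Type u} [NormedAddCommGroup E] [InnerProductSpace ℝ E]
  {ι : Type v} [Fintype ι] [DecidableEq ι]

/-- Gram structure of a critical configuration. -/
structure Obtuse (w : ι → E) : Prop where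
  sum_sq : ∑ i, ‖w i‖ ^ 2 = 1
  sum_zero : ∑ i, w i = 0
  neg : ∀ i j, i ≠ j → ⟪w i, w j⟫ < 0

/-- common hypotheses of the two face inequalities -/
structure FaceData (w : ι → E) (m : ι) (T : Finset ι) (α β : E) (n : ι → E) (kf kf' : ι → ℝ)
    (κ κ' : ℝ) : Prop where
  notMem : m ∉ T
  cone : ∀ x : E, (∀ l, ⟪w l, x⟫ ≤ ⟪w m, x⟫) → 0 ≤ ⟪α, x⟫ ∧ 0 ≤ ⟪β, x⟫
  dec : ∀ j ∈ T, w m - w j = kf j • α + kf' j • β - n j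
  orth1 : ∀ j ∈ T, ⟪n j, α⟫ = 0
  orth2 : ∀ j ∈ T, ⟪n j, β⟫ = 0
  kpos : 0 < κ
  kpos' : 0 < κ'
  kle : ∀ j ∈ T, κ ≤ kf j
  kle' : ∀ j ∈ T, κ' ≤ kf' j
  det_pos : 0 < ‖α‖ ^ 2 * ‖β‖ ^ 2 - ⟪α, β⟫ ^ 2

/-- face inequality for a group `T` (the induction hypothesis is already used) -/
def FaceMulti (w : ι → E) : Prop :=
  ∀ (m : ι) (T : Finset ι) (α β : E) (n : ι → E) (kf kf' : ι → ℝ) (κ κ' : ℝ),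
    FaceData w m T α β n kf kf' κ κ' → T.card + 1 < Fintype.card ι →
    (T.card : ℝ) / Fintype.card ι *
        (κ * κ' * (2 * Real.pi * Real.sqrt (‖α‖ ^ 2 * ‖β‖ ^ 2 - ⟪α, β⟫ ^ 2))) ≤
      Real.sqrt (∑ j ∈ T, ‖n j‖ ^ 2 - ‖∑ j ∈ T, n j‖ ^ 2 / (T.card + 1))

/-- face inequality for a single face -/
def FaceOne (w : ι → E) : Prop :=
  ∀ (m j : ι) (α β : E) (n : ι → E) (kf kf' : ι → ℝ) (κ κ' : ℝ),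
    FaceData w m {j} α β n kf kf' κ κ' →
    3 / 2 / Fintype.card ι *
        (κ * κ' * (2 * Real.pi * Real.sqrt (‖α‖ ^ 2 * ‖β‖ ^ 2 - ⟪α, β⟫ ^ 2))) ≤ ‖n j‖

end

/-- lower bound for the Gram determinant of the big triangle -/
noncomputable def Dlo (r1 r3 tm : ℝ) : ℝ :=
  ((3 - 4 * tm) ^ 2 / 3 - 6 * (3 * r1 + 5 * tm / 3 - 1) * (1 - 3 * r3 + tm / 3)) / 4

/-- single-face test in the triangle geometry; `kk` = number of cells, `z2 = ‖w j + w_S / 3‖²`,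
`Rj = ‖w j‖²`, `th = ∑_{S} R`. -/
def Test1 (kk R1 R2 R3 Rj th z2 : ℝ) : Prop :=
  ∀ r1 r3 tm r5 D0 δ K0 : ℝ, R1 ≤ r1 → R2 ≤ r1 → R3 ≤ r1 → r3 ≤ R1 → r3 ≤ R2 → r3 ≤ R3 →
    th ≤ tm → tm ≤ 1 / 4 → Rj ≤ r5 → 0 < D0 → D0 ≤ Dlo r1 r3 tm →
    (2 - 3 * r3) * (r5 + tm / 3) ≤ δ * D0 → δ < 1 / 3 → 0 ≤ K0 → K0 ≤ 1 / 9 →
    K0 ≤ (1 / 3 - δ) * (1 / 3 + 2 * δ) → (3 * 3.1415 / kk * K0) ^ 2 * D0 ≤ z2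

/-- group test `T = S` for five cells -/
def Test2 (R1 R2 R3 th : ℝ) : Prop :=
  ∀ r1 r3 tm D0 C : ℝ, R1 ≤ r1 → R2 ≤ r1 → R3 ≤ r1 → r3 ≤ R1 → r3 ≤ R2 → r3 ≤ R3 →
    th ≤ tm → tm ≤ 1 / 4 → 1 + 2 * tm ≤ 6 * r3 → 0 < D0 → D0 ≤ Dlo r1 r3 tm → 0 ≤ C →
    C * D0 ≤ D0 - 8 / 3 * tm * (2 - 3 * r3) → (4 * 3.1415 / 45 * C) ^ 2 * D0 ≤ th

/-- group test `T = S \ {4}`; `qk ≤ |T| / k` -/
def Test3 (qk R1 R2 R3 R4 tT : ℝ) : Prop :=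
  ∀ r1 r3 tm um D0 C : ℝ, R1 ≤ r1 → R2 ≤ r1 → R3 ≤ r1 → r3 ≤ R1 → r3 ≤ R2 → r3 ≤ R3 →
    R4 + tT ≤ tm → tm ≤ 1 / 4 → tT ≤ um → 1 + 2 * tm ≤ 6 * r3 → 0 < D0 → D0 ≤ Dlo r1 r3 tm →
    0 ≤ C → C * D0 ≤ D0 - 3 * (2 - 3 * r3) * (um + 2 * tm / 9) →
    (qk * (2 * 3.1415 / 9) * C) ^ 2 * D0 ≤ (10 * tT + R4) / 9

/-- group test in the four-point geometry; `G ≤ (|T|/k)² / σ`, `σ = 25/32` if `|T| = 1`,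
else `17/16` -/
def Test4 (G R2 R3 tT : ℝ) : Prop :=
  ∀ r2 r3 um D0 C : ℝ, r2 ≤ R2 → r3 ≤ R3 → r3 ≤ r2 → tT ≤ um → 2 * um ≤ r3 → 0 < D0 →
    D0 ≤ 4 * ((r2 - um) * (r3 - um) - r3 ^ 2 / 4) → 0 ≤ C → C * D0 ≤ D0 - 5.7 * um →
    (3.1415 / 4 * C) ^ 2 * D0 * G ≤ tT

/-- Piece G (geometry): the tests follow from the face inequalities. -/
def GeomStmt : Prop :=
  ∀ (E : Type u) [NormedAddCommGroup E] [InnerProductSpace ℝ E]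
    (ι : Type v) [Fintype ι] [DecidableEq ι] (w : ι → E), Obtuse w → FaceMulti w → FaceOne w →
    ∀ i1 i2 i3 : ι, i1 ≠ i2 → i1 ≠ i3 → i2 ≠ i3 →
    (∀ j, j ≠ i1 → j ≠ i2 → j ≠ i3 →
      Test1 (Fintype.card ι) (‖w i1‖ ^ 2) (‖w i2‖ ^ 2) (‖w i3‖ ^ 2) (‖w j‖ ^ 2)
        (1 - ‖w i1‖ ^ 2 - ‖w i2‖ ^ 2 - ‖w i3‖ ^ 2)
        (‖w j - (1 / 3 : ℝ) • (w i1 + w i2 + w i3)‖ ^ 2)) ∧
    (Fintype.card ι = 5 → Test2 (‖w i1‖ ^ 2) (‖w i2‖ ^ 2) (‖w i3‖ ^ 2)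
        (1 - ‖w i1‖ ^ 2 - ‖w i2‖ ^ 2 - ‖w i3‖ ^ 2)) ∧
    (∀ i4, i4 ≠ i1 → i4 ≠ i2 → i4 ≠ i3 → 5 ≤ Fintype.card ι →
      Test3 (((Fintype.card ι : ℝ) - 4) / Fintype.card ι) (‖w i1‖ ^ 2) (‖w i2‖ ^ 2) (‖w i3‖ ^ 2)
        (‖w i4‖ ^ 2) (1 - ‖w i1‖ ^ 2 - ‖w i2‖ ^ 2 - ‖w i3‖ ^ 2 - ‖w i4‖ ^ 2) ∧
      (‖w i1‖ ^ 2 ≤ 4 / 9 → ‖w i2‖ ^ 2 ≤ ‖w i1‖ ^ 2 → ‖w i3‖ ^ 2 ≤ ‖w i2‖ ^ 2 →
        Test4 ((((Fintype.card ι : ℝ) - 4) / Fintype.card ι) ^ 2 /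
            (if Fintype.card ι = 5 then 25 / 32 else 17 / 16))
          (‖w i2‖ ^ 2) (‖w i3‖ ^ 2)
          (1 - ‖w i1‖ ^ 2 - ‖w i2‖ ^ 2 - ‖w i3‖ ^ 2 - ‖w i4‖ ^ 2)))

/-- what is known about one cell: `R = ‖w m‖²`, `p` = its Gaussian measure, `k0 ≤ k/(k-1)` -/
def Good (k0 R p : ℝ) : Prop :=
  0 < R ∧ R ≤ 4 / 9 ∧
  (∃ y : ℝ, Lines y p ∧ ∀ c : ℝ, 0 < c → 0.35809 * (R / (2 * c) - (1 - c) ^ 2 / (2 * c * k0)) ≤ y) ∧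
  0.59841 * Real.sqrt R - 0.30691 ≤ 0.2 * p ∧ 0.59841 * Real.sqrt R - 0.26678 ≤ 0.3 * p ∧
  0.59841 * Real.sqrt R - 0.23045 ≤ 0.4 * p ∧ 0.59841 * Real.sqrt R - 0.21368 ≤ 0.45 * p ∧
  0.59841 * Real.sqrt R - 0.19781 ≤ 0.5 * p

/-- data of a configuration with at least five cells, sorted by size -/
structure Big (k0 R1 R2 R3 R4 R5 tT p1 p2 p3 p4 p5 pT : ℝ) : Prop where
  h12 : R2 ≤ R1
  h23 : R3 ≤ R2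
  h34 : R4 ≤ R3
  h45 : R5 ≤ R4
  h5T : R5 ≤ tT
  sumR : R1 + R2 + R3 + R4 + tT = 1
  sump : p1 + p2 + p3 + p4 + pT ≤ 1
  g1 : Good k0 R1 p1
  g2 : Good k0 R2 p2
  g3 : Good k0 R3 p3
  g4 : Good k0 R4 p4
  g5 : Good k0 R5 p5
  rest : ∀ x γ : ℝ, (∀ R p, Good k0 R p → R ≤ x → γ * R ≤ p) → R5 ≤ x →
    p5 + γ * (tT - R5) ≤ pT

def K5Stmt : Prop :=
  ∀ R1 R2 R3 R4 R5 tT p1 p2 p3 p4 p5 pT z2 : ℝ,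
    Big (5 / 4) R1 R2 R3 R4 R5 tT p1 p2 p3 p4 p5 pT → tT = R5 → z2 ≤ (16 * R5 + R4) / 9 →
    Test1 5 R1 R2 R3 R5 (R4 + tT) z2 → Test2 R1 R2 R3 (R4 + tT) → Test4 0.0512 R2 R3 tT → False

def K6Stmt : Prop :=
  ∀ R1 R2 R3 R4 R5 tT p1 p2 p3 p4 p5 pT : ℝ,
    Big (6 / 5) R1 R2 R3 R4 R5 tT p1 p2 p3 p4 p5 pT → tT ≤ 2 * R5 →
    Test3 (1 / 3) R1 R2 R3 R4 tT → Test4 0.1045 R2 R3 tT → False

def K7Stmt : Prop :=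
  ∀ R1 R2 R3 R4 R5 tT p1 p2 p3 p4 p5 pT : ℝ,
    Big 1 R1 R2 R3 R4 R5 tT p1 p2 p3 p4 p5 pT →
    Test3 (3 / 7) R1 R2 R3 R4 tT → Test4 0.1728 R2 R3 tT → False

/-- four cells: `a_ij = -⟪w i, w j⟫`, `l_ij = ‖w i - w j‖`, sorted by probability -/
def K4Stmt : Prop :=
  ∀ a12 a13 a14 a23 a24 a34 R1 R2 R3 R4 l12 l13 l14 l23 l24 l34 p1 p2 p3 p4 y1 y2 y3 y4 : ℝ,
    0 < a12 → 0 < a13 → 0 < a14 → 0 < a23 → 0 < a24 → 0 < a34 →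
    R1 = a12 + a13 + a14 → R2 = a12 + a23 + a24 → R3 = a13 + a23 + a34 → R4 = a14 + a24 + a34 →
    R1 + R2 + R3 + R4 = 1 →
    l12 ^ 2 = R1 + R2 + 2 * a12 → l13 ^ 2 = R1 + R3 + 2 * a13 → l14 ^ 2 = R1 + R4 + 2 * a14 →
    l23 ^ 2 = R2 + R3 + 2 * a23 → l24 ^ 2 = R2 + R4 + 2 * a24 → l34 ^ 2 = R3 + R4 + 2 * a34 →
    p2 ≤ p1 → p3 ≤ p2 → p4 ≤ p3 → 0 ≤ p4 → p1 + p2 + p3 + p4 ≤ 1 →
    Lines y1 p1 → Lines y2 p2 → Lines y3 p3 → Lines y4 p4 →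
    0.17904 * (3 / 2 - (l23 + l24 + l34) / 2) ≤ y1 →
    0.17904 * (3 / 2 - (l13 + l14 + l34) / 2) ≤ y2 →
    0.17904 * (3 / 2 - (l12 + l14 + l24) / 2) ≤ y3 →
    0.17904 * (3 / 2 - (l12 + l13 + l23) / 2) ≤ y4 →
    Test1 4 R1 R2 R3 R4 R4 (16 / 9 * R4) → False

end Crest.Agent.Prp
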