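import Crest.Agent.Prp.OneD

/-! Ehrhard's inequality for intervals. -/

set_option autoImplicit false

open MeasureTheory ProbabilityTheory Set Filter Topology

namespace Crest.Agent.Prp

lemma anti_of_deriv {f f' : ℝ → ℝ} {a b : ℝ} (hab : a ≤ b)
    (h : ∀ x ∈ Icc a b, HasDerivAt f (f' x) x) (h' : ∀ x ∈ Icc a b, f' x ≤ 0) : f b ≤ f a :=
  antitoneOn_of_hasDerivWithinAt_nonpos (convex_Icc a b)
    (fun x hx => (h x hx).continuousAt.continuousWithinAt)
    (fun x hx => (h x (interior_subset hx)).hasDerivWithinAt)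
    (fun x hx => h' x (interior_subset hx)) (left_mem_Icc.2 hab) (right_mem_Icc.2 hab) hab

lemma nonneg_of_deriv {f f' : ℝ → ℝ} {a : ℝ} (h : ∀ x, a ≤ x → HasDerivAt f (f' x) x)
    (h' : ∀ x, a ≤ x → f' x ≤ 0) (hl : Tendsto f atTop (𝓝 0)) : 0 ≤ f a :=
  le_of_tendsto hl ((eventually_ge_atTop a).mono fun _ hb =>
    anti_of_deriv hb (fun x hx => h x hx.1) fun x hx => h' x hx.1)

lemma hasDerivAt_K (m : ℝ) {s : ℝ} (hs : 0 < s) :
    HasDerivAt (fun s => phi s / s - Qb s - m * Qb s) (phi s * (m - 1 / s ^ 2)) s := by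
  have := (((hasDerivAt_phi s).fun_div (hasDerivAt_id' s) hs.ne').fun_sub
    (hasDerivAt_Qb s)).fun_sub ((hasDerivAt_Qb s).const_mul m)
  exact this.congr_deriv (by field_simp; ring)

lemma superadd_aux {x y z : ℝ} (hx : 0 < x) (hz : 0 < z) (hxy : x ≤ y)
    (h : Qb x + Qb y = Qb z) : phi x / x + phi y / y ≤ phi z / z := by
  have hy : 0 < y := hx.trans_le hxy
  have hzx : z ≤ x := by
    by_contra hc
    have := Qb_strictAnti (not_le.1 hc)
    linarith [Qb_pos y]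
  have h1 := anti_of_deriv hzx (fun s hs => hasDerivAt_K (1 / x ^ 2) (hz.trans_le hs.1))
    fun s hs => mul_nonpos_of_nonneg_of_nonpos (phi_pos s).le (sub_nonpos.2 (by
      have := hz.trans_le hs.1
      have := hs.2
      gcongr))
  have h2 := nonneg_of_deriv (f := fun s => -(phi s / s - Qb s - 1 / y ^ 2 * Qb s)) (a := y)
    (fun s hs => (hasDerivAt_K (1 / y ^ 2) (hy.trans_le hs)).fun_neg)
    (fun s hs => neg_nonpos.2 (mul_nonneg (phi_pos s).le (sub_nonneg.2 (by gcongr))))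
    (by
      have := (((tendsto_phi_atTop.div_atTop tendsto_id).sub tendsto_Qb_atTop).sub
        (tendsto_Qb_atTop.const_mul (1 / y ^ 2))).neg
      simpa using this)
  have h3 : 1 / y ^ 2 * Qb y ≤ 1 / x ^ 2 * Qb y := by
    have := (Qb_pos y).le
    gcongr
  have h4 : 1 / x ^ 2 * Qb z = 1 / x ^ 2 * Qb x + 1 / x ^ 2 * Qb y := by rw [← h]; ring
  linarith

lemma superadd {x y z : ℝ} (hx : 0 < x) (hy : 0 < y) (hz : 0 < z)
    (h : Qb x + Qb y = Qb z) : phi x / x + phi y / y ≤ phi z / z := by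
  rcases le_total x y with hxy | hxy
  · exact superadd_aux hx hz hxy h
  · rw [add_comm] at h ⊢; exact superadd_aux hy hz hxy h

lemma quad_ineq {x y z : ℝ} (hx : 0 < x) (hy : 0 < y) (hz : 0 < z)
    (h : Qb x + Qb y = Qb z) (u v : ℝ) :
    z * (u + v) ^ 2 / phi z ≤ x * u ^ 2 / phi x + y * v ^ 2 / phi y := by
  have h1 := superadd hx hy hz h
  have hp : 0 < phi x / x := div_pos (phi_pos x) hx
  have hq : 0 < phi y / y := div_pos (phi_pos y) hy
  have e : ∀ t w : ℝ, t * w / phi t = w / (phi t / t) := fun t w => by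
    rw [div_div_eq_mul_div, mul_comm]
  rw [e, e, e]
  generalize phi x / x = p at *
  generalize phi y / y = q at *
  generalize phi z / z = r at *
  calc (u + v) ^ 2 / r ≤ (u + v) ^ 2 / (p + q) := by gcongr
    _ ≤ u ^ 2 / p + v ^ 2 / q := by
      rw [div_add_div _ _ hp.ne' hq.ne', div_le_div_iff₀ (by positivity) (by positivity)]
      nlinarith [sq_nonneg (u * q - v * p)]

lemma key_ineq {α β C : ℝ} (hαβ : α < β) (h : Qb C = Qb α - Qb β) (x y : ℝ) :
    0 ≤ C * (x + y) ^ 2 / phi C - α * x ^ 2 / phi α + β * y ^ 2 / phi β := by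
  have hαC : α < C := Qb_strictAnti.lt_iff_gt.1 (by linarith [Qb_pos β])
  have hβC : -β < C := Qb_strictAnti.lt_iff_gt.1 (by rw [Qb_neg]; linarith [Qb_lt_one α])
  have hn : ∀ t w : ℝ, -t * w / phi (-t) = -(t * w / phi t) := fun t w => by
    rw [phi_neg]; ring
  by_cases h1 : C < 0
  · have := quad_ineq (x := -α) (y := β) (z := -C) (by linarith) (by linarith) (by linarith)
      (by rw [Qb_neg, Qb_neg]; linarith) x y
    rw [hn, hn] at this; linarith
  by_cases h2 : 0 < α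
  · have := quad_ineq (x := C) (y := β) (z := α) (by linarith) (by linarith) h2
      (by linarith) (x + y) (-y)
    rw [add_neg_cancel_right, neg_sq] at this; linarith
  by_cases h3 : β < 0
  · have := quad_ineq (x := C) (y := -α) (z := -β) (by linarith) (by linarith) (by linarith)
      (by rw [Qb_neg, Qb_neg]; linarith) (x + y) (-x)
    rw [hn, hn, neg_sq, show x + y + -x = y by ring] at this; linarith
  have a1 : 0 ≤ C * (x + y) ^ 2 / phi C :=
    div_nonneg (mul_nonneg (not_lt.1 h1) (sq_nonneg _)) (phi_pos _).le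
  have a2 : α * x ^ 2 / phi α ≤ 0 :=
    div_nonpos_of_nonpos_of_nonneg (mul_nonpos_of_nonpos_of_nonneg (not_lt.1 h2) (sq_nonneg _))
      (phi_pos _).le
  have a3 : 0 ≤ β * y ^ 2 / phi β :=
    div_nonneg (mul_nonneg (not_lt.1 h3) (sq_nonneg _)) (phi_pos _).le
  linarith

/-- the inverse of the tail function -/
noncomputable def Qi : ℝ → ℝ := Function.invFun Qb

lemma Qi_Qb (a : ℝ) : Qi (Qb a) = a := Function.leftInverse_invFun Qb_strictAnti.injective a

lemma Qb_Qi {p : ℝ} (hp : p ∈ Ioo (0 : ℝ) 1) : Qb (Qi p) = p :=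
  Function.invFun_eq (exists_Qb_eq hp.1 hp.2)

lemma hasDerivAt_Qi {p : ℝ} (hp : p ∈ Ioo (0 : ℝ) 1) : HasDerivAt Qi (-phi (Qi p))⁻¹ p := by
  have hn : Ioo (0 : ℝ) 1 ∈ 𝓝 p := Ioo_mem_nhds hp.1 hp.2
  refine (hasDerivAt_Qb _).of_local_left_inverse ?_ (neg_ne_zero.2 (phi_pos _).ne')
    (mem_of_superset hn fun q hq => Qb_Qi hq)
  have : ContinuousAt (fun q => -Qi q) p := by
    refine continuousAt_of_monotoneOn_of_image_mem_nhds (fun a ha b hb hab => ?_) hn ?_
    · rw [neg_le_neg_iff, ← Qb_strictAnti.le_iff_ge, Qb_Qi ha, Qb_Qi hb]; exact hab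
    · refine mem_of_superset univ_mem fun t _ => ⟨Qb (-t), ⟨Qb_pos _, Qb_lt_one _⟩, ?_⟩
      simp [Qi_Qb]
  exact this.neg.congr (Eventually.of_forall fun q => neg_neg _)

lemma ehr_interval {α0 β0 α1 β1 c0 c1 l : ℝ} (hl0 : 0 ≤ l) (hl1 : l ≤ 1)
    (h0 : Qb c0 < Qb α0 - Qb β0) (h1 : Qb c1 < Qb α1 - Qb β1) :
    Qb ((1 - l) * c0 + l * c1) < Qb ((1 - l) * α0 + l * α1) - Qb ((1 - l) * β0 + l * β1) := by
  have a0 : α0 < β0 := Qb_strictAnti.lt_iff_gt.1 (by linarith [Qb_pos c0])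
  have a1 : α1 < β1 := Qb_strictAnti.lt_iff_gt.1 (by linarith [Qb_pos c1])
  let α : ℝ → ℝ := fun t => (1 - t) * α0 + t * α1
  let β : ℝ → ℝ := fun t => (1 - t) * β0 + t * β1
  have hα : ∀ t, HasDerivAt α (α1 - α0) t := fun t =>
    ((((hasDerivAt_id' t).const_sub 1).mul_const α0).fun_add
      ((hasDerivAt_id' t).mul_const α1)).congr_deriv (by ring)
  have hβ : ∀ t, HasDerivAt β (β1 - β0) t := fun t =>
    ((((hasDerivAt_id' t).const_sub 1).mul_const β0).fun_add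
      ((hasDerivAt_id' t).mul_const β1)).congr_deriv (by ring)
  have hlt : ∀ t ∈ Icc (0 : ℝ) 1, α t < β t := fun t ht => by
    have e : β t - α t = (1 - t) * (β0 - α0) + t * (β1 - α1) := by simp only [α, β]; ring
    have := ht.1
    have := ht.2
    rcases le_total t (1 / 2) with h | h <;> nlinarith
  have hD : ∀ t ∈ Icc (0 : ℝ) 1, Qb (α t) - Qb (β t) ∈ Ioo (0 : ℝ) 1 := fun t ht =>
    ⟨sub_pos.2 (Qb_strictAnti (hlt t ht)), by linarith [Qb_lt_one (α t), Qb_pos (β t)]⟩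
  let C : ℝ → ℝ := fun t => Qi (Qb (α t) - Qb (β t))
  let N : ℝ → ℝ := fun t => phi (α t) * (α1 - α0) + -(phi (β t) * (β1 - β0))
  have hC : ∀ t ∈ Icc (0 : ℝ) 1, HasDerivAt C (N t / phi (C t)) t := fun t ht => by
    have := (hasDerivAt_Qi (hD t ht)).comp t
      (((hasDerivAt_Qb _).comp t (hα t)).fun_sub ((hasDerivAt_Qb _).comp t (hβ t)))
    exact this.congr_deriv (by
      have := (phi_pos (C t)).ne'
      simp only [N, C] at this ⊢
      field_simp; ring)
  have hC' : ∀ t ∈ Icc (0 : ℝ) 1, HasDerivAt (fun t => N t / phi (C t))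
      ((C t * (phi (α t) * (α1 - α0) + -(phi (β t) * (β1 - β0))) ^ 2 / phi (C t) -
        α t * (phi (α t) * (α1 - α0)) ^ 2 / phi (α t) +
        β t * (-(phi (β t) * (β1 - β0))) ^ 2 / phi (β t)) / phi (C t)) t := fun t ht => by
    have h2 := ((((hasDerivAt_phi _).comp t (hα t)).mul_const (α1 - α0)).fun_add
      (((hasDerivAt_phi _).comp t (hβ t)).mul_const (β1 - β0)).fun_neg).fun_div
      ((hasDerivAt_phi _).comp t (hC t ht)) (phi_pos _).ne'
    exact h2.congr_deriv (by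
      have := (phi_pos (C t)).ne'
      have := (phi_pos (α t)).ne'
      have := (phi_pos (β t)).ne'
      simp only [N, Function.comp]
      field_simp; ring)
  have hconv : ConvexOn ℝ (Icc (0 : ℝ) 1) C :=
    convexOn_of_hasDerivWithinAt2_nonneg (convex_Icc 0 1)
      (fun t ht => (hC t ht).continuousAt.continuousWithinAt)
      (fun t ht => (hC t (interior_subset ht)).hasDerivWithinAt)
      (fun t ht => (hC' t (interior_subset ht)).hasDerivWithinAt)
      (fun t ht => div_nonneg (key_ineq (hlt t (interior_subset ht))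
        (Qb_Qi (hD t (interior_subset ht))) _ _) (phi_pos _).le)
  have h2 := hconv.2 (left_mem_Icc.2 zero_le_one) (right_mem_Icc.2 zero_le_one)
    (sub_nonneg.2 hl1) hl0 (by ring)
  simp only [smul_eq_mul, mul_zero, mul_one, zero_add] at h2
  have b0 : C 0 < c0 := Qb_strictAnti.lt_iff_gt.1 (by
    rw [Qb_Qi (hD 0 (left_mem_Icc.2 zero_le_one))]; simpa [α, β] using h0)
  have b1 : C 1 < c1 := Qb_strictAnti.lt_iff_gt.1 (by
    rw [Qb_Qi (hD 1 (right_mem_Icc.2 zero_le_one))]; simpa [α, β] using h1)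
  have b2 : C l < (1 - l) * c0 + l * c1 := by
    rcases le_total l (1 / 2) with h | h <;> nlinarith
  have := Qb_strictAnti b2
  rwa [Qb_Qi (hD l ⟨hl0, hl1⟩)] at this

/-- Ehrhard's inequality for convex sets, for a measure `μ` -/
def Ehr (X : Type) [AddCommGroup X] [Module ℝ X] [MeasurableSpace X] (μ : Measure X) : Prop :=
  ∀ (A0 A1 A : Set X), Convex ℝ A0 → Convex ℝ A1 → MeasurableSet A0 → MeasurableSet A1 →
    MeasurableSet A → ∀ l : ℝ, 0 ≤ l → l ≤ 1 →
    (∀ x ∈ A0, ∀ y ∈ A1, (1 - l) • x + l • y ∈ A) → ∀ c0 c1 : ℝ,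
    Qb c0 < μ.real A0 → Qb c1 < μ.real A1 → Qb ((1 - l) * c0 + l * c1) < μ.real A

lemma exists_Icc {A : Set ℝ} (hA : Convex ℝ A) (hm : MeasurableSet A) {c : ℝ}
    (h : Qb c < (gaussianReal 0 1).real A) :
    ∃ α β, α ≤ β ∧ Icc α β ⊆ A ∧ Qb c < Qb α - Qb β := by
  obtain ⟨K, hKA, hK, hKm⟩ := hm.exists_lt_isCompact (μ := gaussianReal 0 1)
    (r := ENNReal.ofReal (Qb c)) ((ENNReal.ofReal_lt_iff_lt_toReal (Qb_nonneg c)
      (measure_ne_top _ _)).2 h)
  have hne : K.Nonempty := nonempty_of_measure_ne_zero (pos_of_gt hKm).ne'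
  obtain ⟨α, hα⟩ := hK.exists_isLeast hne
  obtain ⟨β, hβ⟩ := hK.exists_isGreatest hne
  refine ⟨α, β, hβ.2 hα.1, hA.ordConnected.out (hKA hα.1) (hKA hβ.1), ?_⟩
  rw [← real_Icc (hβ.2 hα.1)]
  exact ((ENNReal.ofReal_lt_iff_lt_toReal (Qb_nonneg c) (measure_ne_top _ _)).1 hKm).trans_le
    (measureReal_mono fun x hx => ⟨hα.2 hx, hβ.2 hx⟩)

theorem ehr_one : Ehr ℝ (gaussianReal 0 1) := by
  intro A0 A1 A h0 h1 m0 m1 _ l hl0 hl1 hA c0 c1 hc0 hc1
  obtain ⟨α0, β0, a0, a1, a2⟩ := exists_Icc h0 m0 hc0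
  obtain ⟨α1, β1, b0, b1, b2⟩ := exists_Icc h1 m1 hc1
  have hle : (1 - l) * α0 + l * α1 ≤ (1 - l) * β0 + l * β1 := by nlinarith
  refine (ehr_interval hl0 hl1 a2 b2).trans_le ?_
  rw [← real_Icc hle]
  refine measureReal_mono fun t ht => ?_
  rw [← segment_eq_Icc hle, segment_eq_image] at ht
  obtain ⟨s, hs, rfl⟩ := ht
  have := hA ((1 - s) * α0 + s * β0) (a1 ⟨by nlinarith [hs.1, hs.2], by nlinarith [hs.1, hs.2]⟩)
    ((1 - s) * α1 + s * β1) (b1 ⟨by nlinarith [hs.1, hs.2], by nlinarith [hs.1, hs.2]⟩)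
  convert this using 1
  simp only [smul_eq_mul]; ring

end Crest.Agent.Prp
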