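import Crest.Agent.Prp.EhrA

/-! Ehrhard's inequality for convex sets, by symmetrisation. -/

set_option autoImplicit false

open MeasureTheory ProbabilityTheory Set Filter Topology

namespace Crest.Agent.Prp

local notation "γ" => gaussianReal 0 1

section
variable {X : Type} [MeasurableSpace X] {μ : Measure X}

/-- Ehrhard symmetrisation of the fibres -/
def sym (μ : Measure X) (A : Set (ℝ × X)) : Set (ℝ × ℝ) :=
  {q | Qb q.2 < μ.real (Prod.mk q.1 ⁻¹' A)}

lemma measurableSet_sym [SFinite μ] {A : Set (ℝ × X)} (hA : MeasurableSet A) :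
    MeasurableSet (sym μ A) :=
  measurableSet_lt (continuous_Qb.measurable.comp measurable_snd)
    ((measurable_measure_prodMk_left hA).ennreal_toReal.comp measurable_fst)

lemma gauss_Qb_lt {p : ℝ} (h0 : 0 ≤ p) (h1 : p ≤ 1) : (γ).real {t | Qb t < p} = p := by
  rcases h0.eq_or_lt with rfl | h0
  · have : {t | Qb t < 0} = ∅ := eq_empty_of_forall_notMem fun t ht => (Qb_nonneg t).not_gt ht
    simp [this]
  rcases h1.eq_or_lt with rfl | h1
  · have : {t | Qb t < 1} = univ := eq_univ_of_forall Qb_lt_one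
    simp [this]
  obtain ⟨a, rfl⟩ := exists_Qb_eq h0 h1
  have : {t | Qb t < Qb a} = Ioi a := by ext t; exact Qb_strictAnti.lt_iff_gt
  rw [this]; rfl

lemma measure_sym [IsProbabilityMeasure μ] {A : Set (ℝ × X)} (hA : MeasurableSet A) :
    ((γ).prod γ).real (sym μ A) = ((γ).prod μ).real A := by
  rw [Measure.real, Measure.real, Measure.prod_apply hA, Measure.prod_apply (measurableSet_sym hA)]
  congr 1
  refine lintegral_congr fun s => ?_
  rw [← ENNReal.toReal_eq_toReal_iff' (measure_ne_top _ _) (measure_ne_top _ _)]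
  exact gauss_Qb_lt (p := μ.real (Prod.mk s ⁻¹' A)) measureReal_nonneg measureReal_le_one

lemma sym_up {A : Set (ℝ × X)} {y t t' : ℝ} (h : (y, t) ∈ sym μ A) (ht : t ≤ t') :
    (y, t') ∈ sym μ A := (Qb_strictAnti.antitone ht).trans_lt h

variable [AddCommGroup X] [Module ℝ X]

omit [MeasurableSpace X] in
lemma convex_fibre {A : Set (ℝ × X)} (hA : Convex ℝ A) (s : ℝ) : Convex ℝ (Prod.mk s ⁻¹' A) := by
  intro x hx y hy a b ha hb hab
  have := hA hx hy ha hb hab
  rwa [Prod.smul_mk, Prod.smul_mk, Prod.mk_add_mk, ← add_smul, hab, one_smul] at this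

/-- the hypotheses of Ehrhard's inequality -/
structure Tri (l : ℝ) (A0 A1 A : Set X) : Prop where
  c0 : Convex ℝ A0
  c1 : Convex ℝ A1
  m0 : MeasurableSet A0
  m1 : MeasurableSet A1
  m : MeasurableSet A
  rel : ∀ x ∈ A0, ∀ y ∈ A1, (1 - l) • x + l • y ∈ A

lemma sym_rel (h : Ehr X μ) {l : ℝ} (hl0 : 0 ≤ l) (hl1 : l ≤ 1) {A0 A1 A : Set (ℝ × X)}
    (T : Tri l A0 A1 A) : ∀ x ∈ sym μ A0, ∀ y ∈ sym μ A1, (1 - l) • x + l • y ∈ sym μ A :=
  fun x hx y hy => h _ _ _ (convex_fibre T.c0 x.1) (convex_fibre T.c1 y.1)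
    (measurable_prodMk_left T.m0) (measurable_prodMk_left T.m1)
    (measurable_prodMk_left (x := (1 - l) • x.1 + l • y.1) T.m)
    l hl0 hl1 (fun _ hu _ hv => T.rel _ hu _ hv) _ _ hx hy

lemma convex_sym (h : Ehr X μ) {A : Set (ℝ × X)} (hA : Convex ℝ A) (hm : MeasurableSet A) :
    Convex ℝ (sym μ A) := by
  intro x hx y hy a b ha hb hab
  obtain rfl : a = 1 - b := by linarith
  exact sym_rel h hb (by linarith) ⟨hA, hA, hm, hm, hm, fun _ hu _ hv => hA hu hv ha hb hab⟩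
    x hx y hy

lemma Tri.sym [SFinite μ] (h : Ehr X μ) {l : ℝ} (hl0 : 0 ≤ l) (hl1 : l ≤ 1)
    {A0 A1 A : Set (ℝ × X)} (T : Tri l A0 A1 A) : Tri l (sym μ A0) (sym μ A1) (sym μ A) :=
  ⟨convex_sym h T.c0 T.m0, convex_sym h T.c1 T.m1, measurableSet_sym T.m0, measurableSet_sym T.m1,
    measurableSet_sym T.m, sym_rel h hl0 hl1 T⟩

end

lemma two_Qb_le {y : ℝ} (hy : 1 ≤ y) : 2 * Qb (y + 1) ≤ Qb y := by
  have := nonneg_of_deriv (f := fun s => Qb s - 2 * Qb (s + 1)) (a := y)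
    (fun s _ => (hasDerivAt_Qb s).fun_sub
      (((hasDerivAt_Qb (s + 1)).comp_add_const s 1).const_mul 2))
    (fun s hs => by
      have e : phi s = phi (s + 1) * Real.exp (s + 1 / 2) := by
        unfold phi
        rw [div_mul_eq_mul_div, ← Real.exp_add]; congr 2; ring
      have := Real.add_one_le_exp (s + 1 / 2)
      have := phi_pos (s + 1)
      nlinarith)
    (by
      have := tendsto_Qb_atTop.sub
        ((tendsto_Qb_atTop.comp (tendsto_atTop_add_const_right _ 1 tendsto_id)).const_mul 2)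
      simpa using this)
  linarith

lemma sym_inv {A : Set (ℝ × ℝ)} (hA : Convex ℝ A) (hm : MeasurableSet A) {a c : ℝ} (hc : 0 ≤ c)
    (h : ∀ q ∈ A, ∀ s : ℝ, 0 ≤ s → q + s • (a, c) ∈ A ∧ q + s • (a, -c) ∈ A) :
    ∀ q ∈ sym γ A, ∀ s : ℝ, 0 ≤ s → q + s • (a, -c) ∈ sym γ A := by
  rintro ⟨y, t⟩ hq s hs
  have hq' : Qb t < (γ).real (Prod.mk y ⁻¹' A) := hq
  rcases hc.eq_or_lt with rfl | hc
  · refine lt_of_lt_of_le (by simpa using hq') (measureReal_mono fun x hx => ?_)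
    simpa using (h _ hx s hs).1
  obtain ⟨x, hx⟩ : (Prod.mk y ⁻¹' A).Nonempty := by
    by_contra hn
    rw [not_nonempty_iff_eq_empty.1 hn] at hq'
    exact (Qb_pos t).not_gt (by simpa using hq')
  obtain ⟨δ, hδ, hδ'⟩ : ∃ δ, 0 < δ ∧ (y, t - δ) ∈ sym γ A := by
    have : ∀ᶠ δ in 𝓝 (0 : ℝ), Qb (t - δ) < (γ).real (Prod.mk y ⁻¹' A) :=
      (by fun_prop : Continuous fun δ => Qb (t - δ)).continuousAt.eventually_lt continuousAt_const
        (by simpa using hq')
    exact ((this.filter_mono (nhdsWithin_le_nhds (s := Ioi 0))).and self_mem_nhdsWithin).exists.imp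
      fun _ h => ⟨h.2, h.1⟩
  obtain ⟨S, ⟨hS1, hS2⟩, hS3⟩ := (((eventually_gt_atTop s).and
    (eventually_ge_atTop ((|x| + 3) / c))).and
    (eventually_ge_atTop (s * (|x| + 2 - t + δ) / δ))).exists
  have hS0 : 0 < S := hs.trans_lt hS1
  rw [div_le_iff₀ hc] at hS2
  rw [div_le_iff₀ hδ] at hS3
  have h1 : (y + S * a, |x| + 2 - S * c) ∈ sym γ A := by
    have hsub : Icc (x - S * c) (x + S * c) ⊆ Prod.mk (y + S * a) ⁻¹' A :=
      (convex_fibre hA _).ordConnected.out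
        (by simpa [sub_eq_add_neg] using (h _ hx S hS0.le).2) (by simpa using (h _ hx S hS0.le).1)
    refine lt_of_lt_of_le ?_ (measureReal_mono hsub)
    rw [real_Icc (by nlinarith [abs_nonneg x])]
    have e1 := Qb_neg (S * c - |x| - 2)
    have e2 := Qb_neg (S * c - x)
    have e3 := two_Qb_le (y := S * c - |x| - 2) (by linarith)
    have e4 := Qb_strictAnti (show S * c - |x| - 2 + 1 < S * c - x by linarith [le_abs_self x])
    have e5 := Qb_strictAnti (show S * c - |x| - 2 + 1 < x + S * c by linarith [neg_abs_le x])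
    rw [neg_sub] at e2
    rw [show -(S * c - |x| - 2) = |x| + 2 - S * c by ring] at e1
    dsimp only
    linarith
  have h2 := convex_sym ehr_one hA hm hδ' h1 (a := 1 - s / S) (b := s / S)
    (sub_nonneg.2 ((div_le_one hS0).2 hS1.le)) (by positivity) (by ring)
  simp only [Prod.smul_mk, Prod.mk_add_mk, smul_eq_mul] at h2 ⊢
  rw [show (1 - s / S) * y + s / S * (y + S * a) = y + s * a by field_simp; ring] at h2
  refine sym_up h2 ?_
  rw [show (1 - s / S) * (t - δ) + s / S * (|x| + 2 - S * c) =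
    t + s * -c - (S * δ - s * (|x| + 2 - t + δ)) / S by field_simp; ring]
  exact sub_le_self _ (div_nonneg (by linarith) hS0.le)

lemma Tri.preimage {X : Type*} {Y : Type} [MeasurableSpace X] [AddCommGroup X] [Module ℝ X]
    [MeasurableSpace Y] [AddCommGroup Y] [Module ℝ Y] (f : Y →ₗ[ℝ] X) (hf : Measurable f) {l : ℝ}
    {A0 A1 A : Set X} (c0 : Convex ℝ A0) (c1 : Convex ℝ A1) (m0 : MeasurableSet A0)
    (m1 : MeasurableSet A1) (m : MeasurableSet A)
    (rel : ∀ x ∈ A0, ∀ y ∈ A1, (1 - l) • x + l • y ∈ A) :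
    Tri l (f ⁻¹' A0) (f ⁻¹' A1) (f ⁻¹' A) :=
  ⟨c0.linear_preimage f, c1.linear_preimage f, hf m0, hf m1, hf m, fun x hx y hy => by
    simpa using rel _ hx _ hy⟩

lemma rot_mp (θ : ℝ) : MeasurePreserving (ContinuousLinearMap.rotation (E := ℝ) θ)
    ((γ).prod γ) ((γ).prod γ) :=
  ⟨(ContinuousLinearMap.continuous _).measurable,
    IsGaussian.map_rotation_eq_self (by simp) θ⟩

/-- invariance under a cone -/
def Inv (δ : ℝ) (A : Set (ℝ × ℝ)) : Prop :=
  ∀ q ∈ A, ∀ s : ℝ, 0 ≤ s → q + s • (Real.sin δ, Real.cos δ) ∈ A ∧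
    q + s • (Real.sin δ, -Real.cos δ) ∈ A

/-- symmetrise, then rotate -/
noncomputable def step (θ : ℝ) (A : Set (ℝ × ℝ)) : Set (ℝ × ℝ) :=
  ContinuousLinearMap.rotation (E := ℝ) (-θ) ⁻¹' sym γ A

lemma step_real (θ : ℝ) {A : Set (ℝ × ℝ)} (hm : MeasurableSet A) :
    ((γ).prod γ).real (step θ A) = ((γ).prod γ).real A := by
  rw [step, (rot_mp _).measureReal_preimage (measurableSet_sym hm).nullMeasurableSet,
    measure_sym hm]

lemma Tri.step (θ : ℝ) {l : ℝ} (hl0 : 0 ≤ l) (hl1 : l ≤ 1) {A0 A1 A : Set (ℝ × ℝ)}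
    (T : Tri l A0 A1 A) : Tri l (step θ A0) (step θ A1) (step θ A) :=
  have T' := T.sym ehr_one hl0 hl1
  Tri.preimage (ContinuousLinearMap.rotation (E := ℝ) (-θ)).toLinearMap (rot_mp _).measurable
    T'.c0 T'.c1 T'.m0 T'.m1 T'.m T'.rel

lemma step_up (θ : ℝ) (A : Set (ℝ × ℝ)) :
    ∀ q ∈ step θ A, ∀ s : ℝ, 0 ≤ s → q + s • (Real.sin θ, Real.cos θ) ∈ step θ A := by
  intro q hq s hs
  have e : ContinuousLinearMap.rotation (E := ℝ) (-θ) (Real.sin θ, Real.cos θ) = (0, 1) := by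
    rw [ContinuousLinearMap.rotation_apply]
    ext
    · simp; ring
    · simp; nlinarith [Real.sin_sq_add_cos_sq θ]
  rw [step, mem_preimage, map_add, map_smul, e]
  rw [step, mem_preimage] at hq
  generalize ContinuousLinearMap.rotation (E := ℝ) (-θ) q = r at hq
  obtain ⟨y, t⟩ := r
  have : (y, t + s) ∈ sym γ A := sym_up hq (by linarith)
  simpa using this

lemma Inv.step {θ : ℝ} (hθ : 0 ≤ Real.cos (2 * θ)) {A : Set (ℝ × ℝ)} (hA : Convex ℝ A)
    (hm : MeasurableSet A) (h : Inv (2 * θ) A) : Inv θ (step θ A) := by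
  refine fun q hq s hs => ⟨step_up θ A q hq s hs, ?_⟩
  have e : ContinuousLinearMap.rotation (E := ℝ) (-θ) (Real.sin θ, -Real.cos θ) =
      (Real.sin (2 * θ), -Real.cos (2 * θ)) := by
    rw [ContinuousLinearMap.rotation_apply, Real.sin_two_mul, Real.cos_two_mul']
    ext
    · simp; ring
    · simp; ring
  rw [Prp.step, mem_preimage, map_add, map_smul, e]
  exact sym_inv hA hm hθ h _ hq s hs

lemma exists_pt {A : Set (ℝ × ℝ)} {c R : ℝ} (h : Qb c + 2 * Qb R < ((γ).prod γ).real A) :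
    ∃ q ∈ A, q.1 ≤ c ∧ |q.2| ≤ R := by
  by_contra hn
  push Not at hn
  have hsub : A ⊆ (Ioi c ×ˢ univ ∪ univ ×ˢ Ioi R) ∪ univ ×ˢ Iio (-R) := fun q hq => by
    by_cases h1 : q.1 ≤ c
    · rcases lt_abs.1 (hn q hq h1) with h2 | h2
      · exact Or.inl (Or.inr ⟨trivial, h2⟩)
      · exact Or.inr ⟨trivial, lt_neg.1 h2⟩
    · exact Or.inl (Or.inl ⟨not_le.1 h1, trivial⟩)
  have h1 := (measureReal_mono (μ := (γ).prod γ) hsub).trans ((measureReal_union_le _ _).trans
    (add_le_add_left (measureReal_union_le _ _) _))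
  simp only [measureReal_prod_prod, probReal_univ, mul_one, one_mul, real_Iio, Qb_neg] at h1
  unfold Qb at h h1
  linarith

theorem ehr_two : Ehr (ℝ × ℝ) ((γ).prod γ) := by
  intro B0 B1 B h0 h1 m0 m1 m l hl0 hl1 hB c0 c1 hc0 hc1
  obtain ⟨ε, hε, hε0, hε1⟩ : ∃ ε, 0 < ε ∧ Qb (c0 - ε) < ((γ).prod γ).real B0 ∧
      Qb (c1 - ε) < ((γ).prod γ).real B1 := by
    have : ∀ c p, Qb c < p → ∀ᶠ δ in 𝓝 (0 : ℝ), Qb (c - δ) < p := fun c p h =>
      (by fun_prop : Continuous fun δ => Qb (c - δ)).continuousAt.eventually_lt continuousAt_const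
        (by simpa using h)
    exact ((((this _ _ hc0).and (this _ _ hc1)).filter_mono (nhdsWithin_le_nhds (s := Ioi 0))).and
      self_mem_nhdsWithin).exists.imp fun _ h => ⟨h.2, h.1⟩
  set c := (1 - l) * c0 + l * c1 with hc
  obtain ⟨R, hR, hR0, hR1, hR2⟩ : ∃ R, 0 ≤ R ∧ Qb (c0 - ε) + 2 * Qb R < ((γ).prod γ).real B0 ∧
      Qb (c1 - ε) + 2 * Qb R < ((γ).prod γ).real B1 ∧
      Qb c < Qb (c - ε / 2) * (1 - 2 * Qb R) := by
    have a1 : ∀ a p, a < p → ∀ᶠ R in atTop, a + 2 * Qb R < p := fun a p h =>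
      ((tendsto_Qb_atTop.const_mul 2).const_add a).eventually (gt_mem_nhds (by simpa using h))
    have a2 : ∀ᶠ R in atTop, Qb c < Qb (c - ε / 2) * (1 - 2 * Qb R) :=
      (((tendsto_Qb_atTop.const_mul 2).const_sub 1).const_mul _).eventually
        (lt_mem_nhds (by simpa using Qb_strictAnti (by linarith : c - ε / 2 < c)))
    exact ((eventually_ge_atTop 0).and ((a1 _ _ hε0).and ((a1 _ _ hε1).and a2))).exists
  let P : ℝ → Prop := fun δ => ∀ A0 A1 A, Tri l A0 A1 A → Inv δ A0 → Inv δ A1 →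
    ((γ).prod γ).real A0 = ((γ).prod γ).real B0 → ((γ).prod γ).real A1 = ((γ).prod γ).real B1 →
    Qb c < ((γ).prod γ).real A
  have hstep : ∀ θ, 0 ≤ Real.cos (2 * θ) → P θ → P (2 * θ) := by
    intro θ hθ hP A0 A1 A T i0 i1 e0 e1
    rw [← step_real θ T.m]
    exact hP _ _ _ (T.step θ hl0 hl1) (i0.step hθ T.c0 T.m0) (i1.step hθ T.c1 T.m1)
      ((step_real θ T.m0).trans e0) ((step_real θ T.m1).trans e1)
  have hsmall : ∀ δ, 0 < Real.sin δ → 4 * R * Real.sin δ < ε * Real.cos δ → P δ := by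
    intro δ hs hδ A0 A1 A T i0 i1 e0 e1
    have hcos : 0 < Real.cos δ := (mul_pos_iff_of_pos_left hε).1
      (lt_of_le_of_lt (by positivity) hδ)
    obtain ⟨q0, a0, a1, a2⟩ := exists_pt (e0 ▸ hR0)
    obtain ⟨q1, b0, b1, b2⟩ := exists_pt (e1 ▸ hR1)
    have hsub : Ioi (c - ε / 2) ×ˢ Icc (-R) R ⊆ A := by
      rintro ⟨x, y⟩ ⟨hx, hy⟩
      obtain ⟨u, hu⟩ : ∃ u, u = x - ((1 - l) * q0.1 + l * q1.1) := ⟨_, rfl⟩
      obtain ⟨v, hv⟩ : ∃ v, v = y - ((1 - l) * q0.2 + l * q1.2) := ⟨_, rfl⟩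
      have hx' : c - ε / 2 < x := hx
      have hu' : ε / 2 ≤ u := by nlinarith
      have a2' := abs_le.1 a2
      have b2' := abs_le.1 b2
      have hv1 : v ≤ 2 * R := by nlinarith [hy.1, hy.2]
      have hv2 : -(2 * R) ≤ v := by nlinarith [hy.1, hy.2]
      have s1 : 0 ≤ (u * Real.cos δ + v * Real.sin δ) / (2 * Real.sin δ * Real.cos δ) :=
        div_nonneg (by nlinarith) (by positivity)
      have s2 : 0 ≤ (u * Real.cos δ - v * Real.sin δ) / (2 * Real.sin δ * Real.cos δ) :=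
        div_nonneg (by nlinarith) (by positivity)
      have := T.rel _ (i0 _ (i0 _ a0 _ s1).1 _ s2).2 _ (i1 _ (i1 _ b0 _ s1).1 _ s2).2
      convert this using 1
      ext
      · simp only [Prod.fst_add, Prod.smul_fst, smul_eq_mul]
        rw [show x = u + ((1 - l) * q0.1 + l * q1.1) by rw [hu]; ring]
        field_simp; ring
      · simp only [Prod.snd_add, Prod.smul_snd, smul_eq_mul]
        rw [show y = v + ((1 - l) * q0.2 + l * q1.2) by rw [hv]; ring]
        field_simp; ring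
    refine lt_of_lt_of_le ?_ (measureReal_mono hsub)
    rw [measureReal_prod_prod, real_Icc (by linarith), Qb_neg]
    exact hR2.trans_le (le_of_eq (by unfold Qb; ring))
  have hind : ∀ n : ℕ, P (Real.pi / 2 / 2 ^ n) → P (Real.pi / 2) := by
    intro n
    induction n with
    | zero => simp
    | succ n ih =>
      intro h
      have e : 2 * (Real.pi / 2 / 2 ^ (n + 1)) = Real.pi / 2 / 2 ^ n := by field_simp; ring
      refine ih (e ▸ hstep _ (e ▸ Real.cos_nonneg_of_mem_Icc ⟨?_, ?_⟩) h)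
      · exact le_trans (neg_nonpos.2 (by positivity)) (by positivity)
      · exact div_le_self (by positivity) (one_le_pow₀ one_le_two)
  have hlim : Tendsto (fun n : ℕ => Real.pi / 2 / 2 ^ n) atTop (𝓝 0) :=
    tendsto_const_nhds.div_atTop (tendsto_pow_atTop_atTop_of_one_lt one_lt_two)
  obtain ⟨n, hn⟩ := (hlim.eventually
    ((by fun_prop : Continuous fun δ => 4 * R * Real.sin δ).continuousAt.eventually_lt
      (by fun_prop : Continuous fun δ => ε * Real.cos δ).continuousAt (by simpa using hε))).exists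
  have hP := hind n (hsmall _ (Real.sin_pos_of_pos_of_lt_pi (by positivity)
    ((div_le_self (by positivity) (one_le_pow₀ one_le_two)).trans_lt
      (half_lt_self Real.pi_pos))) hn)
  have hI : ∀ A, Inv (Real.pi / 2) (step (Real.pi / 2) A) := fun A q hq s hs => by
    have := step_up _ A q hq s hs
    refine ⟨this, ?_⟩
    simpa using this
  rw [← step_real (Real.pi / 2) m]
  exact hP _ _ _ (Tri.step _ hl0 hl1 ⟨h0, h1, m0, m1, m, hB⟩) (hI _) (hI _) (step_real _ m0)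
    (step_real _ m1)

theorem Ehr.prod {X : Type} [MeasurableSpace X] [AddCommGroup X] [Module ℝ X] {μ : Measure X}
    [IsProbabilityMeasure μ] (h : Ehr X μ) : Ehr (ℝ × X) ((γ).prod μ) := by
  intro A0 A1 A h0 h1 m0 m1 m l hl0 hl1 hA c0 c1 hc0 hc1
  have T := Tri.sym h hl0 hl1 ⟨h0, h1, m0, m1, m, hA⟩
  rw [← measure_sym m]
  exact ehr_two _ _ _ T.c0 T.c1 T.m0 T.m1 T.m l hl0 hl1 T.rel c0 c1 (by rwa [measure_sym m0])
    (by rwa [measure_sym m1])

theorem Ehr.map {X : Type*} {Y : Type} [MeasurableSpace X] [AddCommGroup X] [Module ℝ X]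
    [MeasurableSpace Y] [AddCommGroup Y] [Module ℝ Y] {μ : Measure X} {ν : Measure Y}
    (h : Ehr Y ν) (f : Y →ₗ[ℝ] X) (hf : MeasurePreserving f ν μ) (A0 A1 A : Set X)
    (h0 : Convex ℝ A0) (h1 : Convex ℝ A1) (m0 : MeasurableSet A0) (m1 : MeasurableSet A1)
    (m : MeasurableSet A) (l : ℝ) (hl0 : 0 ≤ l) (hl1 : l ≤ 1)
    (hA : ∀ x ∈ A0, ∀ y ∈ A1, (1 - l) • x + l • y ∈ A) (c0 c1 : ℝ) (hc0 : Qb c0 < μ.real A0)
    (hc1 : Qb c1 < μ.real A1) : Qb ((1 - l) * c0 + l * c1) < μ.real A := by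
  have T := Tri.preimage f hf.measurable h0 h1 m0 m1 m hA
  rw [← hf.measureReal_preimage m.nullMeasurableSet]
  exact h _ _ _ T.c0 T.c1 T.m0 T.m1 T.m l hl0 hl1 T.rel c0 c1
    (by rwa [hf.measureReal_preimage m0.nullMeasurableSet])
    (by rwa [hf.measureReal_preimage m1.nullMeasurableSet])

theorem ehr_pi (n : ℕ) : Ehr (Fin n → ℝ) (Measure.pi fun _ => γ) := by
  induction n with
  | zero =>
    intro A0 A1 A _ _ _ _ _ l _ _ hA c0 c1 hc0 hc1
    have hne : ∀ (B : Set (Fin 0 → ℝ)) (c : ℝ), Qb c < (Measure.pi fun _ => γ).real B →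
        B.Nonempty := fun B c h => by
      by_contra hn
      rw [not_nonempty_iff_eq_empty.1 hn] at h
      exact (Qb_pos c).not_gt (by simpa using h)
    obtain ⟨x, hx⟩ := hne _ _ hc0
    obtain ⟨y, hy⟩ := hne _ _ hc1
    rw [Subsingleton.eq_univ_of_nonempty ⟨_, hA x hx y hy⟩, probReal_univ]
    exact Qb_lt_one _
  | succ n ih =>
    refine ih.prod.map (Fin.consLinearEquiv ℝ fun _ : Fin (n + 1) => ℝ).toLinearMap ?_
    convert (measurePreserving_piFinSuccAbove (fun _ : Fin (n + 1) => γ) 0).symm _ using 1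
    ext x : 1
    exact (Fin.insertNth_zero' _ _).symm

universe u

theorem ehrhard (E : Type u) [NormedAddCommGroup E] [InnerProductSpace ℝ E] [FiniteDimensional ℝ E]
    [MeasurableSpace E] [BorelSpace E] : EhrhardStmt E :=
  (ehr_pi (Module.finrank ℝ E)).map (Fintype.linearCombination ℝ (stdOrthonormalBasis ℝ E))
    ⟨(LinearMap.continuous_of_finiteDimensional _).measurable, rfl⟩

end Crest.Agent.Prp
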