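import Crest.Agent.Prp.Crit1

set_option autoImplicit false
set_option linter.unusedSectionVars false
set_option linter.unusedVariables false

open MeasureTheory ProbabilityTheory Set Filter Topology
open scoped RealInnerProductSpace

namespace Crest.Agent.Prp

universe u v

variable {E : Type u} [NormedAddCommGroup E] [InnerProductSpace ℝ E] [FiniteDimensional ℝ E]
  [MeasurableSpace E] [BorelSpace E] {ι : Type v}

lemma exists_dual [Fintype ι] [Nonempty ι] {w : ι → E} (h : Obtuse w) (f : ι → ℝ)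
    (hf : ∑ l, f l = 0) : ∃ v : E, ∀ l, ⟪w l, v⟫ = f l := by
  let G : (ι → ℝ) →ₗ[ℝ] (ι → ℝ) :=
    { toFun := fun d l => ⟪w l, ∑ j, d j • w j⟫ + ∑ j, d j
      map_add' := by
        intro d d'; funext l
        simp only [Pi.add_apply, add_smul, Finset.sum_add_distrib, inner_add_right]; ring
      map_smul' := by
        intro c d; funext l
        simp only [Pi.smul_apply, smul_eq_mul, mul_smul, ← Finset.smul_sum, ← Finset.mul_sum,
          real_inner_smul_right, RingHom.id_apply]; ring }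
  have hG : ∀ d l, G d l = ⟪w l, ∑ j, d j • w j⟫ + ∑ j, d j := fun d l => rfl
  have hsum : ∀ d, ∑ l, G d l = Fintype.card ι * ∑ j, d j := by
    intro d
    simp only [hG, Finset.sum_add_distrib, ← sum_inner, h.sum_zero, inner_zero_left, zero_add,
      Finset.sum_const, Finset.card_univ, nsmul_eq_mul]
  have hk : (Fintype.card ι : ℝ) ≠ 0 := by exact_mod_cast Fintype.card_ne_zero
  have hinj : Function.Injective G := by
    rw [injective_iff_map_eq_zero]
    intro d hd
    have h1 : ∑ j, d j = 0 := by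
      have := hsum d
      rw [hd] at this
      simp only [Pi.zero_apply, Finset.sum_const_zero] at this
      exact (mul_eq_zero.1 this.symm).resolve_left hk
    obtain ⟨i, -, hi⟩ := Finset.exists_max_image Finset.univ d Finset.univ_nonempty
    have h2 : ⟪w i, ∑ j, d j • w j⟫ = 0 := by
      have := hG d i
      rw [hd, h1] at this
      simpa using this.symm
    have h3 : ∑ j, (d j - d i) * ⟪w i, w j⟫ = 0 := by
      simp_rw [sub_mul, Finset.sum_sub_distrib, ← Finset.mul_sum, ← inner_sum, h.sum_zero,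
        inner_zero_right, mul_zero, sub_zero, ← h2, inner_sum, real_inner_smul_right]
    have h4 : ∀ j, 0 ≤ (d j - d i) * ⟪w i, w j⟫ := by
      intro j
      by_cases hj : i = j
      · simp [hj]
      · exact mul_nonneg_of_nonpos_of_nonpos (sub_nonpos.2 (hi j (Finset.mem_univ j)))
          (h.neg i j hj).le
    have h5 : ∀ j, d j = d i := by
      intro j
      by_cases hj : i = j
      · rw [hj]
      · have := (Finset.sum_eq_zero_iff_of_nonneg fun j _ => h4 j).1 h3 j (Finset.mem_univ j)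
        exact sub_eq_zero.1 ((mul_eq_zero.1 this).resolve_right (h.neg i j hj).ne)
    rw [Finset.sum_congr rfl fun j _ => h5 j] at h1
    simp only [Finset.sum_const, Finset.card_univ, nsmul_eq_mul] at h1
    funext j
    rw [h5 j]; exact (mul_eq_zero.1 h1).resolve_left hk
  obtain ⟨d, hd⟩ := (LinearMap.injective_iff_surjective.1 hinj) f
  have h1 : ∑ j, d j = 0 := by
    have := hsum d
    rw [hd, hf] at this
    exact (mul_eq_zero.1 this.symm).resolve_left hk
  refine ⟨∑ j, d j • w j, fun l => ?_⟩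
  have := hG d l
  rw [hd, h1, add_zero] at this
  exact this.symm

lemma exists_dual_T [Fintype ι] [DecidableEq ι] [Nonempty ι] {w : ι → E} (h : Obtuse w)
    (T : Finset ι) :
    ∃ v : E, ∀ l, ⟪w l, v⟫ = (T.card : ℝ) / Fintype.card ι - if l ∈ T then 1 else 0 := by
  refine exists_dual h _ ?_
  have hk : (Fintype.card ι : ℝ) ≠ 0 := by exact_mod_cast Fintype.card_ne_zero
  simp only [Finset.sum_sub_distrib, Finset.sum_const, Finset.card_univ, nsmul_eq_mul,
    Finset.sum_ite_mem, Finset.univ_inter, mul_one]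
  field_simp; ring

lemma deriv_nonneg_of_eventually {f : ℝ → ℝ} {d : ℝ} (hf : HasDerivAt f d 0) (h0 : f 0 = 0)
    (h : ∀ᶠ ε in 𝓝[>] (0:ℝ), 0 ≤ f ε) : 0 ≤ d := by
  have h1 := hf.tendsto_slope_zero_right
  refine ge_of_tendsto h1 ?_
  filter_upwards [h, self_mem_nhdsWithin] with ε h2 h3
  simp only [zero_add, h0, sub_zero, smul_eq_mul]
  exact mul_nonneg (inv_nonneg.2 (le_of_lt h3)) h2

lemma V_centered [Fintype ι] (ih : IH E ι) (s : Finset ι) (hs : s.Nonempty) (u : ι → E)
    (hc : s.card < Fintype.card ι) :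
    V s hs u ≤ c0 * Real.sqrt (∑ i ∈ s, ‖u i‖ ^ 2 - ‖∑ i ∈ s, u i‖ ^ 2 / s.card) := by
  have hk : (s.card : ℝ) ≠ 0 := by exact_mod_cast hs.card_pos.ne'
  set c : E := (s.card : ℝ)⁻¹ • ∑ i ∈ s, u i with hcd
  rw [← V_sub hs u c]
  refine (ih s hs _ hc).trans (le_of_eq ?_)
  congr 2
  simp_rw [norm_sub_sq_real]
  rw [Finset.sum_add_distrib, Finset.sum_sub_distrib, ← Finset.mul_sum, ← sum_inner, hcd,
    real_inner_smul_right, real_inner_self_eq_norm_sq, norm_smul, mul_pow, Real.norm_eq_abs,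
    sq_abs, Finset.sum_const, nsmul_eq_mul]
  field_simp; ring

variable [Fintype ι] [DecidableEq ι] [Nonempty ι] {w : ι → E} {μ : ℝ}

lemma face_main (hS : ShiftStmt E) (hT : StripStmt.{u, v} E) (h : Crit w μ) {m : ι}
    {T : Finset ι} {α β : E} {n : ι → E} {kf kf' : ι → ℝ} {κ κ' : ℝ}
    (hd : FaceData w m T α β n kf kf' κ κ') (Z : E → ℝ) (hZm : Measurable Z)
    (hZi : Integrable Z (stdGaussian E)) (hZ0 : ∀ x, 0 ≤ Z x) (hZn : ∀ x, ∀ j ∈ T, ⟪n j, x⟫ ≤ Z x)
    (hZs : ∀ x (s r : ℝ), Z (x + s • α + r • β) = Z x) :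
    (T.card : ℝ) / Fintype.card ι * μ *
      (κ * κ' * (2 * Real.pi * Real.sqrt (‖α‖ ^ 2 * ‖β‖ ^ 2 - ⟪α, β⟫ ^ 2))) ≤
      ∫ x, Z x ∂(stdGaussian E) := by
  obtain ⟨v, hv⟩ := exists_dual_T h.obt T
  obtain ⟨K, hK⟩ := hS (cell w m) (measurableSet_cell w m) v
  set den := κ * κ' * (2 * Real.pi * Real.sqrt (‖α‖ ^ 2 * ‖β‖ ^ 2 - ⟪α, β⟫ ^ 2)) with hden
  have hdp : 0 < den := by
    have := hd.kpos; have := hd.kpos'; have := Real.sqrt_pos.2 hd.det_pos
    positivity
  set I := ∫ x, Z x ∂(stdGaussian E) with hI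
  set q := (T.card : ℝ) / Fintype.card ι with hq
  have hm : ⟪w m, v⟫ = q := by rw [hv m, if_neg hd.notMem, sub_zero]
  rw [h.mom m, real_inner_smul_left, hm] at hK
  have key : ∀ ε : ℝ, 0 < ε → ε ≤ 1 → ε * (μ * q) - K * ε ^ 2 ≤ ε * (I + ε) / den := by
    intro ε h0 h1
    refine (hK ε h0.le h1).trans ?_
    refine le_trans ?_ (hT ι T α β n kf kf' κ κ' ε Z hd.kpos hd.kpos' h0 hd.kle hd.kle' hd.orth1
      hd.orth2 hd.det_pos hZm hZi hZ0 hZn hZs)
    refine (le_measureReal_sdiff (μ := stdGaussian E) (s₁ := cell w m)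
      (s₂ := {x | x - ε • v ∈ cell w m})).trans (measureReal_mono ?_)
    rintro x ⟨hx, hx'⟩
    have e : ∀ j ∈ T, kf j * ⟪α, x⟫ + kf' j * ⟪β, x⟫ - ⟪n j, x⟫ = ⟪w m, x⟫ - ⟪w j, x⟫ := by
      intro j hj
      rw [← inner_sub_left (w m), hd.dec j hj, inner_sub_left, inner_add_left,
        real_inner_smul_left, real_inner_smul_left]
    refine ⟨(hd.cone x hx).1, (hd.cone x hx).2, fun j hj => ?_, ?_⟩
    · rw [e j hj]; exact sub_nonneg.2 (hx j)
    · simp only [cell, mem_ofPred_eq, not_forall, not_le] at hx'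
      obtain ⟨l, hl⟩ := hx'
      rw [inner_sub_right, inner_sub_right, real_inner_smul_right, real_inner_smul_right, hm,
        hv l] at hl
      by_cases hlT : l ∈ T
      · refine ⟨l, hlT, ?_⟩
        rw [e l hlT]; rw [if_pos hlT] at hl; linarith
      · rw [if_neg hlT] at hl
        have := hx l
        linarith
  have hder : HasDerivAt (fun ε : ℝ => ε * (I + ε) / den - (ε * (μ * q) - K * ε ^ 2))
      (I / den - μ * q) 0 := by
    have h1 := (((hasDerivAt_id' (0:ℝ)).fun_mul ((hasDerivAt_id' (0:ℝ)).const_add I)).div_const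
      den).fun_sub (((hasDerivAt_id' (0:ℝ)).mul_const (μ * q)).fun_sub
        ((hasDerivAt_pow 2 (0:ℝ)).const_mul K))
    exact h1.congr_deriv (by simp)
  have := deriv_nonneg_of_eventually hder (by simp) (by
    filter_upwards [Ioc_mem_nhdsGT (zero_lt_one' ℝ)] with ε hε
    exact sub_nonneg.2 (key ε hε.1 hε.2))
  rw [sub_nonneg, le_div_iff₀ hdp] at this
  linarith

theorem faceMulti (hS : ShiftStmt E) (hT : StripStmt.{u, v} E) (h : Crit w μ) : FaceMulti w := by
  intro m T α β n kf kf' κ κ' hd hc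
  set u : ι → E := Function.update n m 0 with hu
  have hum : u m = 0 := by simp [hu]
  have huj : ∀ j ∈ T, u j = n j := fun j hj =>
    Function.update_of_ne (fun (h' : j = m) => hd.notMem (h' ▸ hj)) _ _
  have hs : (insert m T).Nonempty := Finset.insert_nonempty m T
  have hα : ∀ j ∈ insert m T, ⟪u j, α⟫ = 0 ∧ ⟪u j, β⟫ = 0 := by
    intro j hj
    rcases Finset.mem_insert.1 hj with rfl | hj
    · simp [hum]
    · rw [huj j hj]; exact ⟨hd.orth1 j hj, hd.orth2 j hj⟩
  have h1 := face_main hS hT h hd (mx _ hs u) (continuous_mx hs u).measurable (integrable_mx hs u)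
    (fun x => by simpa [hum] using le_mx hs u x (Finset.mem_insert_self m T))
    (fun x j hj => by rw [← huj j hj]; exact le_mx hs u x (Finset.mem_insert_of_mem hj))
    (fun x s r => by
      unfold mx
      refine Finset.sup'_congr hs rfl fun j hj => ?_
      simp [inner_add_right, real_inner_smul_right, (hα j hj).1, (hα j hj).2])
  have h2 := V_centered h.ih _ hs u (by rwa [Finset.card_insert_of_notMem hd.notMem])
  rw [Finset.sum_insert hd.notMem, Finset.sum_insert hd.notMem, hum,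
    Finset.card_insert_of_notMem hd.notMem, Finset.sum_congr rfl fun j hj => huj j hj,
    Finset.sum_congr rfl (g := fun j => ‖n j‖ ^ 2) fun j hj => by rw [huj j hj]] at h2
  simp only [norm_zero, ne_eq, OfNat.ofNat_ne_zero, not_false_eq_true, zero_pow, zero_add,
    Nat.cast_add, Nat.cast_one] at h2
  have h3 := h1.trans h2
  have hμ : 0 < μ := c0_pos.trans h.lt
  have h4 := mul_le_mul_of_nonneg_right h.lt.le
    (Real.sqrt_nonneg (∑ j ∈ T, ‖n j‖ ^ 2 - ‖∑ j ∈ T, n j‖ ^ 2 / (T.card + 1)))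
  have h5 := h3.trans h4
  refine le_of_mul_le_mul_left ?_ hμ
  linarith

theorem faceOne (hS : ShiftStmt E) (hT : StripStmt.{u, v} E) (h : Crit w μ) : FaceOne w := by
  intro m j α β n kf kf' κ κ' hd
  have hi := integrable_max_inner (n j) 0
  simp only [sub_zero] at hi
  have h1 := face_main hS hT h hd (fun x => max ⟪n j, x⟫ 0) (by fun_prop) hi
    (fun x => le_max_right _ _)
    (fun x l hl => by rw [Finset.mem_singleton.1 hl]; exact le_max_left _ _)
    (fun x s r => by
      simp [inner_add_right, real_inner_smul_right, hd.orth1 j (by simp), hd.orth2 j (by simp)])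
  rw [integral_max_inner, Finset.card_singleton] at h1
  set den := κ * κ' * (2 * Real.pi * Real.sqrt (‖α‖ ^ 2 * ‖β‖ ^ 2 - ⟪α, β⟫ ^ 2)) with hden
  have hdp : 0 < den := by
    have := hd.kpos; have := hd.kpos'; have := Real.sqrt_pos.2 hd.det_pos
    positivity
  have hk : (0:ℝ) < Fintype.card ι := by exact_mod_cast Fintype.card_pos
  have h2 : ((1:ℕ):ℝ) / Fintype.card ι * c0 * den ≤ ((1:ℕ):ℝ) / Fintype.card ι * μ * den := by
    have := h.lt.le
    gcongr
  have h3 := h2.trans h1
  refine le_of_mul_le_mul_left ?_ (phi_pos 0)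
  refine le_trans (le_of_eq ?_) h3
  rw [c0]; push_cast; ring

end Crest.Agent.Prp
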