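import Crest.Agent.Prp.GeomB

/-! Propeller conjecture, piece G: the four-point geometry and the final statement. -/

set_option autoImplicit false
set_option linter.unusedSectionVars false
set_option linter.unusedVariables false

open scoped RealInnerProductSpace

namespace Crest.Agent.Prp

universe u v

lemma det4 {a M L xm x3 x' r2 r3 um : ℝ} (ha : 0 ≤ a) (haM : a ≤ M) (haL : a ≤ L) (h1 : 0 ≤ xm)
    (h2 : 0 ≤ x3) (h3 : 0 ≤ x') (h4 : xm ≤ um) (h5 : x3 ≤ um) (h6 : 2 * a ≤ L + x3)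
    (h7 : r2 ≤ M + xm) (h8 : r3 ≤ L + x3) (h9 : L + x3 ≤ M + xm) (h10 : 2 * um ≤ r3) :
    4 * ((r2 - um) * (r3 - um) - r3 ^ 2 / 4) ≤
      (M + L + 2 * a + xm + x3) * (9 * M / 4 + L / 4 - 3 * a / 2 + xm + x' / 4) -
        (3 * M / 2 - L / 2 + a + xm) ^ 2 := by
  have e : (M + L + 2 * a + xm + x3) * (9 * M / 4 + L / 4 - 3 * a / 2 + xm + x' / 4) -
      (3 * M / 2 - L / 2 + a + xm) ^ 2 = 4 * (M * L - a ^ 2) +
      xm * (M / 4 + 9 * L / 4 - 3 * a / 2) + x3 * (9 * M / 4 + L / 4 - 3 * a / 2) +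
      x' * (M + L + 2 * a) / 4 + (xm * x' / 4 + x3 * xm + x3 * x' / 4) := by ring
  have c1 := mul_nonneg h1 (show 0 ≤ M / 4 + 9 * L / 4 - 3 * a / 2 by linarith)
  have c2 := mul_nonneg h2 (show 0 ≤ 9 * M / 4 + L / 4 - 3 * a / 2 by linarith)
  have c3 := mul_nonneg h3 (show 0 ≤ M + L + 2 * a by linarith)
  have c4 := mul_nonneg h1 h3
  have c5 := mul_nonneg h2 h1
  have c6 := mul_nonneg h2 h3
  obtain ⟨R, hR⟩ : ∃ R, R = L + x3 := ⟨_, rfl⟩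
  have d1 : M * (R - um) ≤ M * L := mul_le_mul_of_nonneg_left (by linarith) (by linarith)
  have d2 : a ^ 2 ≤ (R / 2) ^ 2 := pow_le_pow_left₀ ha (by linarith) 2
  have d3 := mul_nonneg (show 0 ≤ R - r3 by linarith) (show 0 ≤ M - (R + r3) / 4 by linarith)
  have d4 := mul_nonneg (show 0 ≤ M - (r2 - um) by linarith) (show 0 ≤ r3 - um by linarith)
  rw [e]
  nlinarith

section
variable {E : Type u} [NormedAddCommGroup E] [InnerProductSpace ℝ E]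
  {ι : Type v} [Fintype ι] [DecidableEq ι] {w : ι → E}

lemma inner_four (p q r s t : E) (h : p + q + r + s + t = 0) :
    ‖p - q‖ ^ 2 = ‖p‖ ^ 2 - 2 * ⟪p, q⟫ + ‖q‖ ^ 2 ∧
    ⟪p - q, p - (1 / 2 : ℝ) • (r + s)⟫ = 3 / 2 * ‖p‖ ^ 2 - ⟪p, q⟫ - ‖q‖ ^ 2 / 2 + ⟪p, t⟫ / 2 -
      ⟪q, t⟫ / 2 ∧
    ‖p - (1 / 2 : ℝ) • (r + s)‖ ^ 2 = 9 / 4 * ‖p‖ ^ 2 + 3 / 2 * ⟪p, q⟫ + 3 / 2 * ⟪p, t⟫ +
      ‖q‖ ^ 2 / 4 + ⟪q, t⟫ / 2 + ‖t‖ ^ 2 / 4 ∧
    ‖p‖ ^ 2 + ⟪p, q⟫ + ⟪p, r⟫ + ⟪p, s⟫ + ⟪p, t⟫ = 0 ∧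
    ‖q‖ ^ 2 + ⟪p, q⟫ + ⟪q, r⟫ + ⟪q, s⟫ + ⟪q, t⟫ = 0 ∧
    ‖t‖ ^ 2 + ⟪p, t⟫ + ⟪q, t⟫ + ⟪r, t⟫ + ⟪s, t⟫ = 0 ∧
    p + (1 / 4 : ℝ) • t = (1 / 4 : ℝ) • (p - q) + (1 / 2 : ℝ) • (p - (1 / 2 : ℝ) • (r + s)) := by
  have e : r + s = -(p + q + t) := by
    rw [eq_neg_iff_add_eq_zero, ← h]; abel
  have h1 := congrArg (fun x => ⟪p, x⟫) h
  have h2 := congrArg (fun x => ⟪q, x⟫) h
  have h3 := congrArg (fun x => ⟪x, t⟫) h
  simp only [inner_add_left, inner_add_right, inner_zero_left, inner_zero_right,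
    real_inner_self_eq_norm_sq, real_inner_comm p q] at h1 h2 h3
  refine ⟨norm_sub_sq_real _ _, ?_, ?_, h1, by linarith, by linarith, ?_⟩
  · rw [e]
    simp only [inner_sub_left, inner_sub_right, inner_add_right, inner_neg_right,
      real_inner_smul_right, real_inner_self_eq_norm_sq, real_inner_comm p q]
    ring
  · rw [e, norm_sub_sq_real, norm_smul, norm_neg, mul_pow, real_inner_smul_right, inner_neg_right]
    have e5 : ‖(1 / 2 : ℝ)‖ ^ 2 = 1 / 4 := by norm_num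
    simp only [e5, norm_add_sq_real, inner_add_left, inner_add_right, real_inner_self_eq_norm_sq]
    ring
  · rw [e]; module

lemma t4 (h : Obtuse w) (hw : FaceMulti w) {m l' i3 i4 : ι} (h1 : m ≠ l') (h2 : m ≠ i3)
    (h3 : m ≠ i4) (h4 : l' ≠ i3) (h5 : l' ≠ i4) (h6 : i3 ≠ i4) (hk : 5 ≤ Fintype.card ι)
    (ha : -⟪w m, w i3⟫ ≤ -⟪w l', w i3⟫) (r1 : ‖w m‖ ^ 2 ≤ 4 / 9) (r2 : ‖w i3‖ ^ 2 ≤ ‖w m‖ ^ 2)
    (r3 : ‖w i3‖ ^ 2 ≤ ‖w l'‖ ^ 2) {R2 : ℝ} (hR : R2 ≤ ‖w m‖ ^ 2) :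
    Test4 ((((Fintype.card ι : ℝ) - 4) / Fintype.card ι) ^ 2 /
        (if Fintype.card ι = 5 then 25 / 32 else 17 / 16)) R2 (‖w i3‖ ^ 2)
      (1 - ‖w m‖ ^ 2 - ‖w l'‖ ^ 2 - ‖w i3‖ ^ 2 - ‖w i4‖ ^ 2) := by
  intro r2' r3' um D0 C a1 a2 a3 hu hu' hD0 hD1 hC hC'
  obtain ⟨e1, e2, e3⟩ := h.tri h1 h2 h4
  have hi : i4 ∈ ({m, l', i3} : Finset ι)ᶜ := by simp [h3.symm, h5.symm, h6.symm]
  set T := ({m, l', i3} : Finset ι)ᶜ.erase i4 with hT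
  have f1 : w m + w i3 + w l' + w i4 + ∑ k ∈ T, w k = 0 := by
    rw [add_assoc _ (w i4), hT, Finset.add_sum_erase _ _ hi, e1]; abel
  have f2 : ∑ k ∈ T, ‖w k‖ ^ 2 = 1 - ‖w m‖ ^ 2 - ‖w l'‖ ^ 2 - ‖w i3‖ ^ 2 - ‖w i4‖ ^ 2 := by
    rw [← e2, ← Finset.add_sum_erase _ _ hi]; ring
  have f3 : T.card + 4 = Fintype.card ι := by
    have := Finset.card_erase_add_one hi
    rw [← hT] at this
    omega
  have f4 := h.norm_sum_le T
  have f5 := sq_nonneg ‖∑ k ∈ T, w k‖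
  have f6 := sq_nonneg ‖w i4‖
  rw [← f2] at hu ⊢
  rcases hC.eq_or_lt with rfl | hC
  · rw [mul_zero, zero_pow two_ne_zero, zero_mul, zero_mul]; linarith
  have mT : m ∉ T := by simp [hT]
  have lT : l' ∉ T := by simp [hT]
  have T3 : i3 ∉ T := by simp [hT]
  have T4 : i4 ∉ T := by simp [hT]
  have n1 := h.inner_sum_nonpos mT
  have n2 := h.inner_sum_nonpos lT
  have n3 := h.inner_sum_nonpos T3
  have n4 := h.inner_sum_nonpos T4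
  obtain ⟨i1, i2, i3', i4', i5, i6, i7⟩ := inner_four _ _ _ _ _ f1
  have o1 := h.neg _ _ h1
  have o2 := h.neg _ _ h2
  have o3 := h.neg _ _ h3
  have o4 := h.neg _ _ h4.symm
  have o5 := h.neg _ _ h6
  rw [real_inner_comm (w i3) (w l')] at ha
  have hD : D0 ≤ gd (w m - w i3) (w m - (1 / 2 : ℝ) • (w l' + w i4)) := by
    refine hD1.trans (le_of_le_of_eq (det4 (a := -⟪w m, w i3⟫)
      (M := ‖w m‖ ^ 2 + ⟪w m, ∑ k ∈ T, w k⟫) (L := ‖w i3‖ ^ 2 + ⟪w i3, ∑ k ∈ T, w k⟫)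
      (xm := -⟪w m, ∑ k ∈ T, w k⟫) (x3 := -⟪w i3, ∑ k ∈ T, w k⟫)
      (x' := -⟪w l', ∑ k ∈ T, w k⟫ - ⟪w i4, ∑ k ∈ T, w k⟫) (by linarith) (by linarith)
      (by linarith) (by linarith) (by linarith) (by linarith) (by linarith) (by linarith)
      (by linarith) (by linarith) (by linarith) (by linarith) hu') ?_)
    have : ‖∑ k ∈ T, w k‖ ^ 2 = -(⟪w m, ∑ k ∈ T, w k⟫ + ⟪w i3, ∑ k ∈ T, w k⟫ +
      ⟪w l', ∑ k ∈ T, w k⟫ + ⟪w i4, ∑ k ∈ T, w k⟫) := by linarith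
    rw [gd, i1, i2, i3', this]; ring
  have hDp := hD0.trans_le hD
  obtain ⟨xm, hxm⟩ : ∃ x, x = -⟪w m, ∑ k ∈ T, w k⟫ := ⟨_, rfl⟩
  obtain ⟨x3, hx3⟩ : ∃ x, x = -⟪w i3, ∑ k ∈ T, w k⟫ := ⟨_, rfl⟩
  obtain ⟨x', hx'⟩ : ∃ x, x = -⟪w l', ∑ k ∈ T, w k⟫ - ⟪w i4, ∑ k ∈ T, w k⟫ := ⟨_, rfl⟩
  have hxm0 : 0 ≤ xm := by linarith
  have hx30 : 0 ≤ x3 := by linarith
  have hx'0 : 0 ≤ x' := by linarith
  obtain ⟨p, hp⟩ : ∃ p, p = (45 / 32 * x3 + 15 / 16 * xm) / D0 := ⟨_, rfl⟩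
  obtain ⟨q, hq⟩ : ∃ q, q = (25 / 36 * x' + 15 / 16 * xm) / D0 := ⟨_, rfl⟩
  have hp0 : 0 ≤ p := by rw [hp]; positivity
  have hq0 : 0 ≤ q := by rw [hq]; positivity
  have hp1 : 45 / 32 * x3 + 15 / 16 * xm = p * D0 := by rw [hp]; field_simp
  have hq1 : 25 / 36 * x' + 15 / 16 * xm = q * D0 := by rw [hq]; field_simp
  have hpq : C ≤ 1 - 4 * p - 2 * q := by
    by_contra hh
    have := mul_pos (sub_pos.2 (not_le.1 hh)) hD0
    nlinarith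
  have key : ∀ j ∈ T, co1 (w m - w i3) (w m - (1 / 2 : ℝ) • (w l' + w i4))
      (w j + (1 / 4 : ℝ) • ∑ k ∈ T, w k) ≤ 45 / 32 * x3 + 15 / 16 * xm ∧
      co2 (w m - w i3) (w m - (1 / 2 : ℝ) • (w l' + w i4))
      (w j + (1 / 4 : ℝ) • ∑ k ∈ T, w k) ≤ 25 / 36 * x' + 15 / 16 * xm := by
    intro j hj
    have y1 := h.neg m j fun e => mT (e ▸ hj)
    have y2 := h.neg l' j fun e => lT (e ▸ hj)
    have y3 := h.neg i3 j fun e => T3 (e ▸ hj)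
    have y4 := h.neg i4 j fun e => T4 (e ▸ hj)
    have z1 := h.inner_sum_le mT hj
    have z2 := h.inner_sum_le lT hj
    have z3 := h.inner_sum_le T3 hj
    have z4 := h.inner_sum_le T4 hj
    have hz : ∀ x : E, ⟪w j + (1 / 4 : ℝ) • ∑ k ∈ T, w k, x⟫ =
        ⟪x, w j⟫ + 1 / 4 * ⟪x, ∑ k ∈ T, w k⟫ := fun x => by
      rw [inner_add_left, real_inner_smul_left, real_inner_comm (w j) x,
        real_inner_comm (∑ k ∈ T, w k) x]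
    set ζ := w j + (1 / 4 : ℝ) • ∑ k ∈ T, w k with hζ
    obtain ⟨bm, hbm⟩ : ∃ b, b = -⟪ζ, w m⟫ := ⟨_, rfl⟩
    obtain ⟨b3, hb3⟩ : ∃ b, b = -⟪ζ, w i3⟫ := ⟨_, rfl⟩
    obtain ⟨b', hb'⟩ : ∃ b, b = -⟪ζ, w l'⟫ - ⟪ζ, w i4⟫ := ⟨_, rfl⟩
    have g1 : ⟪ζ, w m - w i3⟫ = b3 - bm := by rw [inner_sub_right]; linarith
    have g2 : ⟪ζ, w m - (1 / 2 : ℝ) • (w l' + w i4)⟫ = b' / 2 - bm := by
      rw [inner_sub_right, real_inner_smul_right, inner_add_right]; linarith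
    rw [hz] at hbm hb3
    rw [hz, hz] at hb'
    rw [co1, co2, g1, g2]
    have hA0 := sq_nonneg ‖w m - w i3‖
    have hB0 := sq_nonneg ‖w m - (1 / 2 : ℝ) • (w l' + w i4)‖
    generalize ‖w m - w i3‖ ^ 2 = A at *
    generalize ‖w m - (1 / 2 : ℝ) • (w l' + w i4)‖ ^ 2 = B at *
    generalize ⟪w m - w i3, w m - (1 / 2 : ℝ) • (w l' + w i4)⟫ = ρ at *
    have u0 : 0 ≤ ρ := by linarith
    have u1 : 0 ≤ bm := by linarith
    have u2 : 0 ≤ b3 := by linarith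
    have u3 : 0 ≤ b' := by linarith
    have q1 := mul_nonneg u0 u2
    have q2 := mul_nonneg u0 u3
    have q3 := mul_nonneg hB0 u1
    have q4 := mul_nonneg hA0 u1
    have q5 := mul_le_mul (show B ≤ 9 / 8 by linarith) (show b3 ≤ 5 / 4 * x3 by linarith) u2
      (by norm_num)
    have q6 := mul_le_mul (show A ≤ 10 / 9 by linarith) (show b' ≤ 5 / 4 * x' by linarith) u3
      (by norm_num)
    have q7 := mul_le_mul (show ρ ≤ 3 / 4 by linarith) (show bm ≤ 5 / 4 * xm by linarith) u1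
      (by norm_num)
    constructor <;> linarith
  have := multi hw (m := m) (T := T) mT (fun x hx => by
      simp only [inner_sub_left, real_inner_smul_left, inner_add_left]
      have := hx i3
      have := hx l'
      have := hx i4
      constructor <;> linarith)
    i7 hDp (show 0 < 1 / 4 - p by linarith) (show 0 < 1 / 2 - q by linarith)
    (fun j hj => (key j hj).1.trans (by
      rw [hp1, sub_sub_cancel]; exact mul_le_mul_of_nonneg_left hD hp0))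
    (fun j hj => (key j hj).2.trans (by
      rw [hq1, sub_sub_cancel]; exact mul_le_mul_of_nonneg_left hD hq0)) (by omega)
  have p0 : (0 : ℝ) ≤ (T.card : ℝ) / Fintype.card ι :=
    div_nonneg (Nat.cast_nonneg _) (Nat.cast_nonneg _)
  have p1 : (0 : ℝ) ≤ 3.1415 / 4 := by norm_num
  have e : (T.card : ℝ) / Fintype.card ι * ((1 / 4 - p) * (1 / 2 - q) * (2 * Real.pi)) =
      (T.card : ℝ) / Fintype.card ι * (Real.pi / 4 * (1 - 4 * p - 2 * q + 8 * (p * q))) := by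
    ring
  have hpi := Real.pi_gt_d4
  have hpq0 := mul_nonneg hp0 hq0
  have s1 := (sq_mul_le (mul_nonneg p0 (mul_nonneg p1 hC.le)) (mul_le_mul_of_nonneg_left
    (mul_le_mul (show 3.1415 / 4 ≤ Real.pi / 4 by linarith)
      (show C ≤ 1 - 4 * p - 2 * q + 8 * (p * q) by linarith) hC.le (by linarith)) p0)
    hD0.le hD).trans (e ▸ this)
  rw [real_inner_smul_right, real_inner_self_eq_norm_sq, norm_smul, mul_pow _ ‖∑ k ∈ T, w k‖]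
    at s1
  have e5 : ‖(1 / 4 : ℝ)‖ ^ 2 = 1 / 16 := by norm_num
  have e6 : (Fintype.card ι : ℝ) - 4 = T.card := by rw [← f3]; push_cast; ring
  rw [e5] at s1
  rw [e6, ← mul_div_assoc, div_le_iff₀ (by split_ifs <;> norm_num)]
  refine le_trans (le_of_eq (by ring)) (s1.trans ?_)
  split_ifs with h5
  · have hc : T.card = 1 := by omega
    obtain ⟨j, hj⟩ := Finset.card_eq_one.1 hc
    rw [hc, hj]
    simp only [Finset.sum_singleton]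
    push_cast
    linarith
  · have : (2 * (1 / 4 * ‖∑ k ∈ T, w k‖ ^ 2) + T.card * (1 / 16 * ‖∑ k ∈ T, w k‖ ^ 2) -
        ‖∑ k ∈ T, w k‖ ^ 2) / (T.card + 1) ≤ 1 / 16 * ‖∑ k ∈ T, w k‖ ^ 2 := by
      rw [div_le_iff₀ (Nat.cast_add_one_pos _)]
      nlinarith
    linarith

end

theorem geom : GeomStmt.{u, v} := by
  intro E _ _ ι _ _ w h hm ho i1 i2 i3 h1 h2 h3
  have s2 : w i2 + w i1 + w i3 = w i1 + w i2 + w i3 := by abel
  have s3 : w i3 + w i1 + w i2 = w i1 + w i2 + w i3 := by abel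
  refine ⟨fun j j1 j2 j3 => test1 h ho h1 h2 h3 j1 j2 j3, fun hk => ?_,
    fun i4 j1 j2 j3 hk => ⟨?_, fun r1 r2 r3 => ?_⟩⟩
  · rcases argmax3 ⟪w i1, w i1 + w i2 + w i3⟫ ⟪w i2, w i1 + w i2 + w i3⟫
      ⟪w i3, w i1 + w i2 + w i3⟫ with ⟨a, b⟩ | ⟨a, b⟩ | ⟨a, b⟩
    · exact t2 h hm h1 h2 h3 hk rfl a b
    · intro r1 r3 tm D0 C a1 a2 a3 b1 b2 b3 ht ht' hac hD0 hD1 hC hC'
      exact (t2 h hm h1.symm h3 h2 hk s2 a b r1 r3 tm D0 C a2 a1 a3 b2 b1 b3 (by linarith) ht' hac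
        hD0 hD1 hC hC').trans (by linarith)
    · intro r1 r3 tm D0 C a1 a2 a3 b1 b2 b3 ht ht' hac hD0 hD1 hC hC'
      exact (t2 h hm h2.symm h3.symm h1 hk s3 a b r1 r3 tm D0 C a3 a1 a2 b3 b1 b2 (by linarith) ht'
        hac hD0 hD1 hC hC').trans (by linarith)
  · rcases argmax3 ⟪w i1, w i1 + w i2 + w i3⟫ ⟪w i2, w i1 + w i2 + w i3⟫
      ⟪w i3, w i1 + w i2 + w i3⟫ with ⟨a, b⟩ | ⟨a, b⟩ | ⟨a, b⟩
    · exact t3 h hm h1 h2 h3 j1 j2 j3 hk rfl a b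
    · intro r1 r3 tm um D0 C a1 a2 a3 b1 b2 b3 ht ht' hu hac hD0 hD1 hC hC'
      exact (t3 h hm h1.symm h3 h2 j2 j1 j3 hk s2 a b r1 r3 tm um D0 C a2 a1 a3 b2 b1 b3
        (by linarith) ht' (by linarith) hac hD0 hD1 hC hC').trans (by linarith)
    · intro r1 r3 tm um D0 C a1 a2 a3 b1 b2 b3 ht ht' hu hac hD0 hD1 hC hC'
      exact (t3 h hm h2.symm h3.symm h1 j3 j1 j2 hk s3 a b r1 r3 tm um D0 C a3 a1 a2 b3 b1 b2
        (by linarith) ht' (by linarith) hac hD0 hD1 hC hC').trans (by linarith)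
  · rcases le_total (-⟪w i1, w i3⟫) (-⟪w i2, w i3⟫) with a | a
    · exact t4 h hm h1 h2 j1.symm h3 j2.symm j3.symm hk a r1 (r3.trans r2) r3 r2
    · have := t4 h hm h1.symm h3 j2.symm h2 j1.symm j3.symm hk a (r2.trans r1) r3 (r3.trans r2)
        le_rfl
      rwa [sub_right_comm 1 (‖w i2‖ ^ 2)] at this

end Crest.Agent.Prp
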