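import Crest.Agent.Prp.Defs

/-! Propeller conjecture, piece G: general lemmas. -/

set_option autoImplicit false
set_option linter.unusedSectionVars false
set_option linter.unusedVariables false

open scoped RealInnerProductSpace

namespace Crest.Agent.Prp

universe u v

section
variable {E : Type u} [NormedAddCommGroup E] [InnerProductSpace ℝ E]
  {ι : Type v} [Fintype ι] [DecidableEq ι]

/-- Gram determinant -/
noncomputable def gd (α β : E) : ℝ := ‖α‖ ^ 2 * ‖β‖ ^ 2 - ⟪α, β⟫ ^ 2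

/-- first coordinate of the projection, times the determinant -/
noncomputable def co1 (α β ζ : E) : ℝ := ‖β‖ ^ 2 * ⟪ζ, α⟫ - ⟪α, β⟫ * ⟪ζ, β⟫

/-- second coordinate of the projection, times the determinant -/
noncomputable def co2 (α β ζ : E) : ℝ := ‖α‖ ^ 2 * ⟪ζ, β⟫ - ⟪α, β⟫ * ⟪ζ, α⟫

/-- component orthogonal to the plane -/
noncomputable def orth (α β ζ : E) : E :=
  ζ - (co1 α β ζ / gd α β) • α - (co2 α β ζ / gd α β) • β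

lemma orth_left {α β : E} (hD : 0 < gd α β) (ζ : E) : ⟪orth α β ζ, α⟫ = 0 := by
  simp only [orth, inner_sub_left, real_inner_smul_left, real_inner_self_eq_norm_sq,
    real_inner_comm α β]
  field_simp
  simp only [gd, co1, co2]; ring

lemma orth_right {α β : E} (hD : 0 < gd α β) (ζ : E) : ⟪orth α β ζ, β⟫ = 0 := by
  simp only [orth, inner_sub_left, real_inner_smul_left, real_inner_self_eq_norm_sq]
  field_simp
  simp only [gd, co1, co2]; ring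

lemma norm_sum_sq_le_card (T : Finset ι) (p : ι → E) :
    ‖∑ j ∈ T, p j‖ ^ 2 ≤ T.card * ∑ j ∈ T, ‖p j‖ ^ 2 :=
  (pow_le_pow_left₀ (norm_nonneg _) (norm_sum_le _ _) 2).trans sq_sum_le_card_mul_sum_sq

lemma form_nonneg (T : Finset ι) (p : ι → E) :
    0 ≤ ∑ j ∈ T, ‖p j‖ ^ 2 - ‖∑ j ∈ T, p j‖ ^ 2 / (T.card + 1) := by
  have h := norm_sum_sq_le_card T p
  have h0 : 0 ≤ ∑ j ∈ T, ‖p j‖ ^ 2 := Finset.sum_nonneg fun _ _ => sq_nonneg _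
  rw [sub_nonneg, div_le_iff₀ (by positivity)]
  nlinarith

lemma form_le (T : Finset ι) (p n : ι → E) (h : ∀ j ∈ T, ∀ k ∈ T, ⟪n j, p k⟫ = 0) :
    ∑ j ∈ T, ‖n j‖ ^ 2 - ‖∑ j ∈ T, n j‖ ^ 2 / (T.card + 1) ≤
      ∑ j ∈ T, ‖n j + p j‖ ^ 2 - ‖∑ j ∈ T, (n j + p j)‖ ^ 2 / (T.card + 1) := by
  have e1 : ∑ j ∈ T, ‖n j + p j‖ ^ 2 = ∑ j ∈ T, ‖n j‖ ^ 2 + ∑ j ∈ T, ‖p j‖ ^ 2 := by
    rw [← Finset.sum_add_distrib]
    refine Finset.sum_congr rfl fun j hj => ?_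
    rw [norm_add_sq_real, h j hj j hj]; ring
  have e2 : ‖∑ j ∈ T, (n j + p j)‖ ^ 2 = ‖∑ j ∈ T, n j‖ ^ 2 + ‖∑ j ∈ T, p j‖ ^ 2 := by
    have e0 : ⟪∑ j ∈ T, n j, ∑ j ∈ T, p j⟫ = 0 := by
      rw [sum_inner]
      exact Finset.sum_eq_zero fun j hj => by
        rw [inner_sum]; exact Finset.sum_eq_zero fun k hk => h j hj k hk
    rw [Finset.sum_add_distrib, norm_add_sq_real, e0]
    ring
  have := form_nonneg T p
  rw [e1, e2, add_div]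
  linarith

lemma form_shift (T : Finset ι) (w : ι → E) (v : E) :
    ∑ j ∈ T, ‖w j + v‖ ^ 2 - ‖∑ j ∈ T, (w j + v)‖ ^ 2 / (T.card + 1) =
      ∑ j ∈ T, ‖w j‖ ^ 2 + (2 * ⟪∑ j ∈ T, w j, v⟫ + T.card * ‖v‖ ^ 2 - ‖∑ j ∈ T, w j‖ ^ 2) /
        (T.card + 1) := by
  have e1 : ∑ j ∈ T, ‖w j + v‖ ^ 2 =
      ∑ j ∈ T, ‖w j‖ ^ 2 + 2 * ⟪∑ j ∈ T, w j, v⟫ + T.card * ‖v‖ ^ 2 := by
    simp only [norm_add_sq_real, Finset.sum_add_distrib, sum_inner, Finset.mul_sum,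
      Finset.sum_const, nsmul_eq_mul]
  have e2 : ‖∑ j ∈ T, (w j + v)‖ ^ 2 =
      ‖∑ j ∈ T, w j‖ ^ 2 + 2 * T.card * ⟪∑ j ∈ T, w j, v⟫ + T.card ^ 2 * ‖v‖ ^ 2 := by
    rw [Finset.sum_add_distrib, Finset.sum_const, ← Nat.cast_smul_eq_nsmul ℝ, norm_add_sq_real,
      real_inner_smul_right, norm_smul, mul_pow, Real.norm_eq_abs, sq_abs]
    ring
  rw [e1, e2]
  field_simp
  ring

lemma faceData {w : ι → E} {m : ι} {T : Finset ι} {α β v : E} {k₀ k₀' κ κ' : ℝ} (hm : m ∉ T)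
    (cone : ∀ x : E, (∀ l, ⟪w l, x⟫ ≤ ⟪w m, x⟫) → 0 ≤ ⟪α, x⟫ ∧ 0 ≤ ⟪β, x⟫)
    (hv : w m + v = k₀ • α + k₀' • β) (hD : 0 < gd α β) (hκ : 0 < κ) (hκ' : 0 < κ')
    (h1 : ∀ j ∈ T, co1 α β (w j + v) ≤ (k₀ - κ) * gd α β)
    (h2 : ∀ j ∈ T, co2 α β (w j + v) ≤ (k₀' - κ') * gd α β) :
    FaceData w m T α β (fun j => orth α β (w j + v))
      (fun j => k₀ - co1 α β (w j + v) / gd α β) (fun j => k₀' - co2 α β (w j + v) / gd α β)
      κ κ' where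
  notMem := hm
  cone := cone
  dec j _ := by
    have : w m = k₀ • α + k₀' • β - v := by rw [← hv]; abel
    rw [this, orth, sub_smul, sub_smul]; abel
  orth1 j _ := orth_left hD _
  orth2 j _ := orth_right hD _
  kpos := hκ
  kpos' := hκ'
  kle j hj := by have := (div_le_iff₀ hD).2 (h1 j hj); linarith
  kle' j hj := by have := (div_le_iff₀ hD).2 (h2 j hj); linarith
  det_pos := hD

lemma sq_le_of {c D S : ℝ} (hc : 0 ≤ c) (hD : 0 ≤ D) (h : c * Real.sqrt D ≤ S) :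
    c ^ 2 * D ≤ S ^ 2 := by
  have := pow_le_pow_left₀ (by positivity) h 2
  rwa [mul_pow, Real.sq_sqrt hD] at this

lemma multi {w : ι → E} (hw : FaceMulti w) {m : ι} {T : Finset ι} {α β v : E} {k₀ k₀' κ κ' : ℝ}
    (hm : m ∉ T) (cone : ∀ x : E, (∀ l, ⟪w l, x⟫ ≤ ⟪w m, x⟫) → 0 ≤ ⟪α, x⟫ ∧ 0 ≤ ⟪β, x⟫)
    (hv : w m + v = k₀ • α + k₀' • β) (hD : 0 < gd α β) (hκ : 0 < κ) (hκ' : 0 < κ')
    (h1 : ∀ j ∈ T, co1 α β (w j + v) ≤ (k₀ - κ) * gd α β)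
    (h2 : ∀ j ∈ T, co2 α β (w j + v) ≤ (k₀' - κ') * gd α β) (hT : T.card + 1 < Fintype.card ι) :
    ((T.card : ℝ) / Fintype.card ι * (κ * κ' * (2 * Real.pi))) ^ 2 * gd α β ≤
      ∑ j ∈ T, ‖w j‖ ^ 2 + (2 * ⟪∑ j ∈ T, w j, v⟫ + T.card * ‖v‖ ^ 2 - ‖∑ j ∈ T, w j‖ ^ 2) /
        (T.card + 1) := by
  have h := hw _ _ _ _ _ _ _ _ _ (faceData hm cone hv hD hκ hκ' h1 h2) hT
  have h' := sq_le_of (c := (T.card : ℝ) / Fintype.card ι * (κ * κ' * (2 * Real.pi)))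
    (by have := Real.pi_pos; positivity) hD.le (le_of_eq_of_le (by rw [gd]; ring) h)
  rw [Real.sq_sqrt (form_nonneg _ _)] at h'
  rw [← form_shift]
  refine h'.trans (le_of_le_of_eq (form_le T
    (fun j => (co1 α β (w j + v) / gd α β) • α + (co2 α β (w j + v) / gd α β) • β) _ ?_) ?_)
  · intro j _ k _
    rw [inner_add_right, real_inner_smul_right, real_inner_smul_right, orth_left hD,
      orth_right hD]
    ring
  · have : ∀ j, orth α β (w j + v) + ((co1 α β (w j + v) / gd α β) • α +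
        (co2 α β (w j + v) / gd α β) • β) = w j + v := fun j => by rw [orth]; abel
    simp only [this]

lemma single {w : ι → E} (hw : FaceOne w) {m j : ι} {α β v : E} {k₀ k₀' κ κ' : ℝ}
    (hm : m ≠ j) (cone : ∀ x : E, (∀ l, ⟪w l, x⟫ ≤ ⟪w m, x⟫) → 0 ≤ ⟪α, x⟫ ∧ 0 ≤ ⟪β, x⟫)
    (hv : w m + v = k₀ • α + k₀' • β) (hD : 0 < gd α β) (hκ : 0 < κ) (hκ' : 0 < κ')
    (h1 : co1 α β (w j + v) ≤ (k₀ - κ) * gd α β)
    (h2 : co2 α β (w j + v) ≤ (k₀' - κ') * gd α β) :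
    (3 / 2 / Fintype.card ι * (κ * κ' * (2 * Real.pi))) ^ 2 * gd α β ≤ ‖w j + v‖ ^ 2 := by
  have h := hw _ _ _ _ _ _ _ _ _ (faceData (T := {j}) (by simpa using hm) cone hv hD hκ hκ'
    (by simpa using h1) (by simpa using h2))
  have h' := sq_le_of (c := 3 / 2 / (Fintype.card ι : ℝ) * (κ * κ' * (2 * Real.pi)))
    (by have := Real.pi_pos; positivity) hD.le (le_of_eq_of_le (by rw [gd]; ring) h)
  refine h'.trans ?_
  have : w j + v = orth α β (w j + v) + ((co1 α β (w j + v) / gd α β) • α +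
        (co2 α β (w j + v) / gd α β) • β) := by rw [orth]; abel
  conv_rhs => rw [this, norm_add_sq_real, inner_add_right, real_inner_smul_right,
    real_inner_smul_right, orth_left hD, orth_right hD]
  have := sq_nonneg ‖(co1 α β (w j + v) / gd α β) • α + (co2 α β (w j + v) / gd α β) • β‖
  linarith

lemma sq_mul_le {u v D₀ D : ℝ} (hu : 0 ≤ u) (h : u ≤ v) (h0 : 0 ≤ D₀) (hD : D₀ ≤ D) :
    u ^ 2 * D₀ ≤ v ^ 2 * D :=
  mul_le_mul (pow_le_pow_left₀ hu h 2) hD h0 (sq_nonneg _)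

namespace Obtuse
variable {w : ι → E} (h : Obtuse w)
include h

lemma inner_sum_le {i j : ι} {T : Finset ι} (hi : i ∉ T) (hj : j ∈ T) :
    ⟪w i, ∑ k ∈ T, w k⟫ ≤ ⟪w i, w j⟫ := by
  rw [inner_sum, ← Finset.add_sum_erase _ _ hj]
  have : ∑ k ∈ T.erase j, ⟪w i, w k⟫ ≤ 0 := Finset.sum_nonpos fun k hk =>
    (h.neg i k fun e => hi (e ▸ Finset.mem_of_mem_erase hk)).le
  linarith

lemma inner_sum_nonpos {i : ι} {T : Finset ι} (hi : i ∉ T) : ⟪w i, ∑ k ∈ T, w k⟫ ≤ 0 := by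
  rw [inner_sum]
  exact Finset.sum_nonpos fun k hk => (h.neg i k fun e => hi (e ▸ hk)).le

lemma inner_sum_self {j : ι} {T : Finset ι} (hj : j ∈ T) : ⟪w j, ∑ k ∈ T, w k⟫ ≤ ‖w j‖ ^ 2 := by
  rw [← Finset.add_sum_erase _ _ hj, inner_add_right, real_inner_self_eq_norm_sq]
  have := h.inner_sum_nonpos (Finset.notMem_erase j T)
  linarith

lemma norm_sum_le (T : Finset ι) : ‖∑ k ∈ T, w k‖ ^ 2 ≤ ∑ k ∈ T, ‖w k‖ ^ 2 := by
  rw [← real_inner_self_eq_norm_sq, sum_inner]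
  exact Finset.sum_le_sum fun j hj => h.inner_sum_self hj

lemma sum_compl (B : Finset ι) : ∑ k ∈ Bᶜ, w k = -∑ k ∈ B, w k := by
  have := Finset.sum_add_sum_compl B w
  rw [h.sum_zero] at this
  exact eq_neg_of_add_eq_zero_right this

lemma sum_sq_compl (B : Finset ι) : ∑ k ∈ Bᶜ, ‖w k‖ ^ 2 = 1 - ∑ k ∈ B, ‖w k‖ ^ 2 := by
  have := Finset.sum_add_sum_compl B fun k => ‖w k‖ ^ 2
  rw [h.sum_sq] at this
  linarith

end Obtuse

end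

/-- the lower bound for the Gram determinant of the big triangle -/
lemma Dlo_le {P Q R pq pr qr r1 r3 tm : ℝ} (x1 : 0 ≤ P + pq + pr) (x2 : 0 ≤ Q + pq + qr)
    (x3 : 0 ≤ R + pr + qr) (hX : P + Q + R + 2 * (pq + pr + qr) ≤ 1 - P - Q - R)
    (a1 : P ≤ r1) (a2 : Q ≤ r1) (a3 : R ≤ r1) (b1 : r3 ≤ P) (b2 : r3 ≤ Q) (b3 : r3 ≤ R)
    (ht : 1 - P - Q - R ≤ tm) (ht' : tm ≤ 1 / 4) :
    Dlo r1 r3 tm ≤ (P - 2 * pq + Q) * (P - 2 * pr + R) - (P - pr - pq + qr) ^ 2 := by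
  obtain ⟨σ, hσ⟩ : ∃ σ, σ = 2 * (P + Q + R) - 2 * (pq + pr + qr) := ⟨_, rfl⟩
  obtain ⟨u1, h1⟩ : ∃ u, u = Q - 2 * qr + R - σ / 3 := ⟨_, rfl⟩
  obtain ⟨u2, h2⟩ : ∃ u, u = P - 2 * pr + R - σ / 3 := ⟨_, rfl⟩
  obtain ⟨u3, h3⟩ : ∃ u, u = P - 2 * pq + Q - σ / 3 := ⟨_, rfl⟩
  obtain ⟨lo, hlo⟩ : ∃ lo, lo = 3 * r1 + 5 * tm / 3 - 1 := ⟨_, rfl⟩
  obtain ⟨hi, hhi⟩ : ∃ hi, hi = 1 - 3 * r3 + tm / 3 := ⟨_, rfl⟩
  have e0 : u1 + u2 + u3 = 0 := by linarith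
  have e1 : (P - 2 * pq + Q) * (P - 2 * pr + R) - (P - pr - pq + qr) ^ 2 =
      (σ ^ 2 / 3 - 2 * (u1 ^ 2 + u2 ^ 2 + u3 ^ 2)) / 4 := by
    rw [h1, h2, h3, hσ]; ring
  have c1 := mul_nonneg (show 0 ≤ u1 + lo by linarith) (show 0 ≤ hi - u1 by linarith)
  have c2 := mul_nonneg (show 0 ≤ u2 + lo by linarith) (show 0 ≤ hi - u2 by linarith)
  have c3 := mul_nonneg (show 0 ≤ u3 + lo by linarith) (show 0 ≤ hi - u3 by linarith)
  have c4 : (3 - 4 * tm) ^ 2 ≤ σ ^ 2 := pow_le_pow_left₀ (by linarith) (by linarith) 2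
  have e2 : (u1 + lo) * (hi - u1) + (u2 + lo) * (hi - u2) + (u3 + lo) * (hi - u3) =
      (hi - lo) * (u1 + u2 + u3) + 3 * (lo * hi) - (u1 ^ 2 + u2 ^ 2 + u3 ^ 2) := by ring
  rw [e0] at e2
  rw [e1, Dlo, ← hlo, ← hhi]
  nlinarith

end Crest.Agent.Prp
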