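import Crest.Agent.Prp.GeomA

/-! Propeller conjecture, piece G: the triangle geometry. -/

set_option autoImplicit false
set_option linter.unusedSectionVars false
set_option linter.unusedVariables false

open scoped RealInnerProductSpace

namespace Crest.Agent.Prp

universe u v

section
variable {E : Type u} [NormedAddCommGroup E] [InnerProductSpace ℝ E]
  {ι : Type v} [Fintype ι] [DecidableEq ι] {w : ι → E}

lemma Obtuse.tri (h : Obtuse w) {m l l' : ι} (h1 : m ≠ l) (h2 : m ≠ l') (h3 : l ≠ l') :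
    ∑ k ∈ ({m, l, l'} : Finset ι)ᶜ, w k = -(w m + w l + w l') ∧
    ∑ k ∈ ({m, l, l'} : Finset ι)ᶜ, ‖w k‖ ^ 2 = 1 - ‖w m‖ ^ 2 - ‖w l‖ ^ 2 - ‖w l'‖ ^ 2 ∧
    ({m, l, l'} : Finset ι)ᶜ.card + 3 = Fintype.card ι := by
  have e1 : m ∉ ({l, l'} : Finset ι) := by simp [h1, h2]
  refine ⟨?_, ?_, ?_⟩
  · rw [h.sum_compl, Finset.sum_insert e1, Finset.sum_pair h3, add_assoc]
  · rw [h.sum_sq_compl, Finset.sum_insert e1, Finset.sum_pair h3]; ring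
  · have := Finset.card_add_card_compl ({m, l, l'} : Finset ι)
    rw [Finset.card_insert_of_notMem e1, Finset.card_pair h3] at this
    omega

lemma inner_tri (p q r : E) :
    ⟪p, p + q + r⟫ = ‖p‖ ^ 2 + ⟪p, q⟫ + ⟪p, r⟫ ∧ ⟪q, p + q + r⟫ = ‖q‖ ^ 2 + ⟪p, q⟫ + ⟪q, r⟫ ∧
    ⟪r, p + q + r⟫ = ‖r‖ ^ 2 + ⟪p, r⟫ + ⟪q, r⟫ ∧
    ‖p + q + r‖ ^ 2 = ‖p‖ ^ 2 + ‖q‖ ^ 2 + ‖r‖ ^ 2 + 2 * (⟪p, q⟫ + ⟪p, r⟫ + ⟪q, r⟫) ∧
    ‖p - q‖ ^ 2 = ‖p‖ ^ 2 - 2 * ⟪p, q⟫ + ‖q‖ ^ 2 ∧ ‖p - r‖ ^ 2 = ‖p‖ ^ 2 - 2 * ⟪p, r⟫ + ‖r‖ ^ 2 ∧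
    ⟪p - q, p - r⟫ = ‖p‖ ^ 2 - ⟪p, r⟫ - ⟪p, q⟫ + ⟪q, r⟫ := by
  simp only [norm_add_sq_real, norm_sub_sq_real, inner_add_left, inner_add_right, inner_sub_left,
    inner_sub_right, real_inner_self_eq_norm_sq, real_inner_comm p q, real_inner_comm p r,
    real_inner_comm q r, true_and]
  refine ⟨by ring, by ring, by ring, by ring⟩

lemma Obtuse.tri2 (h : Obtuse w) {m l l' : ι} (h1 : m ≠ l) (h2 : m ≠ l') (h3 : l ≠ l') :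
    0 ≤ ⟪w m, w m + w l + w l'⟫ ∧ 0 ≤ ⟪w l, w m + w l + w l'⟫ ∧ 0 ≤ ⟪w l', w m + w l + w l'⟫ ∧
    ‖w m + w l + w l'‖ ^ 2 ≤ 1 - ‖w m‖ ^ 2 - ‖w l‖ ^ 2 - ‖w l'‖ ^ 2 := by
  obtain ⟨e1, e2, -⟩ := h.tri h1 h2 h3
  have a1 := h.inner_sum_nonpos (i := m) (T := ({m, l, l'} : Finset ι)ᶜ) (by simp)
  have a2 := h.inner_sum_nonpos (i := l) (T := ({m, l, l'} : Finset ι)ᶜ) (by simp)
  have a3 := h.inner_sum_nonpos (i := l') (T := ({m, l, l'} : Finset ι)ᶜ) (by simp)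
  have a4 := h.norm_sum_le ({m, l, l'} : Finset ι)ᶜ
  rw [e1, inner_neg_right] at a1 a2 a3
  rw [e1, e2, norm_neg] at a4
  exact ⟨by linarith, by linarith, by linarith, a4⟩

lemma cone_tri (m l l' : ι) (x : E) (hx : ∀ k, ⟪w k, x⟫ ≤ ⟪w m, x⟫) :
    0 ≤ ⟪w m - w l, x⟫ ∧ 0 ≤ ⟪w m - w l', x⟫ := by
  simp only [inner_sub_left, sub_nonneg]
  exact ⟨hx _, hx _⟩

lemma third (p q r : E) :
    p + -((1 / 3 : ℝ) • (p + q + r)) = (1 / 3 : ℝ) • (p - q) + (1 / 3 : ℝ) • (p - r) := by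
  module

lemma Obtuse.gd_ge (h : Obtuse w) {m l l' : ι} (h1 : m ≠ l) (h2 : m ≠ l') (h3 : l ≠ l')
    {r1 r3 tm : ℝ} (a1 : ‖w m‖ ^ 2 ≤ r1) (a2 : ‖w l‖ ^ 2 ≤ r1) (a3 : ‖w l'‖ ^ 2 ≤ r1)
    (b1 : r3 ≤ ‖w m‖ ^ 2) (b2 : r3 ≤ ‖w l‖ ^ 2) (b3 : r3 ≤ ‖w l'‖ ^ 2)
    (ht : 1 - ‖w m‖ ^ 2 - ‖w l‖ ^ 2 - ‖w l'‖ ^ 2 ≤ tm) (ht' : tm ≤ 1 / 4) :
    Dlo r1 r3 tm ≤ gd (w m - w l) (w m - w l') := by
  obtain ⟨x1, x2, x3, x4⟩ := h.tri2 h1 h2 h3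
  obtain ⟨i1, i2, i3, i4, i5, i6, i7⟩ := inner_tri (w m) (w l) (w l')
  rw [gd, i5, i6, i7]
  exact Dlo_le (by linarith) (by linarith) (by linarith) (by linarith) a1 a2 a3 b1 b2 b3 ht ht'

lemma inner_zeta (z s x : E) (c : ℝ) : ⟪z + -(c • s), x⟫ = ⟪x, z⟫ - c * ⟪x, s⟫ := by
  rw [inner_add_left, inner_neg_left, real_inner_smul_left, real_inner_comm z x,
    real_inner_comm s x]
  ring

lemma t1 (h : Obtuse w) (hw : FaceOne w) {m l l' j : ι} (h1 : m ≠ l) (h2 : m ≠ l') (h3 : l ≠ l')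
    (j1 : j ≠ m) (j2 : j ≠ l) (j3 : j ≠ l') {s : E} (hs : w m + w l + w l' = s)
    {r1 r3 tm r5 D0 δ K0 : ℝ} (a1 : ‖w m‖ ^ 2 ≤ r1) (a2 : ‖w l‖ ^ 2 ≤ r1) (a3 : ‖w l'‖ ^ 2 ≤ r1)
    (b1 : r3 ≤ ‖w m‖ ^ 2) (b2 : r3 ≤ ‖w l‖ ^ 2) (b3 : r3 ≤ ‖w l'‖ ^ 2)
    (ht : 1 - ‖w m‖ ^ 2 - ‖w l‖ ^ 2 - ‖w l'‖ ^ 2 ≤ tm) (ht' : tm ≤ 1 / 4) (h5 : ‖w j‖ ^ 2 ≤ r5)
    (hD0 : 0 < D0) (hD1 : D0 ≤ Dlo r1 r3 tm) (hδ : (2 - 3 * r3) * (r5 + tm / 3) ≤ δ * D0)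
    (hδ' : δ < 1 / 3) (hK : 0 ≤ K0) (hK1 : K0 ≤ 1 / 9) (hK2 : K0 ≤ (1 / 3 - δ) * (1 / 3 + 2 * δ))
    (c1 : 2 * co1 (w m - w l) (w m - w l') (w j + -((1 / 3 : ℝ) • s)) +
      co2 (w m - w l) (w m - w l') (w j + -((1 / 3 : ℝ) • s)) ≤ 0)
    (c2 : co1 (w m - w l) (w m - w l') (w j + -((1 / 3 : ℝ) • s)) +
      2 * co2 (w m - w l) (w m - w l') (w j + -((1 / 3 : ℝ) • s)) ≤ 0) :
    (3 * 3.1415 / Fintype.card ι * K0) ^ 2 * D0 ≤ ‖w j - (1 / 3 : ℝ) • s‖ ^ 2 := by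
  subst hs
  have hD := hD1.trans (h.gd_ge h1 h2 h3 a1 a2 a3 b1 b2 b3 ht ht')
  have hDp := hD0.trans_le hD
  obtain ⟨x1, x2, x3, x4⟩ := h.tri2 h1 h2 h3
  obtain ⟨i1, i2, i3, i4, i5, i6, i7⟩ := inner_tri (w m) (w l) (w l')
  obtain ⟨e1, -, -⟩ := h.tri h1 h2 h3
  have y0 := h.inner_sum_self (j := j) (T := ({m, l, l'} : Finset ι)ᶜ) (by simp [j1, j2, j3])
  rw [e1, inner_neg_right, inner_add_right, inner_add_right, real_inner_comm (w m),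
    real_inner_comm (w l), real_inner_comm (w l')] at y0
  have y1 := h.neg m j j1.symm
  have y2 := h.neg l j j2.symm
  have y3 := h.neg l' j j3.symm
  have y4 := sq_nonneg ‖w m + w l + w l'‖
  set ζ := w j + -((1 / 3 : ℝ) • (w m + w l + w l')) with hζ
  have hN : -(co1 (w m - w l) (w m - w l') ζ + co2 (w m - w l) (w m - w l') ζ) ≤
      (2 - 3 * r3) * (r5 + tm / 3) := by
    obtain ⟨bm, hbm⟩ : ∃ b, b = -⟪ζ, w m⟫ := ⟨_, rfl⟩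
    obtain ⟨bl, hbl⟩ : ∃ b, b = -⟪ζ, w l⟫ := ⟨_, rfl⟩
    obtain ⟨bl', hbl'⟩ : ∃ b, b = -⟪ζ, w l'⟫ := ⟨_, rfl⟩
    have f1 : ⟪ζ, w m - w l⟫ = bl - bm := by rw [inner_sub_right]; linarith
    have f2 : ⟪ζ, w m - w l'⟫ = bl' - bm := by rw [inner_sub_right]; linarith
    rw [hζ, inner_zeta] at hbm hbl hbl'
    rw [co1, co2, f1, f2]
    generalize ‖w m - w l‖ ^ 2 = A at *
    generalize ‖w m - w l'‖ ^ 2 = B at *
    generalize ⟪w m - w l, w m - w l'⟫ = ρ at *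
    have g1 := mul_nonneg (show 0 ≤ 2 - 3 * r3 - (A + B - 2 * ρ) by linarith)
      (show 0 ≤ bm by linarith)
    have g2 := mul_nonneg (show 0 ≤ 2 - 3 * r3 + (B - ρ) by linarith) (show 0 ≤ bl by linarith)
    have g3 := mul_nonneg (show 0 ≤ 2 - 3 * r3 + (A - ρ) by linarith) (show 0 ≤ bl' by linarith)
    have g4 := mul_nonneg (show 0 ≤ 2 - 3 * r3 by linarith)
      (show 0 ≤ r5 + tm / 3 - (bm + bl + bl') by linarith)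
    nlinarith
  have hδ0 : 0 ≤ δ := by
    by_contra hc
    have := mul_neg_of_neg_of_pos (not_le.1 hc) hD0
    linarith
  obtain ⟨c, hc⟩ : ∃ c, c = co1 (w m - w l) (w m - w l') ζ / gd (w m - w l) (w m - w l') :=
    ⟨_, rfl⟩
  obtain ⟨d, hd⟩ : ∃ d, d = co2 (w m - w l) (w m - w l') ζ / gd (w m - w l) (w m - w l') :=
    ⟨_, rfl⟩
  have hc' : co1 (w m - w l) (w m - w l') ζ = c * gd (w m - w l) (w m - w l') := by
    rw [hc]; field_simp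
  have hd' : co2 (w m - w l) (w m - w l') ζ = d * gd (w m - w l) (w m - w l') := by
    rw [hd]; field_simp
  rw [hc', hd'] at c1 c2 hN
  have k1 : 2 * c + d ≤ 0 := by
    by_contra hh
    have := mul_pos (not_le.1 hh) hDp
    linarith
  have k2 : c + 2 * d ≤ 0 := by
    by_contra hh
    have := mul_pos (not_le.1 hh) hDp
    linarith
  have k3 : -(c + d) ≤ δ := by
    by_contra hh
    have := mul_pos (sub_pos.2 (not_le.1 hh)) hDp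
    have := mul_le_mul_of_nonneg_left hD hδ0
    linarith
  have k4 : K0 ≤ (1 / 3 - c) * (1 / 3 - d) := by
    have g1 := mul_nonneg (neg_nonneg.2 k1) (neg_nonneg.2 k2)
    obtain ⟨t, ht⟩ : ∃ t, t = -(c + d) := ⟨_, rfl⟩
    have g2 : (1 / 3 - t) * (1 / 3 + 2 * t) ≤ (1 / 3 - c) * (1 / 3 - d) := by
      rw [ht]; nlinarith
    refine le_trans ?_ g2
    rcases le_total t (1 / 6) with hh | hh
    · have := mul_nonneg (show 0 ≤ t by linarith) (show 0 ≤ 1 / 6 - t by linarith)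
      nlinarith
    · have := mul_nonneg (show 0 ≤ δ - t by linarith) (show 0 ≤ δ + t - 1 / 6 by linarith)
      nlinarith
  have := single hw (m := m) (j := j) j1.symm (cone_tri m l l') (third _ _ _) hDp
    (show 0 < 1 / 3 - c by linarith) (show 0 < 1 / 3 - d by linarith)
    (by rw [← hζ, hc']; exact le_of_eq (by ring)) (by rw [← hζ, hd']; exact le_of_eq (by ring))
  rw [sub_eq_add_neg]
  refine (sq_mul_le (by positivity) ?_ hD0.le hD).trans this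
  have e : 3 / 2 / (Fintype.card ι : ℝ) * ((1 / 3 - c) * (1 / 3 - d) * (2 * Real.pi)) =
      3 * Real.pi / Fintype.card ι * ((1 / 3 - c) * (1 / 3 - d)) := by ring
  rw [e]
  have := Real.pi_gt_d4
  gcongr

lemma perm2 (p q r ζ : E) : co1 (q - p) (q - r) ζ = -co1 (p - q) (p - r) ζ - co2 (p - q) (p - r) ζ ∧
    co2 (q - p) (q - r) ζ = co2 (p - q) (p - r) ζ ∧
    co1 (r - p) (r - q) ζ = -co1 (p - q) (p - r) ζ - co2 (p - q) (p - r) ζ ∧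
    co2 (r - p) (r - q) ζ = co1 (p - q) (p - r) ζ := by
  simp only [co1, co2, norm_sub_sq_real, inner_sub_left, inner_sub_right,
    real_inner_self_eq_norm_sq, real_inner_comm p q, real_inner_comm p r, real_inner_comm q r]
  refine ⟨by ring, by ring, by ring, by ring⟩

lemma test1 (h : Obtuse w) (hw : FaceOne w) {i1 i2 i3 j : ι} (h1 : i1 ≠ i2) (h2 : i1 ≠ i3)
    (h3 : i2 ≠ i3) (j1 : j ≠ i1) (j2 : j ≠ i2) (j3 : j ≠ i3) :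
    Test1 (Fintype.card ι) (‖w i1‖ ^ 2) (‖w i2‖ ^ 2) (‖w i3‖ ^ 2) (‖w j‖ ^ 2)
        (1 - ‖w i1‖ ^ 2 - ‖w i2‖ ^ 2 - ‖w i3‖ ^ 2)
        (‖w j - (1 / 3 : ℝ) • (w i1 + w i2 + w i3)‖ ^ 2) := by
  intro r1 r3 tm r5 D0 δ K0 a1 a2 a3 b1 b2 b3 ht ht' h5 hD0 hD1 hδ hδ' hK hK1 hK2
  obtain ⟨p1, p2, p3, p4⟩ := perm2 (w i1) (w i2) (w i3)
    (w j + -((1 / 3 : ℝ) • (w i1 + w i2 + w i3)))
  have t1' := t1 h hw h1 h2 h3 j1 j2 j3 rfl a1 a2 a3 b1 b2 b3 ht ht' h5 hD0 hD1 hδ hδ' hK hK1 hK2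
  have t2' := t1 h hw h1.symm h3 h2 j2 j1 j3 (s := w i1 + w i2 + w i3) (by abel) a2 a1 a3 b2 b1 b3
    (by linarith) ht' h5 hD0 hD1 hδ hδ' hK hK1 hK2
  have t3' := t1 h hw h2.symm h3.symm h1 j3 j1 j2 (s := w i1 + w i2 + w i3) (by abel) a3 a1 a2 b3
    b1 b2 (by linarith) ht' h5 hD0 hD1 hδ hδ' hK hK1 hK2
  rw [p1, p2] at t2'
  rw [p3, p4] at t3'
  generalize co1 (w i1 - w i2) (w i1 - w i3) (w j + -((1 / 3 : ℝ) • (w i1 + w i2 + w i3))) = c at *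
  generalize co2 (w i1 - w i2) (w i1 - w i3) (w j + -((1 / 3 : ℝ) • (w i1 + w i2 + w i3))) = d at *
  rcases le_total c d with hcd | hcd
  · rcases le_total (c + 2 * d) 0 with hh | hh
    · exact t1' (by linarith) hh
    · exact t3' (by linarith) (by linarith)
  · rcases le_total (2 * c + d) 0 with hh | hh
    · exact t1' hh (by linarith)
    · exact t2' (by linarith) (by linarith)

lemma t23 (h : Obtuse w) (hw : FaceMulti w) {m l l' : ι} (h1 : m ≠ l) (h2 : m ≠ l') (h3 : l ≠ l')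
    {T : Finset ι} (hT : T ⊆ ({m, l, l'} : Finset ι)ᶜ) (hT' : T.card + 1 < Fintype.card ι)
    {r1 r3 tm D0 C β₁ β₂ : ℝ} (a1 : ‖w m‖ ^ 2 ≤ r1) (a2 : ‖w l‖ ^ 2 ≤ r1) (a3 : ‖w l'‖ ^ 2 ≤ r1)
    (b1 : r3 ≤ ‖w m‖ ^ 2) (b2 : r3 ≤ ‖w l‖ ^ 2) (b3 : r3 ≤ ‖w l'‖ ^ 2)
    (ht : 1 - ‖w m‖ ^ 2 - ‖w l‖ ^ 2 - ‖w l'‖ ^ 2 ≤ tm) (ht' : tm ≤ 1 / 4)
    (hac : 1 + 2 * tm ≤ 6 * r3) (hD0 : 0 < D0) (hD1 : D0 ≤ Dlo r1 r3 tm) (hC : 0 < C)
    (hβ₁ : 0 ≤ β₁) (hβ₂ : 0 ≤ β₂)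
    (g1 : ∀ j ∈ T, 1 / 3 * ⟪w l, w m + w l + w l'⟫ - ⟪w l, w j⟫ ≤ β₁)
    (g2 : ∀ j ∈ T, 1 / 3 * ⟪w l', w m + w l + w l'⟫ - ⟪w l', w j⟫ ≤ β₂)
    (hC' : C * D0 ≤ D0 - 3 * (2 - 3 * r3) * (β₁ + β₂)) :
    ((T.card : ℝ) / Fintype.card ι * (2 * 3.1415 / 9) * C) ^ 2 * D0 ≤
      ∑ j ∈ T, ‖w j‖ ^ 2 + (2 * ⟪∑ j ∈ T, w j, -((1 / 3 : ℝ) • (w m + w l + w l'))⟫ +
        T.card * ‖-((1 / 3 : ℝ) • (w m + w l + w l'))‖ ^ 2 - ‖∑ j ∈ T, w j‖ ^ 2) / (T.card + 1) := by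
  have hD := hD1.trans (h.gd_ge h1 h2 h3 a1 a2 a3 b1 b2 b3 ht ht')
  have hDp := hD0.trans_le hD
  obtain ⟨x1, x2, x3, x4⟩ := h.tri2 h1 h2 h3
  obtain ⟨i1, i2, i3, i4, i5, i6, i7⟩ := inner_tri (w m) (w l) (w l')
  have y4 := sq_nonneg ‖w m + w l + w l'‖
  have hs : 0 ≤ 2 - 3 * r3 := by linarith
  obtain ⟨p, hp⟩ : ∃ p, p = (2 - 3 * r3) * β₁ / D0 := ⟨_, rfl⟩
  obtain ⟨q, hq⟩ : ∃ q, q = (2 - 3 * r3) * β₂ / D0 := ⟨_, rfl⟩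
  have hp0 : 0 ≤ p := by rw [hp]; positivity
  have hq0 : 0 ≤ q := by rw [hq]; positivity
  have hp1 : (2 - 3 * r3) * β₁ = p * D0 := by rw [hp]; field_simp
  have hq1 : (2 - 3 * r3) * β₂ = q * D0 := by rw [hq]; field_simp
  have hpq : C ≤ 1 - 3 * p - 3 * q := by
    by_contra hh
    have := mul_pos (sub_pos.2 (not_le.1 hh)) hD0
    nlinarith
  have key : ∀ j ∈ T, co1 (w m - w l) (w m - w l') (w j + -((1 / 3 : ℝ) • (w m + w l + w l'))) ≤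
      (2 - 3 * r3) * β₁ ∧
      co2 (w m - w l) (w m - w l') (w j + -((1 / 3 : ℝ) • (w m + w l + w l'))) ≤
      (2 - 3 * r3) * β₂ := by
    intro j hj
    have hj' := hT hj
    simp only [Finset.mem_compl, Finset.mem_insert, Finset.mem_singleton, not_or] at hj'
    have y1 := h.neg m j (Ne.symm hj'.1)
    have y2 := h.neg l j (Ne.symm hj'.2.1)
    have y3 := h.neg l' j (Ne.symm hj'.2.2)
    have g1' := g1 j hj
    have g2' := g2 j hj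
    set ζ := w j + -((1 / 3 : ℝ) • (w m + w l + w l')) with hζ
    obtain ⟨bm, hbm⟩ : ∃ b, b = -⟪ζ, w m⟫ := ⟨_, rfl⟩
    obtain ⟨bl, hbl⟩ : ∃ b, b = -⟪ζ, w l⟫ := ⟨_, rfl⟩
    obtain ⟨bl', hbl'⟩ : ∃ b, b = -⟪ζ, w l'⟫ := ⟨_, rfl⟩
    have f1 : ⟪ζ, w m - w l⟫ = bl - bm := by rw [inner_sub_right]; linarith
    have f2 : ⟪ζ, w m - w l'⟫ = bl' - bm := by rw [inner_sub_right]; linarith
    rw [hζ, inner_zeta] at hbm hbl hbl'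
    rw [co1, co2, f1, f2]
    generalize ‖w m - w l‖ ^ 2 = A at *
    generalize ‖w m - w l'‖ ^ 2 = B at *
    generalize ⟪w m - w l, w m - w l'⟫ = ρ at *
    have z0 : 0 ≤ ρ := by linarith
    have z1 : 0 ≤ bm := by linarith
    have z2 : 0 ≤ bl := by linarith
    have z3 : 0 ≤ bl' := by linarith
    have q1 := mul_nonneg z0 z2
    have q2 := mul_nonneg z0 z3
    have q3 := mul_nonneg (show 0 ≤ B - ρ by linarith) z1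
    have q4 := mul_nonneg (show 0 ≤ A - ρ by linarith) z1
    have q5 := mul_le_mul (show B ≤ 2 - 3 * r3 by linarith) (show bl ≤ β₁ by linarith) z2 hs
    have q6 := mul_le_mul (show A ≤ 2 - 3 * r3 by linarith) (show bl' ≤ β₂ by linarith) z3 hs
    constructor <;> nlinarith
  have := multi hw (m := m) (T := T) (fun hm => by simpa using hT hm) (cone_tri m l l')
    (third _ _ _) hDp (show 0 < 1 / 3 - p by linarith) (show 0 < 1 / 3 - q by linarith)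
    (fun j hj => (key j hj).1.trans (by
      rw [hp1, sub_sub_cancel]; exact mul_le_mul_of_nonneg_left hD hp0))
    (fun j hj => (key j hj).2.trans (by
      rw [hq1, sub_sub_cancel]; exact mul_le_mul_of_nonneg_left hD hq0)) hT'
  have p0 : (0 : ℝ) ≤ (T.card : ℝ) / Fintype.card ι :=
    div_nonneg (Nat.cast_nonneg _) (Nat.cast_nonneg _)
  have p1 : (0 : ℝ) ≤ 2 * 3.1415 / 9 := by norm_num
  refine (sq_mul_le (mul_nonneg (mul_nonneg p0 p1) hC.le) ?_ hD0.le hD).trans this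
  have e : (T.card : ℝ) / Fintype.card ι * ((1 / 3 - p) * (1 / 3 - q) * (2 * Real.pi)) =
      (T.card : ℝ) / Fintype.card ι * (2 * Real.pi / 9) * (1 - 3 * p - 3 * q + 9 * (p * q)) := by
    ring
  rw [e]
  have := Real.pi_gt_d4
  have := mul_nonneg hp0 hq0
  exact mul_le_mul (mul_le_mul_of_nonneg_left (by linarith) p0) (by linarith) hC.le
    (mul_nonneg p0 (by linarith))

lemma argmax3 (x y z : ℝ) : (y ≤ x ∧ z ≤ x) ∨ (x ≤ y ∧ z ≤ y) ∨ (x ≤ z ∧ y ≤ z) := by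
  rcases le_total x y with a | a <;> rcases le_total x z with b | b <;>
    rcases le_total y z with c | c <;> simp [*] <;> grind

lemma t2 (h : Obtuse w) (hw : FaceMulti w) {m l l' : ι} (h1 : m ≠ l) (h2 : m ≠ l') (h3 : l ≠ l')
    (hk : Fintype.card ι = 5) {s : E} (hs : w m + w l + w l' = s) (m1 : ⟪w l, s⟫ ≤ ⟪w m, s⟫)
    (m2 : ⟪w l', s⟫ ≤ ⟪w m, s⟫) :
    Test2 (‖w m‖ ^ 2) (‖w l‖ ^ 2) (‖w l'‖ ^ 2) (1 - ‖w m‖ ^ 2 - ‖w l‖ ^ 2 - ‖w l'‖ ^ 2) := by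
  subst hs
  intro r1 r3 tm D0 C a1 a2 a3 b1 b2 b3 ht ht' hac hD0 hD1 hC hC'
  obtain ⟨x1, x2, x3, x4⟩ := h.tri2 h1 h2 h3
  obtain ⟨i1, i2, i3, i4, -⟩ := inner_tri (w m) (w l) (w l')
  obtain ⟨e1, e2, e3⟩ := h.tri h1 h2 h3
  have y4 := sq_nonneg ‖w m + w l + w l'‖
  rcases hC.eq_or_lt with rfl | hC
  · simp; linarith
  have e4 : ({m, l, l'} : Finset ι)ᶜ.card = 2 := by omega
  have := t23 h hw h1 h2 h3 subset_rfl (by omega) a1 a2 a3 b1 b2 b3 ht ht' hac hD0 hD1 hC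
    (β₁ := 4 / 3 * ⟪w l, w m + w l + w l'⟫) (β₂ := 4 / 3 * ⟪w l', w m + w l + w l'⟫)
    (by positivity) (by positivity)
    (fun j hj => by
      have := h.inner_sum_le (i := l) (by simp) hj
      rw [e1, inner_neg_right] at this
      linarith)
    (fun j hj => by
      have := h.inner_sum_le (i := l') (by simp) hj
      rw [e1, inner_neg_right] at this
      linarith)
    (by
      have := mul_nonneg (show 0 ≤ 2 - 3 * r3 by linarith) (show 0 ≤ 2 * tm / 3 -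
        (⟪w l, w m + w l + w l'⟫ + ⟪w l', w m + w l + w l'⟫) by linarith)
      linarith)
  rw [e1, e2, e4, hk, inner_neg_neg, real_inner_smul_right, real_inner_self_eq_norm_sq, norm_neg,
    norm_neg, norm_smul, mul_pow _ ‖w m + w l + w l'‖] at this
  have e5 : ‖(1 / 3 : ℝ)‖ ^ 2 = 1 / 9 := by norm_num
  rw [e5] at this
  push_cast at this
  refine le_trans (le_of_eq ?_) (this.trans (by linarith))
  ring

lemma t3 (h : Obtuse w) (hw : FaceMulti w) {m l l' i4 : ι} (h1 : m ≠ l) (h2 : m ≠ l') (h3 : l ≠ l')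
    (j1 : i4 ≠ m) (j2 : i4 ≠ l) (j3 : i4 ≠ l')
    (hk : 5 ≤ Fintype.card ι) {s : E} (hs : w m + w l + w l' = s) (m1 : ⟪w l, s⟫ ≤ ⟪w m, s⟫)
    (m2 : ⟪w l', s⟫ ≤ ⟪w m, s⟫) :
    Test3 (((Fintype.card ι : ℝ) - 4) / Fintype.card ι) (‖w m‖ ^ 2) (‖w l‖ ^ 2) (‖w l'‖ ^ 2)
      (‖w i4‖ ^ 2) (1 - ‖w m‖ ^ 2 - ‖w l‖ ^ 2 - ‖w l'‖ ^ 2 - ‖w i4‖ ^ 2) := by
  subst hs
  intro r1 r3 tm um D0 C a1 a2 a3 b1 b2 b3 ht ht' hu hac hD0 hD1 hC hC'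
  obtain ⟨x1, x2, x3, x4⟩ := h.tri2 h1 h2 h3
  obtain ⟨i1, i2, i3, i4', -⟩ := inner_tri (w m) (w l) (w l')
  obtain ⟨e1, e2, e3⟩ := h.tri h1 h2 h3
  have y4 := sq_nonneg ‖w m + w l + w l'‖
  have hi : i4 ∈ ({m, l, l'} : Finset ι)ᶜ := by simp [j1, j2, j3]
  set T := ({m, l, l'} : Finset ι)ᶜ.erase i4 with hT
  have f1 : w m + w l + w l' = -(w i4 + ∑ k ∈ T, w k) := by
    rw [hT, Finset.add_sum_erase _ _ hi, e1, neg_neg]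
  have f2 : ∑ k ∈ T, ‖w k‖ ^ 2 = 1 - ‖w m‖ ^ 2 - ‖w l‖ ^ 2 - ‖w l'‖ ^ 2 - ‖w i4‖ ^ 2 := by
    rw [← e2, ← Finset.add_sum_erase _ _ hi]; ring
  have f3 : T.card + 4 = Fintype.card ι := by
    have := Finset.card_erase_add_one hi
    rw [← hT] at this
    omega
  have f4 := h.norm_sum_le T
  have f5 := sq_nonneg ‖∑ k ∈ T, w k‖
  have f6 := sq_nonneg ‖w i4‖
  rcases hC.eq_or_lt with rfl | hC
  · simp; linarith
  have n1 := h.inner_sum_nonpos (i := m) (T := T) (by simp [hT])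
  have n2 := h.inner_sum_nonpos (i := l) (T := T) (by simp [hT])
  have n3 := h.inner_sum_nonpos (i := l') (T := T) (by simp [hT])
  have n4 := h.inner_sum_nonpos (i := i4) (T := T) (by simp [hT])
  have n5 : ⟪w m + w l + w l', ∑ k ∈ T, w k⟫ = -(⟪w i4, ∑ k ∈ T, w k⟫ + ‖∑ k ∈ T, w k‖ ^ 2) := by
    rw [f1, inner_neg_left, inner_add_left, real_inner_self_eq_norm_sq]
  have n6 := n5
  rw [inner_add_left, inner_add_left] at n6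
  have := t23 h hw h1 h2 h3 (T := T) (Finset.erase_subset _ _) (by omega) a1 a2 a3 b1 b2 b3
    (by linarith) ht' hac hD0 hD1 hC
    (β₁ := 1 / 3 * ⟪w l, w m + w l + w l'⟫ - ⟪w l, ∑ k ∈ T, w k⟫)
    (β₂ := 1 / 3 * ⟪w l', w m + w l + w l'⟫ - ⟪w l', ∑ k ∈ T, w k⟫)
    (by linarith) (by linarith)
    (fun j hj => by
      have := h.inner_sum_le (i := l) (by simp [hT]) hj
      linarith)
    (fun j hj => by
      have := h.inner_sum_le (i := l') (by simp [hT]) hj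
      linarith)
    (by
      have := mul_nonneg (show 0 ≤ 2 - 3 * r3 by linarith) (show 0 ≤ um + 2 * tm / 9 -
        (1 / 3 * ⟪w l, w m + w l + w l'⟫ - ⟪w l, ∑ k ∈ T, w k⟫ +
          (1 / 3 * ⟪w l', w m + w l + w l'⟫ - ⟪w l', ∑ k ∈ T, w k⟫)) by linarith)
      linarith)
  rw [f2, inner_neg_right, real_inner_smul_right, real_inner_comm, n5, norm_neg, norm_smul,
    mul_pow _ ‖w m + w l + w l'‖] at this
  have e5 : ‖(1 / 3 : ℝ)‖ ^ 2 = 1 / 9 := by norm_num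
  rw [e5] at this
  have e6 : (Fintype.card ι : ℝ) - 4 = T.card := by rw [← f3]; push_cast; ring
  rw [e6]
  refine this.trans ?_
  have e7 : (2 * -(1 / 3 * -(⟪w i4, ∑ k ∈ T, w k⟫ + ‖∑ k ∈ T, w k‖ ^ 2)) +
      T.card * (1 / 9 * ‖w m + w l + w l'‖ ^ 2) - ‖∑ k ∈ T, w k‖ ^ 2) / (T.card + 1) ≤
      1 / 9 * ‖w m + w l + w l'‖ ^ 2 := by
    rw [div_le_iff₀ (Nat.cast_add_one_pos _)]
    nlinarith
  linarith

end

end Crest.Agent.Prp
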