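import Crest.Agent.Prp.Tree1

set_option autoImplicit false
set_option linter.unusedVariables false
set_option linter.style.longLine false

namespace Crest.Agent.Prp

/-- `v` lies above all the lines at `p` -/
def Up (p v : ℝ) : Prop :=
  p < 1 / 2 ∧ (-0.086189) + 0.4907 * p ≤ v ∧ (-0.072224) + 0.4559 * p ≤ v ∧ (-0.060714) + 0.4225 * p ≤ v ∧ (-0.051241) + 0.3918 * p ≤ v ∧ (-0.042245) + 0.359 * p ≤ v ∧ (-0.034066) + 0.3252 * p ≤ v ∧ (-0.025211) + 0.2834 * p ≤ v ∧ (-0.016914) + 0.2349 * p ≤ v ∧ (-0.010849) + 0.1902 * p ≤ v ∧ (-0.006669) + 0.1506 * p ≤ v ∧ (-0.004319) + 0.1215 * p ≤ v ∧ (-0.002976) + 0.1014 * p ≤ v ∧ (-0.002012) + 0.0838 * p ≤ v ∧ (-0.001339) + 0.0687 * p ≤ v ∧ (-0.000778) + 0.0531 * p ≤ v ∧ (-0.000392) + 0.038 * p ≤ v ∧ (-0.000126) + 0.0231 * p ≤ v ∧ 0 + 0.0076 * p ≤ v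

lemma chord_aux {A B A' B' lo hi vl vh y p : ℝ} (h : y ≤ A' + B' * p) (h1 : lo ≤ p) (h2 : p ≤ hi)
    (e1 : A' + B' * lo ≤ vl) (e2 : A' + B' * hi ≤ vh) (H : vl ≤ A + B * lo ∧ vh ≤ A + B * hi) :
    y ≤ A + B * p := h.trans (lin_ends le_rfl h1 h2 (e1.trans H.1) (e2.trans H.2))

lemma Lines.chord {lo hi vl vh y p : ℝ} (h : Lines y p) (ul : Up lo vl) (uh : Up hi vh)
    (h1 : lo ≤ p) (h2 : p ≤ hi) (A B : ℝ) (H : vl ≤ A + B * lo ∧ vh ≤ A + B * hi) :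
    y ≤ A + B * p := by
  obtain ⟨a0, a1, a2, a3, a4, a5, a6, a7, a8, a9, a10, a11, a12, a13, a14, a15, a16, a17, a18⟩ := ul
  obtain ⟨b0, b1, b2, b3, b4, b5, b6, b7, b8, b9, b10, b11, b12, b13, b14, b15, b16, b17, b18⟩ := uh
  unfold Lines at h
  rcases h with h | h | h | h | h | h | h | h | h | h | h | h | h | h | h | h | h | h | h
  · linarith
  · exact chord_aux (h.trans (le_of_eq (by ring))) h1 h2 a1 b1 H
  · exact chord_aux (h.trans (le_of_eq (by ring))) h1 h2 a2 b2 H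
  · exact chord_aux (h.trans (le_of_eq (by ring))) h1 h2 a3 b3 H
  · exact chord_aux (h.trans (le_of_eq (by ring))) h1 h2 a4 b4 H
  · exact chord_aux (h.trans (le_of_eq (by ring))) h1 h2 a5 b5 H
  · exact chord_aux (h.trans (le_of_eq (by ring))) h1 h2 a6 b6 H
  · exact chord_aux (h.trans (le_of_eq (by ring))) h1 h2 a7 b7 H
  · exact chord_aux (h.trans (le_of_eq (by ring))) h1 h2 a8 b8 H
  · exact chord_aux (h.trans (le_of_eq (by ring))) h1 h2 a9 b9 H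
  · exact chord_aux (h.trans (le_of_eq (by ring))) h1 h2 a10 b10 H
  · exact chord_aux (h.trans (le_of_eq (by ring))) h1 h2 a11 b11 H
  · exact chord_aux (h.trans (le_of_eq (by ring))) h1 h2 a12 b12 H
  · exact chord_aux (h.trans (le_of_eq (by ring))) h1 h2 a13 b13 H
  · exact chord_aux (h.trans (le_of_eq (by ring))) h1 h2 a14 b14 H
  · exact chord_aux (h.trans (le_of_eq (by ring))) h1 h2 a15 b15 H
  · exact chord_aux (h.trans (le_of_eq (by ring))) h1 h2 a16 b16 H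
  · exact chord_aux (h.trans (le_of_eq (by ring))) h1 h2 a17 b17 H
  · exact chord_aux (h.trans (le_of_eq (by ring))) h1 h2 a18 b18 H

lemma up0 : Up 0 0 := by norm_num [Up]

lemma up7 : Up 0.05 0.002178 := by norm_num [Up]

lemma up10 : Up 0.08 0.005401 := by norm_num [Up]

lemma up14 : Up 0.14 0.015972 := by norm_num [Up]

lemma up15 : Up 0.16 0.02067 := by norm_num [Up]

lemma up16 : Up 0.18 0.025801 := by norm_num [Up]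

lemma up19 : Up 0.24 0.043982 := by norm_num [Up]

lemma up20 : Up 0.26 0.051095 := by norm_num [Up]

lemma up21 : Up 0.28 0.058463 := by norm_num [Up]

lemma up22 : Up 0.3 0.066299 := by norm_num [Up]

lemma up23 : Up 0.32 0.074486 := by norm_num [Up]

lemma up24 : Up 0.34 0.082936 := by norm_num [Up]

lemma up25 : Up 0.36 0.0919 := by norm_num [Up]

lemma up27 : Up 0.4 0.110136 := by norm_num [Up]

lemma up28 : Up 0.42 0.119905 := by norm_num [Up]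

lemma up29 : Up 0.44 0.129719 := by norm_num [Up]

lemma up30 : Up 0.46 0.139533 := by norm_num [Up]

lemma up32 : Up 0.495 0.1567075 := by norm_num [Up]

variable {a12 a13 a14 a23 a24 a34 R1 R2 R3 R4 l12 l13 l14 l23 l24 l34 p1 p2 p3 p4 y1 y2 y3 y4 : ℝ}

lemma l4_0 (ha12 : 0 < a12) (ha13 : 0 < a13) (ha14 : 0 < a14) (ha23 : 0 < a23) (ha24 : 0 < a24) (ha34 : 0 < a34)
  (e1 : R1 = a12 + a13 + a14) (e2 : R2 = a12 + a23 + a24) (e3 : R3 = a13 + a23 + a34) (e4 : R4 = a14 + a24 + a34)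
  (sR : R1 + R2 + R3 + R4 = 1)
  (q12 : l12 ^ 2 = R1 + R2 + 2 * a12) (q13 : l13 ^ 2 = R1 + R3 + 2 * a13) (q14 : l14 ^ 2 = R1 + R4 + 2 * a14)
  (q23 : l23 ^ 2 = R2 + R3 + 2 * a23) (q24 : l24 ^ 2 = R2 + R4 + 2 * a24) (q34 : l34 ^ 2 = R3 + R4 + 2 * a34)
  (o1 : p2 ≤ p1) (o2 : p3 ≤ p2) (o3 : p4 ≤ p3) (o4 : 0 ≤ p4) (sp : p1 + p2 + p3 + p4 ≤ 1)
  (L1 : Lines y1 p1) (L2 : Lines y2 p2) (L3 : Lines y3 p3) (L4 : Lines y4 p4)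
  (Y1 : 0.17904 * (3 / 2 - (l23 + l24 + l34) / 2) ≤ y1)
  (Y2 : 0.17904 * (3 / 2 - (l13 + l14 + l34) / 2) ≤ y2)
  (Y3 : 0.17904 * (3 / 2 - (l12 + l14 + l24) / 2) ≤ y3)
  (Y4 : 0.17904 * (3 / 2 - (l12 + l13 + l23) / 2) ≤ y4)
  (T : Test1 4 R1 R2 R3 R4 R4 (16 / 9 * R4))
  (s1 : p3 ≤ 0.08) : False := by
  have x0 : 0 ≤ p3 := by linarith only [e1, o3, o4]
  have f3 := L3.chord up0 up10 x0 s1 0.0000002 0.06751 (by norm_num)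
  have x2 : p4 ≤ 0.08 := by linarith only [o3, s1, sR]
  have f4 := L4.chord up0 up10 o4 x2 0.0000002 0.06751 (by norm_num)
  have c12_140 := tanl q12 1.4
  have c13_70 := tanl q13 0.7
  have c14_70 := tanl q14 0.7
  have c23_70 := tanl q23 0.7
  have c24_70 := tanl q24 0.7
  linarith only [Y3, Y4, c12_140, c13_70, c14_70, c23_70, c24_70, e1, e2, e3, e4, f3, f4, ha13, ha23, ha34, o3, s1, sR]

lemma l4_1 (ha12 : 0 < a12) (ha13 : 0 < a13) (ha14 : 0 < a14) (ha23 : 0 < a23) (ha24 : 0 < a24) (ha34 : 0 < a34)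
  (e1 : R1 = a12 + a13 + a14) (e2 : R2 = a12 + a23 + a24) (e3 : R3 = a13 + a23 + a34) (e4 : R4 = a14 + a24 + a34)
  (sR : R1 + R2 + R3 + R4 = 1)
  (q12 : l12 ^ 2 = R1 + R2 + 2 * a12) (q13 : l13 ^ 2 = R1 + R3 + 2 * a13) (q14 : l14 ^ 2 = R1 + R4 + 2 * a14)
  (q23 : l23 ^ 2 = R2 + R3 + 2 * a23) (q24 : l24 ^ 2 = R2 + R4 + 2 * a24) (q34 : l34 ^ 2 = R3 + R4 + 2 * a34)
  (o1 : p2 ≤ p1) (o2 : p3 ≤ p2) (o3 : p4 ≤ p3) (o4 : 0 ≤ p4) (sp : p1 + p2 + p3 + p4 ≤ 1)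
  (L1 : Lines y1 p1) (L2 : Lines y2 p2) (L3 : Lines y3 p3) (L4 : Lines y4 p4)
  (Y1 : 0.17904 * (3 / 2 - (l23 + l24 + l34) / 2) ≤ y1)
  (Y2 : 0.17904 * (3 / 2 - (l13 + l14 + l34) / 2) ≤ y2)
  (Y3 : 0.17904 * (3 / 2 - (l12 + l14 + l24) / 2) ≤ y3)
  (Y4 : 0.17904 * (3 / 2 - (l12 + l13 + l23) / 2) ≤ y4)
  (T : Test1 4 R1 R2 R3 R4 R4 (16 / 9 * R4))
  (s1 : 0.08 ≤ p3) (s2 : p1 ≤ 0.495) (s3 : p3 ≤ 0.16) : False := by
  have x0 : 0.08 ≤ p1 := by linarith only [e1, o1, o2, s1]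
  have f1 := L1.chord up10 up32 x0 s2 (-0.0237645) 0.36459 (by norm_num)
  have x2 : 0.08 ≤ p2 := by linarith only [e1, o2, s1]
  have x3 : p2 ≤ 0.46 := by linarith only [e1, o1, o4, s1, sp]
  have f2 := L2.chord up10 up30 x2 x3 (-0.0228374) 0.35298 (by norm_num)
  have f3 := L3.chord up10 up15 s1 s3 (-0.0098676) 0.19086 (by norm_num)
  have x6 : p4 ≤ 0.16 := by linarith only [o3, s3, sR]
  have f4 := L4.chord up0 up15 o4 x6 0 0.12919 (by norm_num)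
  have c12_125 := tanl q12 1.25
  have c13_75 := tanl q13 0.75
  have c13_80 := tanl q13 0.8
  have c14_75 := tanl q14 0.75
  have c14_80 := tanl q14 0.8
  have c23_75 := tanl q23 0.75
  have c24_75 := tanl q24 0.75
  have c34_40 := tanl q34 0.4
  linarith only [Y1, Y2, Y3, Y4, c12_125, c13_75, c13_80, c14_75, c14_80, c23_75, c24_75, c34_40, e1, e2, e3, e4, f1, f2, f3, f4, ha34, o3, s3, sR, sp]

lemma l4_2 (ha12 : 0 < a12) (ha13 : 0 < a13) (ha14 : 0 < a14) (ha23 : 0 < a23) (ha24 : 0 < a24) (ha34 : 0 < a34)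
  (e1 : R1 = a12 + a13 + a14) (e2 : R2 = a12 + a23 + a24) (e3 : R3 = a13 + a23 + a34) (e4 : R4 = a14 + a24 + a34)
  (sR : R1 + R2 + R3 + R4 = 1)
  (q12 : l12 ^ 2 = R1 + R2 + 2 * a12) (q13 : l13 ^ 2 = R1 + R3 + 2 * a13) (q14 : l14 ^ 2 = R1 + R4 + 2 * a14)
  (q23 : l23 ^ 2 = R2 + R3 + 2 * a23) (q24 : l24 ^ 2 = R2 + R4 + 2 * a24) (q34 : l34 ^ 2 = R3 + R4 + 2 * a34)
  (o1 : p2 ≤ p1) (o2 : p3 ≤ p2) (o3 : p4 ≤ p3) (o4 : 0 ≤ p4) (sp : p1 + p2 + p3 + p4 ≤ 1)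
  (L1 : Lines y1 p1) (L2 : Lines y2 p2) (L3 : Lines y3 p3) (L4 : Lines y4 p4)
  (Y1 : 0.17904 * (3 / 2 - (l23 + l24 + l34) / 2) ≤ y1)
  (Y2 : 0.17904 * (3 / 2 - (l13 + l14 + l34) / 2) ≤ y2)
  (Y3 : 0.17904 * (3 / 2 - (l12 + l14 + l24) / 2) ≤ y3)
  (Y4 : 0.17904 * (3 / 2 - (l12 + l13 + l23) / 2) ≤ y4)
  (T : Test1 4 R1 R2 R3 R4 R4 (16 / 9 * R4))
  (s3 : 0.16 ≤ p3) (s4 : p2 ≤ 0.24) (s5 : p1 ≤ 0.24) : False := by
  have x0 : 0.16 ≤ p1 := by linarith only [e1, o1, o2, s3]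
  have f1 := L1.chord up15 up19 x0 s5 (-0.025954) 0.2914 (by norm_num)
  have x2 : 0.16 ≤ p2 := by linarith only [e1, o2, s3]
  have f2 := L2.chord up15 up19 x2 s4 (-0.025954) 0.2914 (by norm_num)
  have x4 : p3 ≤ 0.24 := by linarith only [e1, o1, o2, s5]
  have f3 := L3.chord up15 up19 s3 x4 (-0.025954) 0.2914 (by norm_num)
  have x6 : p4 ≤ 0.24 := by linarith only [o1, o2, o3, s5, sR]
  have f4 := L4.chord up0 up19 o4 x6 0 0.18326 (by norm_num)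
  have c12_80 := tanl q12 0.8
  have c13_80 := tanl q13 0.8
  have c14_80 := tanl q14 0.8
  have c23_80 := tanl q23 0.8
  have c24_80 := tanl q24 0.8
  have c34_80 := tanl q34 0.8
  linarith only [Y1, Y2, Y3, Y4, c12_80, c13_80, c14_80, c23_80, c24_80, c34_80, e1, e2, e3, e4, f1, f2, f3, f4, o2, o3, s4, s5, sR]

lemma l4_3 (ha12 : 0 < a12) (ha13 : 0 < a13) (ha14 : 0 < a14) (ha23 : 0 < a23) (ha24 : 0 < a24) (ha34 : 0 < a34)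
  (e1 : R1 = a12 + a13 + a14) (e2 : R2 = a12 + a23 + a24) (e3 : R3 = a13 + a23 + a34) (e4 : R4 = a14 + a24 + a34)
  (sR : R1 + R2 + R3 + R4 = 1)
  (q12 : l12 ^ 2 = R1 + R2 + 2 * a12) (q13 : l13 ^ 2 = R1 + R3 + 2 * a13) (q14 : l14 ^ 2 = R1 + R4 + 2 * a14)
  (q23 : l23 ^ 2 = R2 + R3 + 2 * a23) (q24 : l24 ^ 2 = R2 + R4 + 2 * a24) (q34 : l34 ^ 2 = R3 + R4 + 2 * a34)
  (o1 : p2 ≤ p1) (o2 : p3 ≤ p2) (o3 : p4 ≤ p3) (o4 : 0 ≤ p4) (sp : p1 + p2 + p3 + p4 ≤ 1)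
  (L1 : Lines y1 p1) (L2 : Lines y2 p2) (L3 : Lines y3 p3) (L4 : Lines y4 p4)
  (Y1 : 0.17904 * (3 / 2 - (l23 + l24 + l34) / 2) ≤ y1)
  (Y2 : 0.17904 * (3 / 2 - (l13 + l14 + l34) / 2) ≤ y2)
  (Y3 : 0.17904 * (3 / 2 - (l12 + l14 + l24) / 2) ≤ y3)
  (Y4 : 0.17904 * (3 / 2 - (l12 + l13 + l23) / 2) ≤ y4)
  (T : Test1 4 R1 R2 R3 R4 R4 (16 / 9 * R4))
  (s2 : p1 ≤ 0.495) (s3 : 0.16 ≤ p3) (s4 : p2 ≤ 0.24) (s5 : 0.24 ≤ p1) : False := by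
  have f1 := L1.chord up19 up32 s5 s2 (-0.0621122) 0.44206 (by norm_num)
  have x1 : 0.16 ≤ p2 := by linarith only [e1, o2, s3]
  have f2 := L2.chord up15 up19 x1 s4 (-0.025954) 0.2914 (by norm_num)
  have x3 : p3 ≤ 0.24 := by linarith only [e1, o2, s4]
  have f3 := L3.chord up15 up19 s3 x3 (-0.025954) 0.2914 (by norm_num)
  have x5 : p4 ≤ 0.24 := by linarith only [o2, o3, s4, sR]
  have f4 := L4.chord up0 up19 o4 x5 0 0.18326 (by norm_num)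
  have c12_95 := tanl q12 0.95
  have c13_95 := tanl q13 0.95
  have c14_90 := tanl q14 0.9
  have c23_70 := tanl q23 0.7
  have c23_75 := tanl q23 0.75
  have c24_65 := tanl q24 0.65
  have c24_70 := tanl q24 0.7
  have c34_65 := tanl q34 0.65
  have c34_70 := tanl q34 0.7
  linarith only [Y1, Y2, Y3, Y4, c12_95, c13_95, c14_90, c23_70, c23_75, c24_65, c24_70, c34_65, c34_70, e1, e2, e3, e4, f1, f2, f3, f4, o2, s4, sR, sp]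

lemma l4_4 (ha12 : 0 < a12) (ha13 : 0 < a13) (ha14 : 0 < a14) (ha23 : 0 < a23) (ha24 : 0 < a24) (ha34 : 0 < a34)
  (e1 : R1 = a12 + a13 + a14) (e2 : R2 = a12 + a23 + a24) (e3 : R3 = a13 + a23 + a34) (e4 : R4 = a14 + a24 + a34)
  (sR : R1 + R2 + R3 + R4 = 1)
  (q12 : l12 ^ 2 = R1 + R2 + 2 * a12) (q13 : l13 ^ 2 = R1 + R3 + 2 * a13) (q14 : l14 ^ 2 = R1 + R4 + 2 * a14)
  (q23 : l23 ^ 2 = R2 + R3 + 2 * a23) (q24 : l24 ^ 2 = R2 + R4 + 2 * a24) (q34 : l34 ^ 2 = R3 + R4 + 2 * a34)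
  (o1 : p2 ≤ p1) (o2 : p3 ≤ p2) (o3 : p4 ≤ p3) (o4 : 0 ≤ p4) (sp : p1 + p2 + p3 + p4 ≤ 1)
  (L1 : Lines y1 p1) (L2 : Lines y2 p2) (L3 : Lines y3 p3) (L4 : Lines y4 p4)
  (Y1 : 0.17904 * (3 / 2 - (l23 + l24 + l34) / 2) ≤ y1)
  (Y2 : 0.17904 * (3 / 2 - (l13 + l14 + l34) / 2) ≤ y2)
  (Y3 : 0.17904 * (3 / 2 - (l12 + l14 + l24) / 2) ≤ y3)
  (Y4 : 0.17904 * (3 / 2 - (l12 + l13 + l23) / 2) ≤ y4)
  (T : Test1 4 R1 R2 R3 R4 R4 (16 / 9 * R4))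
  (s2 : p1 ≤ 0.495) (s3 : 0.16 ≤ p3) (s4 : 0.24 ≤ p2) (s6 : p4 ≤ 0.05) : False := by
  have f4 := L4.chord up0 up7 o4 s6 0 0.04356 (by norm_num)
  have c12_110 := tanl q12 1.1
  have c13_110 := tanl q13 1.1
  have c23_80 := tanl q23 0.8
  have x4 : R1 ≤ 0.45 := by linarith only [Y4, c12_110, c13_110, c23_80, e1, e2, e3, e4, f4, ha14, ha24, ha34, s6, sR]
  have x5 : p2 ≤ 0.42 := by linarith only [e1, o1, o4, s3, sp]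
  have f2 := L2.chord up19 up28 s4 x5 (-0.0572468) 0.42179 (by norm_num)
  have x7 : p3 ≤ 0.34 := by linarith only [e1, o1, o2, o4, sp]
  have f3 := L3.chord up15 up24 s3 x7 (-0.0346768) 0.34592 (by norm_num)
  have c12_115 := tanl q12 1.15
  have c13_90 := tanl q13 0.9
  have c14_60 := tanl q14 0.6
  have c23_95 := tanl q23 0.95
  have c24_65 := tanl q24 0.65
  have c34_50 := tanl q34 0.5
  have x15 : R2 ≤ 0.45 := by linarith only [Y2, Y3, Y4, c12_110, c12_115, c13_90, c14_60, c23_95, c24_65, c34_50, e1, e2, e3, e4, f2, f3, f4, ha14, ha24, ha34, o1, sR, sp]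
  have c12_95 := tanl q12 0.95
  have c13_100 := tanl q13 1
  have c14_55 := tanl q14 0.55
  have c23_100 := tanl q23 1
  have c24_55 := tanl q24 0.55
  have x21 : R3 ≤ 0.45 := by linarith only [Y3, Y4, c12_95, c13_100, c14_55, c23_100, c24_55, e1, e2, e3, e4, f3, f4, ha14, ha24, ha34, o1, o2, sR, sp]
  have c13_95 := tanl q13 0.95
  have c23_105 := tanl q23 1.05
  have c24_60 := tanl q24 0.6
  have c34_60 := tanl q34 0.6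
  have x26 : 0.205 ≤ R1 := by linarith only [Y2, Y3, Y4, c12_95, c13_95, c14_55, c23_105, c24_60, c34_60, e1, e2, e3, e4, f2, f3, f4, ha14, ha24, ha34, o1, o2, sR, sp]
  have x27 : 0.24 ≤ p1 := by linarith only [e1, o1, s4]
  have f1 := L1.chord up19 up32 x27 s2 (-0.0621122) 0.44206 (by norm_num)
  have c12_100 := tanl q12 1
  have c12_105 := tanl q12 1.05
  have c14_65 := tanl q14 0.65
  have c23_85 := tanl q23 0.85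
  have c24_50 := tanl q24 0.5
  have c34_55 := tanl q34 0.55
  have x35 : 0.205 ≤ R2 := by linarith only [Y1, Y3, Y4, c12_100, c12_105, c13_110, c14_65, c23_85, c24_50, c34_55, e1, e2, e3, e4, f1, f3, f4, ha14, ha24, ha34, o2, sR, sp]
  have c23_90 := tanl q23 0.9
  have x37 : 0.205 ≤ R3 := by linarith only [Y4, c12_115, c13_90, c23_90, e1, e2, e3, e4, f4, ha14, ha24, ha34, s6, sR]
  have x38 : R4 ≤ 0.013 := by linarith only [Y4, c12_100, c13_100, c23_100, e1, e2, e3, e4, f4, s6, sR]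
  have t := T.use4 0.45 0.205 0.013 0.5071 0.048 0.1111 0.019545 x4 x15 x21 x26 x35 x37 x38 (by norm_num [Dlo])
  linarith only [Y4, c12_100, c13_100, c23_100, e1, e2, e3, e4, f4, s6, sR, t]

lemma l4_5 (ha12 : 0 < a12) (ha13 : 0 < a13) (ha14 : 0 < a14) (ha23 : 0 < a23) (ha24 : 0 < a24) (ha34 : 0 < a34)
  (e1 : R1 = a12 + a13 + a14) (e2 : R2 = a12 + a23 + a24) (e3 : R3 = a13 + a23 + a34) (e4 : R4 = a14 + a24 + a34)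
  (sR : R1 + R2 + R3 + R4 = 1)
  (q12 : l12 ^ 2 = R1 + R2 + 2 * a12) (q13 : l13 ^ 2 = R1 + R3 + 2 * a13) (q14 : l14 ^ 2 = R1 + R4 + 2 * a14)
  (q23 : l23 ^ 2 = R2 + R3 + 2 * a23) (q24 : l24 ^ 2 = R2 + R4 + 2 * a24) (q34 : l34 ^ 2 = R3 + R4 + 2 * a34)
  (o1 : p2 ≤ p1) (o2 : p3 ≤ p2) (o3 : p4 ≤ p3) (o4 : 0 ≤ p4) (sp : p1 + p2 + p3 + p4 ≤ 1)
  (L1 : Lines y1 p1) (L2 : Lines y2 p2) (L3 : Lines y3 p3) (L4 : Lines y4 p4)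
  (Y1 : 0.17904 * (3 / 2 - (l23 + l24 + l34) / 2) ≤ y1)
  (Y2 : 0.17904 * (3 / 2 - (l13 + l14 + l34) / 2) ≤ y2)
  (Y3 : 0.17904 * (3 / 2 - (l12 + l14 + l24) / 2) ≤ y3)
  (Y4 : 0.17904 * (3 / 2 - (l12 + l13 + l23) / 2) ≤ y4)
  (T : Test1 4 R1 R2 R3 R4 R4 (16 / 9 * R4))
  (s3 : 0.16 ≤ p3) (s4 : 0.24 ≤ p2) (s6 : 0.05 ≤ p4) (s7 : p4 ≤ 0.14) (s8 : p2 ≤ 0.3) (s9 : p1 ≤ 0.34) : False := by
  have x0 : 0.24 ≤ p1 := by linarith only [e1, o1, s4]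
  have f1 := L1.chord up19 up24 x0 s9 (-0.0495076) 0.38954 (by norm_num)
  have f2 := L2.chord up19 up22 s4 s8 (-0.045286) 0.37195 (by norm_num)
  have x3 : p3 ≤ 0.3 := by linarith only [e1, o2, s8]
  have f3 := L3.chord up15 up22 s3 x3 (-0.031477) 0.32592 (by norm_num)
  have f4 := L4.chord up7 up14 s6 s7 (-0.0054855) 0.15327 (by norm_num)
  have c12_100 := tanl q12 1
  have c13_100 := tanl q13 1
  have c14_65 := tanl q14 0.65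
  have c23_90 := tanl q23 0.9
  have c23_95 := tanl q23 0.95
  have c24_55 := tanl q24 0.55
  have c24_60 := tanl q24 0.6
  have c34_55 := tanl q34 0.55
  have c34_60 := tanl q34 0.6
  linarith only [Y1, Y2, Y3, Y4, c12_100, c13_100, c14_65, c23_90, c23_95, c24_55, c24_60, c34_55, c34_60, e1, e2, e3, e4, f1, f2, f3, f4, o2, s8, sR, sp]

lemma l4_6 (ha12 : 0 < a12) (ha13 : 0 < a13) (ha14 : 0 < a14) (ha23 : 0 < a23) (ha24 : 0 < a24) (ha34 : 0 < a34)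
  (e1 : R1 = a12 + a13 + a14) (e2 : R2 = a12 + a23 + a24) (e3 : R3 = a13 + a23 + a34) (e4 : R4 = a14 + a24 + a34)
  (sR : R1 + R2 + R3 + R4 = 1)
  (q12 : l12 ^ 2 = R1 + R2 + 2 * a12) (q13 : l13 ^ 2 = R1 + R3 + 2 * a13) (q14 : l14 ^ 2 = R1 + R4 + 2 * a14)
  (q23 : l23 ^ 2 = R2 + R3 + 2 * a23) (q24 : l24 ^ 2 = R2 + R4 + 2 * a24) (q34 : l34 ^ 2 = R3 + R4 + 2 * a34)
  (o1 : p2 ≤ p1) (o2 : p3 ≤ p2) (o3 : p4 ≤ p3) (o4 : 0 ≤ p4) (sp : p1 + p2 + p3 + p4 ≤ 1)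
  (L1 : Lines y1 p1) (L2 : Lines y2 p2) (L3 : Lines y3 p3) (L4 : Lines y4 p4)
  (Y1 : 0.17904 * (3 / 2 - (l23 + l24 + l34) / 2) ≤ y1)
  (Y2 : 0.17904 * (3 / 2 - (l13 + l14 + l34) / 2) ≤ y2)
  (Y3 : 0.17904 * (3 / 2 - (l12 + l14 + l24) / 2) ≤ y3)
  (Y4 : 0.17904 * (3 / 2 - (l12 + l13 + l23) / 2) ≤ y4)
  (T : Test1 4 R1 R2 R3 R4 R4 (16 / 9 * R4))
  (s2 : p1 ≤ 0.495) (s3 : 0.16 ≤ p3) (s4 : 0.24 ≤ p2) (s6 : 0.05 ≤ p4) (s7 : p4 ≤ 0.14) (s8 : p2 ≤ 0.3) (s9 : 0.34 ≤ p1) : False := by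
  have f1 := L1.chord up24 up32 s9 s2 (-0.078887) 0.47595 (by norm_num)
  have f2 := L2.chord up19 up22 s4 s8 (-0.045286) 0.37195 (by norm_num)
  have x2 : p3 ≤ 0.3 := by linarith only [e1, o2, s8]
  have f3 := L3.chord up15 up22 s3 x2 (-0.031477) 0.32592 (by norm_num)
  have f4 := L4.chord up7 up14 s6 s7 (-0.0054855) 0.15327 (by norm_num)
  have c12_100 := tanl q12 1
  have c12_105 := tanl q12 1.05
  have c13_100 := tanl q13 1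
  have c13_105 := tanl q13 1.05
  have c14_65 := tanl q14 0.65
  have c23_90 := tanl q23 0.9
  have c24_55 := tanl q24 0.55
  have c34_55 := tanl q34 0.55
  linarith only [Y1, Y2, Y3, Y4, c12_100, c12_105, c13_100, c13_105, c14_65, c23_90, c24_55, c34_55, e1, e2, e3, e4, f1, f2, f3, f4, ha24, ha34, s8, sR, sp]

lemma l4_7 (ha12 : 0 < a12) (ha13 : 0 < a13) (ha14 : 0 < a14) (ha23 : 0 < a23) (ha24 : 0 < a24) (ha34 : 0 < a34)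
  (e1 : R1 = a12 + a13 + a14) (e2 : R2 = a12 + a23 + a24) (e3 : R3 = a13 + a23 + a34) (e4 : R4 = a14 + a24 + a34)
  (sR : R1 + R2 + R3 + R4 = 1)
  (q12 : l12 ^ 2 = R1 + R2 + 2 * a12) (q13 : l13 ^ 2 = R1 + R3 + 2 * a13) (q14 : l14 ^ 2 = R1 + R4 + 2 * a14)
  (q23 : l23 ^ 2 = R2 + R3 + 2 * a23) (q24 : l24 ^ 2 = R2 + R4 + 2 * a24) (q34 : l34 ^ 2 = R3 + R4 + 2 * a34)
  (o1 : p2 ≤ p1) (o2 : p3 ≤ p2) (o3 : p4 ≤ p3) (o4 : 0 ≤ p4) (sp : p1 + p2 + p3 + p4 ≤ 1)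
  (L1 : Lines y1 p1) (L2 : Lines y2 p2) (L3 : Lines y3 p3) (L4 : Lines y4 p4)
  (Y1 : 0.17904 * (3 / 2 - (l23 + l24 + l34) / 2) ≤ y1)
  (Y2 : 0.17904 * (3 / 2 - (l13 + l14 + l34) / 2) ≤ y2)
  (Y3 : 0.17904 * (3 / 2 - (l12 + l14 + l24) / 2) ≤ y3)
  (Y4 : 0.17904 * (3 / 2 - (l12 + l13 + l23) / 2) ≤ y4)
  (T : Test1 4 R1 R2 R3 R4 R4 (16 / 9 * R4))
  (s3 : 0.16 ≤ p3) (s6 : 0.05 ≤ p4) (s7 : p4 ≤ 0.14) (s8 : 0.3 ≤ p2) (s10 : p1 ≤ 0.34) : False := by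
  have x0 : 0.3 ≤ p1 := by linarith only [e1, o1, s8]
  have f1 := L1.chord up22 up24 x0 s10 (-0.0584768) 0.41592 (by norm_num)
  have x2 : p2 ≤ 0.34 := by linarith only [e1, o1, s10]
  have f2 := L2.chord up22 up24 s8 x2 (-0.0584768) 0.41592 (by norm_num)
  have x4 : p3 ≤ 0.32 := by linarith only [e1, o1, o2, s6, sp]
  have f3 := L3.chord up15 up23 s3 x4 (-0.033146) 0.33635 (by norm_num)
  have f4 := L4.chord up7 up14 s6 s7 (-0.0054855) 0.15327 (by norm_num)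
  have c12_100 := tanl q12 1
  have c12_105 := tanl q12 1.05
  have c13_95 := tanl q13 0.95
  have c14_60 := tanl q14 0.6
  have c23_95 := tanl q23 0.95
  have c24_60 := tanl q24 0.6
  have c34_55 := tanl q34 0.55
  linarith only [Y1, Y2, Y3, Y4, c12_100, c12_105, c13_95, c14_60, c23_95, c24_60, c34_55, e1, e2, e3, e4, f1, f2, f3, f4, ha34, s6, sR, sp]

lemma l4_8 (ha12 : 0 < a12) (ha13 : 0 < a13) (ha14 : 0 < a14) (ha23 : 0 < a23) (ha24 : 0 < a24) (ha34 : 0 < a34)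
  (e1 : R1 = a12 + a13 + a14) (e2 : R2 = a12 + a23 + a24) (e3 : R3 = a13 + a23 + a34) (e4 : R4 = a14 + a24 + a34)
  (sR : R1 + R2 + R3 + R4 = 1)
  (q12 : l12 ^ 2 = R1 + R2 + 2 * a12) (q13 : l13 ^ 2 = R1 + R3 + 2 * a13) (q14 : l14 ^ 2 = R1 + R4 + 2 * a14)
  (q23 : l23 ^ 2 = R2 + R3 + 2 * a23) (q24 : l24 ^ 2 = R2 + R4 + 2 * a24) (q34 : l34 ^ 2 = R3 + R4 + 2 * a34)
  (o1 : p2 ≤ p1) (o2 : p3 ≤ p2) (o3 : p4 ≤ p3) (o4 : 0 ≤ p4) (sp : p1 + p2 + p3 + p4 ≤ 1)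
  (L1 : Lines y1 p1) (L2 : Lines y2 p2) (L3 : Lines y3 p3) (L4 : Lines y4 p4)
  (Y1 : 0.17904 * (3 / 2 - (l23 + l24 + l34) / 2) ≤ y1)
  (Y2 : 0.17904 * (3 / 2 - (l13 + l14 + l34) / 2) ≤ y2)
  (Y3 : 0.17904 * (3 / 2 - (l12 + l14 + l24) / 2) ≤ y3)
  (Y4 : 0.17904 * (3 / 2 - (l12 + l13 + l23) / 2) ≤ y4)
  (T : Test1 4 R1 R2 R3 R4 R4 (16 / 9 * R4))
  (s2 : p1 ≤ 0.495) (s3 : 0.16 ≤ p3) (s6 : 0.05 ≤ p4) (s7 : p4 ≤ 0.14) (s8 : 0.3 ≤ p2) (s10 : 0.34 ≤ p1) : False := by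
  have f1 := L1.chord up24 up32 s10 s2 (-0.078887) 0.47595 (by norm_num)
  have x1 : p2 ≤ 0.4 := by linarith only [e1, o1, s3, s6, sp]
  have f2 := L2.chord up22 up27 s8 x1 (-0.065212) 0.43837 (by norm_num)
  have x3 : p3 ≤ 0.32 := by linarith only [e1, o2, s10, s6, sp]
  have f3 := L3.chord up15 up23 s3 x3 (-0.033146) 0.33635 (by norm_num)
  have f4 := L4.chord up7 up14 s6 s7 (-0.0054855) 0.15327 (by norm_num)
  have c12_105 := tanl q12 1.05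
  have c12_110 := tanl q12 1.1
  have c13_95 := tanl q13 0.95
  have c14_60 := tanl q14 0.6
  have c14_65 := tanl q14 0.65
  have c23_90 := tanl q23 0.9
  have c23_95 := tanl q23 0.95
  have c24_60 := tanl q24 0.6
  have c34_55 := tanl q34 0.55
  linarith only [Y1, Y2, Y3, Y4, c12_105, c12_110, c13_95, c14_60, c14_65, c23_90, c23_95, c24_60, c34_55, e1, e2, e3, e4, f1, f2, f3, f4, ha34, s6, sR, sp]

lemma l4_9 (ha12 : 0 < a12) (ha13 : 0 < a13) (ha14 : 0 < a14) (ha23 : 0 < a23) (ha24 : 0 < a24) (ha34 : 0 < a34)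
  (e1 : R1 = a12 + a13 + a14) (e2 : R2 = a12 + a23 + a24) (e3 : R3 = a13 + a23 + a34) (e4 : R4 = a14 + a24 + a34)
  (sR : R1 + R2 + R3 + R4 = 1)
  (q12 : l12 ^ 2 = R1 + R2 + 2 * a12) (q13 : l13 ^ 2 = R1 + R3 + 2 * a13) (q14 : l14 ^ 2 = R1 + R4 + 2 * a14)
  (q23 : l23 ^ 2 = R2 + R3 + 2 * a23) (q24 : l24 ^ 2 = R2 + R4 + 2 * a24) (q34 : l34 ^ 2 = R3 + R4 + 2 * a34)
  (o1 : p2 ≤ p1) (o2 : p3 ≤ p2) (o3 : p4 ≤ p3) (o4 : 0 ≤ p4) (sp : p1 + p2 + p3 + p4 ≤ 1)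
  (L1 : Lines y1 p1) (L2 : Lines y2 p2) (L3 : Lines y3 p3) (L4 : Lines y4 p4)
  (Y1 : 0.17904 * (3 / 2 - (l23 + l24 + l34) / 2) ≤ y1)
  (Y2 : 0.17904 * (3 / 2 - (l13 + l14 + l34) / 2) ≤ y2)
  (Y3 : 0.17904 * (3 / 2 - (l12 + l14 + l24) / 2) ≤ y3)
  (Y4 : 0.17904 * (3 / 2 - (l12 + l13 + l23) / 2) ≤ y4)
  (T : Test1 4 R1 R2 R3 R4 R4 (16 / 9 * R4))
  (s3 : 0.16 ≤ p3) (s4 : 0.24 ≤ p2) (s7 : 0.14 ≤ p4) (s11 : p1 ≤ 0.28) : False := by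
  have x0 : 0.24 ≤ p1 := by linarith only [e1, o1, s4]
  have f1 := L1.chord up19 up21 x0 s11 (-0.0429026) 0.36202 (by norm_num)
  have x2 : p2 ≤ 0.28 := by linarith only [e1, o1, s11]
  have f2 := L2.chord up19 up21 s4 x2 (-0.0429026) 0.36202 (by norm_num)
  have x4 : p3 ≤ 0.28 := by linarith only [e1, o1, o2, s11]
  have f3 := L3.chord up15 up21 s3 x4 (-0.0297202) 0.31494 (by norm_num)
  have x6 : p4 ≤ 0.26 := by linarith only [o1, o2, o3, sR, sp]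
  have f4 := L4.chord up14 up20 s7 x6 (-0.0250044) 0.29269 (by norm_num)
  have c12_85 := tanl q12 0.85
  have c12_90 := tanl q12 0.9
  have c13_80 := tanl q13 0.8
  have c13_85 := tanl q13 0.85
  have c14_80 := tanl q14 0.8
  have c23_80 := tanl q23 0.8
  have c23_85 := tanl q23 0.85
  have c24_80 := tanl q24 0.8
  have c34_75 := tanl q34 0.75
  linarith only [Y1, Y2, Y3, Y4, c12_85, c12_90, c13_80, c13_85, c14_80, c23_80, c23_85, c24_80, c34_75, e1, e2, e3, e4, f1, f2, f3, f4, o3, sR, sp]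

lemma l4_10 (ha12 : 0 < a12) (ha13 : 0 < a13) (ha14 : 0 < a14) (ha23 : 0 < a23) (ha24 : 0 < a24) (ha34 : 0 < a34)
  (e1 : R1 = a12 + a13 + a14) (e2 : R2 = a12 + a23 + a24) (e3 : R3 = a13 + a23 + a34) (e4 : R4 = a14 + a24 + a34)
  (sR : R1 + R2 + R3 + R4 = 1)
  (q12 : l12 ^ 2 = R1 + R2 + 2 * a12) (q13 : l13 ^ 2 = R1 + R3 + 2 * a13) (q14 : l14 ^ 2 = R1 + R4 + 2 * a14)
  (q23 : l23 ^ 2 = R2 + R3 + 2 * a23) (q24 : l24 ^ 2 = R2 + R4 + 2 * a24) (q34 : l34 ^ 2 = R3 + R4 + 2 * a34)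
  (o1 : p2 ≤ p1) (o2 : p3 ≤ p2) (o3 : p4 ≤ p3) (o4 : 0 ≤ p4) (sp : p1 + p2 + p3 + p4 ≤ 1)
  (L1 : Lines y1 p1) (L2 : Lines y2 p2) (L3 : Lines y3 p3) (L4 : Lines y4 p4)
  (Y1 : 0.17904 * (3 / 2 - (l23 + l24 + l34) / 2) ≤ y1)
  (Y2 : 0.17904 * (3 / 2 - (l13 + l14 + l34) / 2) ≤ y2)
  (Y3 : 0.17904 * (3 / 2 - (l12 + l14 + l24) / 2) ≤ y3)
  (Y4 : 0.17904 * (3 / 2 - (l12 + l13 + l23) / 2) ≤ y4)
  (T : Test1 4 R1 R2 R3 R4 R4 (16 / 9 * R4))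
  (s3 : 0.16 ≤ p3) (s4 : 0.24 ≤ p2) (s7 : 0.14 ≤ p4) (s11 : 0.28 ≤ p1) : False := by
  have x0 : p1 ≤ 0.46 := by linarith only [e1, s3, s4, s7, sp]
  have f1 := L1.chord up21 up30 s11 x0 (-0.0676462) 0.45039 (by norm_num)
  have x2 : p2 ≤ 0.36 := by linarith only [e1, o1, s3, s7, sp]
  have f2 := L2.chord up19 up25 s4 x2 (-0.0518548) 0.39932 (by norm_num)
  have x4 : p3 ≤ 0.3 := by linarith only [e1, o1, o2, s7, sp]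
  have f3 := L3.chord up15 up22 s3 x4 (-0.031477) 0.32592 (by norm_num)
  have x6 : p4 ≤ 0.24 := by linarith only [o2, o3, s11, sR, sp]
  have f4 := L4.chord up14 up19 s7 x6 (-0.023242) 0.2801 (by norm_num)
  have c12_95 := tanl q12 0.95
  have c13_85 := tanl q13 0.85
  have c13_90 := tanl q13 0.9
  have c14_75 := tanl q14 0.75
  have c14_80 := tanl q14 0.8
  have c23_80 := tanl q23 0.8
  have c23_85 := tanl q23 0.85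
  have c24_75 := tanl q24 0.75
  have c24_80 := tanl q24 0.8
  have c34_65 := tanl q34 0.65
  have c34_70 := tanl q34 0.7
  linarith only [Y1, Y2, Y3, Y4, c12_95, c13_85, c13_90, c14_75, c14_80, c23_80, c23_85, c24_75, c24_80, c34_65, c34_70, e1, e2, e3, e4, f1, f2, f3, f4, sR, sp]

lemma l4_11 (ha12 : 0 < a12) (ha13 : 0 < a13) (ha14 : 0 < a14) (ha23 : 0 < a23) (ha24 : 0 < a24) (ha34 : 0 < a34)
  (e1 : R1 = a12 + a13 + a14) (e2 : R2 = a12 + a23 + a24) (e3 : R3 = a13 + a23 + a34) (e4 : R4 = a14 + a24 + a34)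
  (sR : R1 + R2 + R3 + R4 = 1)
  (q12 : l12 ^ 2 = R1 + R2 + 2 * a12) (q13 : l13 ^ 2 = R1 + R3 + 2 * a13) (q14 : l14 ^ 2 = R1 + R4 + 2 * a14)
  (q23 : l23 ^ 2 = R2 + R3 + 2 * a23) (q24 : l24 ^ 2 = R2 + R4 + 2 * a24) (q34 : l34 ^ 2 = R3 + R4 + 2 * a34)
  (o1 : p2 ≤ p1) (o2 : p3 ≤ p2) (o3 : p4 ≤ p3) (o4 : 0 ≤ p4) (sp : p1 + p2 + p3 + p4 ≤ 1)
  (L1 : Lines y1 p1) (L2 : Lines y2 p2) (L3 : Lines y3 p3) (L4 : Lines y4 p4)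
  (Y1 : 0.17904 * (3 / 2 - (l23 + l24 + l34) / 2) ≤ y1)
  (Y2 : 0.17904 * (3 / 2 - (l13 + l14 + l34) / 2) ≤ y2)
  (Y3 : 0.17904 * (3 / 2 - (l12 + l14 + l24) / 2) ≤ y3)
  (Y4 : 0.17904 * (3 / 2 - (l12 + l13 + l23) / 2) ≤ y4)
  (T : Test1 4 R1 R2 R3 R4 R4 (16 / 9 * R4))
  (s1 : 0.08 ≤ p3) (s2 : 0.495 ≤ p1) : False := by
  have x0 : 0.08 ≤ p2 := by linarith only [e1, o2, s1]
  have x1 : p2 ≤ 0.44 := by linarith only [e1, o4, s1, s2, sp]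
  have f2 := L2.chord up10 up29 x0 x1 (-0.0222254) 0.34533 (by norm_num)
  have x3 : p3 ≤ 0.26 := by linarith only [e1, o2, o4, s2, sp]
  have f3 := L3.chord up10 up20 s1 x3 (-0.0149078) 0.25386 (by norm_num)
  have x5 : p4 ≤ 0.18 := by linarith only [o2, o3, s2, sR, sp]
  have f4 := L4.chord up0 up16 o4 x5 0 0.14334 (by norm_num)
  have c12_120 := tanl q12 1.2
  have c13_105 := tanl q13 1.05
  have c13_110 := tanl q13 1.1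
  have c14_70 := tanl q14 0.7
  have c23_70 := tanl q23 0.7
  have c24_55 := tanl q24 0.55
  have c34_45 := tanl q34 0.45
  linarith only [Y2, Y3, Y4, c12_120, c13_105, c13_110, c14_70, c23_70, c24_55, c34_45, e1, e2, e3, e4, f2, f3, f4, ha14, ha23, ha24, ha34, s2, sR, sp]

theorem k4 : K4Stmt := by
  intro a12 a13 a14 a23 a24 a34 R1 R2 R3 R4 l12 l13 l14 l23 l24 l34 p1 p2 p3 p4 y1 y2 y3 y4 ha12 ha13 ha14 ha23 ha24 ha34 e1 e2 e3 e4 sR q12 q13 q14 q23 q24 q34 o1 o2 o3 o4 sp L1 L2 L3 L4 Y1 Y2 Y3 Y4 T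
  rcases le_total p3 0.08 with s1 | s1
  · exact l4_0 ha12 ha13 ha14 ha23 ha24 ha34 e1 e2 e3 e4 sR q12 q13 q14 q23 q24 q34 o1 o2 o3 o4 sp L1 L2 L3 L4 Y1 Y2 Y3 Y4 T s1
  rcases le_total p1 0.495 with s2 | s2
  · rcases le_total p3 0.16 with s3 | s3
    · exact l4_1 ha12 ha13 ha14 ha23 ha24 ha34 e1 e2 e3 e4 sR q12 q13 q14 q23 q24 q34 o1 o2 o3 o4 sp L1 L2 L3 L4 Y1 Y2 Y3 Y4 T s1 s2 s3
    rcases le_total p2 0.24 with s4 | s4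
    · rcases le_total p1 0.24 with s5 | s5
      · exact l4_2 ha12 ha13 ha14 ha23 ha24 ha34 e1 e2 e3 e4 sR q12 q13 q14 q23 q24 q34 o1 o2 o3 o4 sp L1 L2 L3 L4 Y1 Y2 Y3 Y4 T s3 s4 s5
      exact l4_3 ha12 ha13 ha14 ha23 ha24 ha34 e1 e2 e3 e4 sR q12 q13 q14 q23 q24 q34 o1 o2 o3 o4 sp L1 L2 L3 L4 Y1 Y2 Y3 Y4 T s2 s3 s4 s5
    rcases le_total p4 0.05 with s6 | s6
    · exact l4_4 ha12 ha13 ha14 ha23 ha24 ha34 e1 e2 e3 e4 sR q12 q13 q14 q23 q24 q34 o1 o2 o3 o4 sp L1 L2 L3 L4 Y1 Y2 Y3 Y4 T s2 s3 s4 s6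
    rcases le_total p4 0.14 with s7 | s7
    · rcases le_total p2 0.3 with s8 | s8
      · rcases le_total p1 0.34 with s9 | s9
        · exact l4_5 ha12 ha13 ha14 ha23 ha24 ha34 e1 e2 e3 e4 sR q12 q13 q14 q23 q24 q34 o1 o2 o3 o4 sp L1 L2 L3 L4 Y1 Y2 Y3 Y4 T s3 s4 s6 s7 s8 s9
        exact l4_6 ha12 ha13 ha14 ha23 ha24 ha34 e1 e2 e3 e4 sR q12 q13 q14 q23 q24 q34 o1 o2 o3 o4 sp L1 L2 L3 L4 Y1 Y2 Y3 Y4 T s2 s3 s4 s6 s7 s8 s9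
      rcases le_total p1 0.34 with s10 | s10
      · exact l4_7 ha12 ha13 ha14 ha23 ha24 ha34 e1 e2 e3 e4 sR q12 q13 q14 q23 q24 q34 o1 o2 o3 o4 sp L1 L2 L3 L4 Y1 Y2 Y3 Y4 T s3 s6 s7 s8 s10
      exact l4_8 ha12 ha13 ha14 ha23 ha24 ha34 e1 e2 e3 e4 sR q12 q13 q14 q23 q24 q34 o1 o2 o3 o4 sp L1 L2 L3 L4 Y1 Y2 Y3 Y4 T s2 s3 s6 s7 s8 s10
    rcases le_total p1 0.28 with s11 | s11
    · exact l4_9 ha12 ha13 ha14 ha23 ha24 ha34 e1 e2 e3 e4 sR q12 q13 q14 q23 q24 q34 o1 o2 o3 o4 sp L1 L2 L3 L4 Y1 Y2 Y3 Y4 T s3 s4 s7 s11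
    exact l4_10 ha12 ha13 ha14 ha23 ha24 ha34 e1 e2 e3 e4 sR q12 q13 q14 q23 q24 q34 o1 o2 o3 o4 sp L1 L2 L3 L4 Y1 Y2 Y3 Y4 T s3 s4 s7 s11
  exact l4_11 ha12 ha13 ha14 ha23 ha24 ha34 e1 e2 e3 e4 sR q12 q13 q14 q23 q24 q34 o1 o2 o3 o4 sp L1 L2 L3 L4 Y1 Y2 Y3 Y4 T s1 s2

end Crest.Agent.Prp
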