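import Crest.Agent.Prp.TreeD5

set_option autoImplicit false
set_option linter.unusedVariables false
set_option linter.style.longLine false

namespace Crest.Agent.Prp

variable {R1 R2 R3 R4 R5 tT p1 p2 p3 p4 p5 pT z2 : ℝ}

lemma l5_0 (B : Big (5 / 4) R1 R2 R3 R4 R5 tT p1 p2 p3 p4 p5 pT)
  (e : tT = R5) (hz : z2 ≤ (16 * R5 + R4) / 9) (T1 : Test1 5 R1 R2 R3 R5 (R4 + tT) z2)
  (T2 : Test2 R1 R2 R3 (R4 + tT)) (T4 : Test4 0.0512 R2 R3 tT)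
  (s1 : R4 ≤ 0.008) (s2 : R1 ≤ 0.4) : False := by
  obtain ⟨h12, h23, h34, h45, h5T, sR, sp, g1, g2, g3, g4, g5, rest⟩ := B
  have b0 := g5.1
  have b1 := g1.2.1
  have x0 : 0.18 ≤ R3 := by linarith only [e, h12, h45, h5T, s1, s2, sR]
  have x1 : R4 + tT ≤ 0.016 := by linarith only [e, h45, s1, sR]
  have t1 := T2.use h12 h23 0.4 0.18 0.016 0.5601 0.888 0.034439 s2 x0 x1 (by norm_num [Dlo])
  linarith only [e, h45, s1, t1]

lemma l5_1 (B : Big (5 / 4) R1 R2 R3 R4 R5 tT p1 p2 p3 p4 p5 pT)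
  (e : tT = R5) (hz : z2 ≤ (16 * R5 + R4) / 9) (T1 : Test1 5 R1 R2 R3 R5 (R4 + tT) z2)
  (T2 : Test2 R1 R2 R3 (R4 + tT)) (T4 : Test4 0.0512 R2 R3 tT)
  (s1 : R4 ≤ 0.008) (s2 : 0.4 ≤ R1) : False := by
  obtain ⟨h12, h23, h34, h45, h5T, sR, sp, g1, g2, g3, g4, g5, rest⟩ := B
  have b0 := g5.1
  have b1 := g1.2.1
  have x0 : 0.095 ≤ R3 := by linarith only [b1, e, h12, h45, h5T, s1, sR]
  have x1 : R4 + tT ≤ 0.016 := by linarith only [e, h45, s1, sR]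
  have x2 : R5 ≤ 0.008 := by linarith only [h45, s1, sR]
  have t1 := T1.use5 hz h12 h23 (4 / 9) 0.095 0.016 0.008 0.3293 0.07 0.1111 0.129968 b1 x0 x1 x2 (by norm_num [Dlo])
  have r := rest 0.008 5.042 (fun R p h hx => g5_9 h hx) x2
  have f15 := d5_0 g1 s2 g1.2.1
  have x3 : 0.25 ≤ R2 := by linarith only [b1, e, h23, h45, h5T, s1, sR]
  have f16 := d5_1 g2 x3 g2.2.1
  have x4 : 0.09 ≤ R3 := by linarith only [b1, e, h12, h45, h5T, s1, sR]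
  have x5 : R3 ≤ 0.31 := by linarith only [b0, h23, h45, h5T, s2, sR]
  have f17 := d5_2 g3 x4 x5
  have f18 := d5_3 g4 g4.1.le s1
  have f19 := d5_3 g5 g5.1.le x2
  linarith only [f15, f16, f17, f18, f19, h45, h5T, r, s2, sR, sp, t1]

lemma l5_2 (B : Big (5 / 4) R1 R2 R3 R4 R5 tT p1 p2 p3 p4 p5 pT)
  (e : tT = R5) (hz : z2 ≤ (16 * R5 + R4) / 9) (T1 : Test1 5 R1 R2 R3 R5 (R4 + tT) z2)
  (T2 : Test2 R1 R2 R3 (R4 + tT)) (T4 : Test4 0.0512 R2 R3 tT)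
  (s3 : R5 ≤ 0.0005) : False := by
  obtain ⟨h12, h23, h34, h45, h5T, sR, sp, g1, g2, g3, g4, g5, rest⟩ := B
  have b0 := g5.1
  have b1 := g1.2.1
  have x0 : 0.185 ≤ R2 := by linarith only [b1, e, h23, h34, h5T, s3, sR]
  have x1 : 0.055 ≤ R3 := by linarith only [b1, e, h12, h34, h5T, s3, sR]
  have x2 : tT ≤ 0.0005 := by linarith only [e, s3, sR]
  have t0 := T4.use 0.185 0.055 0.0005 0.0371 0.923 0.000998 x0 x1 x2 (by norm_num)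
  linarith only [e, s3, t0]

lemma l5_3 (B : Big (5 / 4) R1 R2 R3 R4 R5 tT p1 p2 p3 p4 p5 pT)
  (e : tT = R5) (hz : z2 ≤ (16 * R5 + R4) / 9) (T1 : Test1 5 R1 R2 R3 R5 (R4 + tT) z2)
  (T2 : Test2 R1 R2 R3 (R4 + tT)) (T4 : Test4 0.0512 R2 R3 tT)
  (s1 : 0.008 ≤ R4) (s3 : 0.0005 ≤ R5) (s4 : R3 ≤ 0.16) : False := by
  obtain ⟨h12, h23, h34, h45, h5T, sR, sp, g1, g2, g3, g4, g5, rest⟩ := B
  have b0 := g5.1
  have b1 := g1.2.1
  have x0 : R5 ≤ 0.16 := by linarith only [e, h34, h45, h5T, s4]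
  have r := rest 0.16 1.222 (fun R p h hx => g5_27 h hx) x0
  have x1 : 0.25 ≤ R1 := by linarith only [e, h12, h34, h45, h5T, s4, sR]
  have f15 := d5_4 g1 x1 g1.2.1
  have x2 : 0.12 ≤ R2 := by linarith only [b1, e, h23, h34, h45, h5T, sR]
  have f16 := d5_5 g2 x2 g2.2.1
  have x3 : 0.035 ≤ R3 := by linarith only [b1, e, h12, h34, h45, h5T, sR]
  have f17 := d5_6 g3 x3 s4
  have x4 : R4 ≤ 0.16 := by linarith only [e, h34, h5T, s4]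
  have f18 := d5_7 g4 s1 x4
  have f19 := d5_8 g5 s3 x0
  linarith only [f15, f16, f17, f18, f19, h5T, r, s3, s4, sR, sp]

lemma l5_4 (B : Big (5 / 4) R1 R2 R3 R4 R5 tT p1 p2 p3 p4 p5 pT)
  (e : tT = R5) (hz : z2 ≤ (16 * R5 + R4) / 9) (T1 : Test1 5 R1 R2 R3 R5 (R4 + tT) z2)
  (T2 : Test2 R1 R2 R3 (R4 + tT)) (T4 : Test4 0.0512 R2 R3 tT)
  (s4 : 0.16 ≤ R3) (s5 : R5 ≤ 0.001) : False := by
  obtain ⟨h12, h23, h34, h45, h5T, sR, sp, g1, g2, g3, g4, g5, rest⟩ := B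
  have b0 := g5.1
  have b1 := g1.2.1
  have x0 : 0.18 ≤ R2 := by linarith only [b1, e, h23, h34, h5T, s5, sR]
  have x1 : tT ≤ 0.001 := by linarith only [e, s5, sR]
  have t0 := T4.use 0.18 0.16 0.001 0.0882 0.935 0.002435 x0 s4 x1 (by norm_num)
  linarith only [e, s5, t0]

lemma l5_5 (B : Big (5 / 4) R1 R2 R3 R4 R5 tT p1 p2 p3 p4 p5 pT)
  (e : tT = R5) (hz : z2 ≤ (16 * R5 + R4) / 9) (T1 : Test1 5 R1 R2 R3 R5 (R4 + tT) z2)
  (T2 : Test2 R1 R2 R3 (R4 + tT)) (T4 : Test4 0.0512 R2 R3 tT)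
  (s4 : 0.16 ≤ R3) (s6 : R5 ≤ 0.0015) : False := by
  obtain ⟨h12, h23, h34, h45, h5T, sR, sp, g1, g2, g3, g4, g5, rest⟩ := B
  have b0 := g5.1
  have b1 := g1.2.1
  have x0 : 0.18 ≤ R2 := by linarith only [b1, e, h23, h34, h5T, s6, sR]
  have x1 : tT ≤ 0.0015 := by linarith only [e, s6, sR]
  have t0 := T4.use 0.18 0.16 0.0015 0.0875 0.902 0.002248 x0 s4 x1 (by norm_num)
  linarith only [e, s6, t0]

lemma l5_6 (B : Big (5 / 4) R1 R2 R3 R4 R5 tT p1 p2 p3 p4 p5 pT)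
  (e : tT = R5) (hz : z2 ≤ (16 * R5 + R4) / 9) (T1 : Test1 5 R1 R2 R3 R5 (R4 + tT) z2)
  (T2 : Test2 R1 R2 R3 (R4 + tT)) (T4 : Test4 0.0512 R2 R3 tT)
  (s4 : 0.16 ≤ R3) (s7 : R5 ≤ 0.002) : False := by
  obtain ⟨h12, h23, h34, h45, h5T, sR, sp, g1, g2, g3, g4, g5, rest⟩ := B
  have b0 := g5.1
  have b1 := g1.2.1
  have x0 : 0.18 ≤ R2 := by linarith only [b1, e, h23, h34, h5T, s7, sR]
  have x1 : tT ≤ 0.002 := by linarith only [e, s7, sR]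
  have t0 := T4.use 0.18 0.16 0.002 0.0868 0.868 0.002065 x0 s4 x1 (by norm_num)
  linarith only [e, s7, t0]

lemma l5_7 (B : Big (5 / 4) R1 R2 R3 R4 R5 tT p1 p2 p3 p4 p5 pT)
  (e : tT = R5) (hz : z2 ≤ (16 * R5 + R4) / 9) (T1 : Test1 5 R1 R2 R3 R5 (R4 + tT) z2)
  (T2 : Test2 R1 R2 R3 (R4 + tT)) (T4 : Test4 0.0512 R2 R3 tT)
  (s8 : R4 ≤ 0.01) (s9 : R1 ≤ 0.38) : False := by
  obtain ⟨h12, h23, h34, h45, h5T, sR, sp, g1, g2, g3, g4, g5, rest⟩ := B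
  have b0 := g5.1
  have b1 := g1.2.1
  have x0 : 0.22 ≤ R3 := by linarith only [e, h12, h45, h5T, s8, s9, sR]
  have x1 : R4 + tT ≤ 0.02 := by linarith only [e, h45, h5T, s8]
  have t1 := T2.use h12 h23 0.38 0.22 0.02 0.6204 0.884 0.037804 s9 x0 x1 (by norm_num [Dlo])
  linarith only [e, h45, s8, t1]

lemma l5_8 (B : Big (5 / 4) R1 R2 R3 R4 R5 tT p1 p2 p3 p4 p5 pT)
  (e : tT = R5) (hz : z2 ≤ (16 * R5 + R4) / 9) (T1 : Test1 5 R1 R2 R3 R5 (R4 + tT) z2)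
  (T2 : Test2 R1 R2 R3 (R4 + tT)) (T4 : Test4 0.0512 R2 R3 tT)
  (s1 : 0.008 ≤ R4) (s4 : 0.16 ≤ R3) (s7 : 0.002 ≤ R5) (s8 : R4 ≤ 0.01) (s9 : 0.38 ≤ R1) : False := by
  obtain ⟨h12, h23, h34, h45, h5T, sR, sp, g1, g2, g3, g4, g5, rest⟩ := B
  have b0 := g5.1
  have b1 := g1.2.1
  have x0 : R4 + tT ≤ 0.02 := by linarith only [e, h45, h5T, s8]
  have x1 : R5 ≤ 0.01 := by linarith only [h45, s8, sR]
  have t0 := T1.use5 hz h12 h23 (4 / 9) 0.16 0.02 0.01 0.4208 0.061 0.1111 0.166082 b1 s4 x0 x1 (by norm_num [Dlo])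
  have r := rest 0.01 4.537 (fun R p h hx => g5_10 h hx) x1
  have f31 := d5_9 g1 s9 g1.2.1
  have x2 : 0.25 ≤ R2 := by linarith only [b1, e, h23, h45, h5T, s8, sR]
  have x3 : R2 ≤ 0.42 := by linarith only [e, h12, h5T, s1, s4, s7, sR]
  have f32 := d5_10 g2 x2 x3
  have x4 : R3 ≤ 0.31 := by linarith only [e, h23, h5T, s1, s7, s9, sR]
  have f33 := d5_11 g3 s4 x4
  have f34 := d5_12 g4 s1 s8
  have f35 := d5_13 g5 s7 x1
  linarith only [f31, f32, f33, f34, f35, h45, h5T, r, s9, sR, sp, t0]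

lemma l5_9 (B : Big (5 / 4) R1 R2 R3 R4 R5 tT p1 p2 p3 p4 p5 pT)
  (e : tT = R5) (hz : z2 ≤ (16 * R5 + R4) / 9) (T1 : Test1 5 R1 R2 R3 R5 (R4 + tT) z2)
  (T2 : Test2 R1 R2 R3 (R4 + tT)) (T4 : Test4 0.0512 R2 R3 tT)
  (s10 : R4 ≤ 0.013) (s11 : R1 ≤ 0.39) : False := by
  obtain ⟨h12, h23, h34, h45, h5T, sR, sp, g1, g2, g3, g4, g5, rest⟩ := B
  have b0 := g5.1
  have b1 := g1.2.1
  have x0 : 0.19 ≤ R3 := by linarith only [e, h12, h45, h5T, s10, s11, sR]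
  have x1 : R4 + tT ≤ 0.026 := by linarith only [e, h45, h5T, s10]
  have t0 := T2.use h12 h23 0.39 0.19 0.026 0.5585 0.822 0.029426 s11 x0 x1 (by norm_num [Dlo])
  linarith only [e, h45, s10, t0]

lemma l5_10 (B : Big (5 / 4) R1 R2 R3 R4 R5 tT p1 p2 p3 p4 p5 pT)
  (e : tT = R5) (hz : z2 ≤ (16 * R5 + R4) / 9) (T1 : Test1 5 R1 R2 R3 R5 (R4 + tT) z2)
  (T2 : Test2 R1 R2 R3 (R4 + tT)) (T4 : Test4 0.0512 R2 R3 tT)
  (s1 : 0.008 ≤ R4) (s4 : 0.16 ≤ R3) (s7 : 0.002 ≤ R5) (s8 : 0.01 ≤ R4) (s10 : R4 ≤ 0.013) (s11 : 0.39 ≤ R1) : False := by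
  obtain ⟨h12, h23, h34, h45, h5T, sR, sp, g1, g2, g3, g4, g5, rest⟩ := B
  have b0 := g5.1
  have b1 := g1.2.1
  have x0 : R4 + tT ≤ 0.026 := by linarith only [e, h45, h5T, s10]
  have x1 : R5 ≤ 0.013 := by linarith only [h45, s10, sR]
  have t0 := T1.use5 hz h12 h23 (4 / 9) 0.16 0.026 0.013 0.4002 0.083 0.1111 0.157951 b1 s4 x0 x1 (by norm_num [Dlo])
  have r := rest 0.013 3.983 (fun R p h hx => g5_11 h hx) x1
  have x2 : 0.38 ≤ R1 := by linarith only [e, h5T, s11]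
  have f24 := d5_9 g1 x2 g1.2.1
  have x3 : 0.25 ≤ R2 := by linarith only [b1, e, h23, h45, h5T, s10, sR]
  have x4 : R2 ≤ 0.42 := by linarith only [e, h12, h5T, s4, s7, s8, sR]
  have f28 := d5_10 g2 x3 x4
  have x5 : R3 ≤ 0.31 := by linarith only [h23, h5T, s11, s7, s8, sR]
  have f31 := d5_11 g3 s4 x5
  have x6 : R4 ≤ 0.16 := by linarith only [e, h5T, s10]
  have f32 := d5_7 g4 s1 x6
  have f35 := d5_14 g5 s7 x1
  linarith only [e, f24, f28, f31, f32, f35, h5T, r, s11, s8, sR, sp, t0]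

lemma l5_11 (B : Big (5 / 4) R1 R2 R3 R4 R5 tT p1 p2 p3 p4 p5 pT)
  (e : tT = R5) (hz : z2 ≤ (16 * R5 + R4) / 9) (T1 : Test1 5 R1 R2 R3 R5 (R4 + tT) z2)
  (T2 : Test2 R1 R2 R3 (R4 + tT)) (T4 : Test4 0.0512 R2 R3 tT)
  (s7 : 0.002 ≤ R5) (s10 : 0.013 ≤ R4) (s12 : R4 ≤ 0.016) (s14 : R1 ≤ 0.37) : False := by
  obtain ⟨h12, h23, h34, h45, h5T, sR, sp, g1, g2, g3, g4, g5, rest⟩ := B
  have b0 := g5.1
  have b1 := g1.2.1
  have x0 : 0.225 ≤ R3 := by linarith only [e, h12, h45, h5T, s12, s14, sR]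
  have x1 : R4 + tT ≤ 0.032 := by linarith only [e, h45, h5T, s12]
  have t0 := T2.use h12 h23 0.37 0.225 0.032 0.6051 0.813 0.031187 s14 x0 x1 (by norm_num [Dlo])
  have x2 : R5 ≤ 0.016 := by linarith only [h45, s12, sR]
  have r := rest 0.016 3.6 (fun R p h hx => g5_12 h hx) x2
  have x3 : 0.25 ≤ R1 := by linarith only [e, h12, h23, h45, h5T, s12, sR]
  have x4 : R1 ≤ 0.42 := by linarith only [e, h5T, s14]
  have f27 := d5_10 g1 x3 x4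
  have x5 : 0.25 ≤ R2 := by linarith only [e, h23, h45, h5T, s12, s14, sR]
  have x6 : R2 ≤ 0.42 := by linarith only [e, h12, h5T, s14]
  have f31 := d5_10 g2 x5 x6
  have x7 : 0.22 ≤ R3 := by linarith only [e, h12, h45, h5T, s12, s14, sR]
  have x8 : R3 ≤ 0.33 := by linarith only [h12, h23, h5T, s10, s7, sR]
  have f36 := d5_15 g3 x7 x8
  have f37 := d5_16 g4 s10 s12
  have f38 := d5_17 g5 s7 x2
  linarith only [f27, f31, f36, f37, f38, h12, h23, h5T, r, s12, sR, sp, t0]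

lemma l5_12 (B : Big (5 / 4) R1 R2 R3 R4 R5 tT p1 p2 p3 p4 p5 pT)
  (e : tT = R5) (hz : z2 ≤ (16 * R5 + R4) / 9) (T1 : Test1 5 R1 R2 R3 R5 (R4 + tT) z2)
  (T2 : Test2 R1 R2 R3 (R4 + tT)) (T4 : Test4 0.0512 R2 R3 tT)
  (s4 : 0.16 ≤ R3) (s7 : 0.002 ≤ R5) (s10 : 0.013 ≤ R4) (s12 : R4 ≤ 0.016) (s13 : R1 ≤ 0.38) (s14 : 0.37 ≤ R1) : False := by
  obtain ⟨h12, h23, h34, h45, h5T, sR, sp, g1, g2, g3, g4, g5, rest⟩ := B
  have b0 := g5.1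
  have b1 := g1.2.1
  have x0 : 0.205 ≤ R3 := by linarith only [e, h12, h45, h5T, s12, s13, sR]
  have x1 : R4 + tT ≤ 0.032 := by linarith only [e, h45, h5T, s12]
  have t0 := T2.use h12 h23 0.38 0.205 0.032 0.5726 0.793 0.028078 s13 x0 x1 (by norm_num [Dlo])
  have x2 : R5 ≤ 0.016 := by linarith only [h45, s12, sR]
  have t1 := T1.use5 hz h12 h23 0.38 0.205 0.032 0.016 0.5726 0.065 0.1111 0.225994 s13 x0 x1 x2 (by norm_num [Dlo])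
  have r := rest 0.016 3.6 (fun R p h hx => g5_12 h hx) x2
  have x3 : 0.25 ≤ R1 := by linarith only [e, h5T, s14]
  have f25 := d5_4 g1 x3 g1.2.1
  have x4 : 0.25 ≤ R2 := by linarith only [e, h23, h45, h5T, s12, s13, sR]
  have x5 : R2 ≤ 0.42 := by linarith only [e, h12, h5T, s13]
  have f31 := d5_10 g2 x4 x5
  have x6 : R3 ≤ 0.31 := by linarith only [h23, h5T, s10, s14, s7, sR]
  have f34 := d5_11 g3 s4 x6
  have f37 := d5_16 g4 s10 s12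
  have f40 := d5_17 g5 s7 x2
  linarith only [f25, f31, f34, f37, f40, h5T, r, s14, sR, sp, t0, t1]

lemma l5_13 (B : Big (5 / 4) R1 R2 R3 R4 R5 tT p1 p2 p3 p4 p5 pT)
  (e : tT = R5) (hz : z2 ≤ (16 * R5 + R4) / 9) (T1 : Test1 5 R1 R2 R3 R5 (R4 + tT) z2)
  (T2 : Test2 R1 R2 R3 (R4 + tT)) (T4 : Test4 0.0512 R2 R3 tT)
  (s4 : 0.16 ≤ R3) (s7 : 0.002 ≤ R5) (s10 : 0.013 ≤ R4) (s12 : R4 ≤ 0.016) (s13 : 0.38 ≤ R1) (s15 : R1 ≤ 0.39) : False := by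
  obtain ⟨h12, h23, h34, h45, h5T, sR, sp, g1, g2, g3, g4, g5, rest⟩ := B
  have b0 := g5.1
  have b1 := g1.2.1
  have x0 : 0.185 ≤ R3 := by linarith only [e, h12, h45, h5T, s12, s15, sR]
  have x1 : R4 + tT ≤ 0.032 := by linarith only [e, h45, h5T, s12]
  have x2 : R5 ≤ 0.016 := by linarith only [h45, s12, sR]
  have t1 := T1.use5 hz h12 h23 0.39 0.185 0.032 0.016 0.5347 0.073 0.1111 0.211036 s15 x0 x1 x2 (by norm_num [Dlo])
  have r := rest 0.016 3.6 (fun R p h hx => g5_12 h hx) x2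
  have f27 := d5_9 g1 s13 g1.2.1
  have x3 : 0.25 ≤ R2 := by linarith only [e, h23, h45, h5T, s12, s15, sR]
  have x4 : R2 ≤ 0.42 := by linarith only [e, h12, h5T, s15]
  have f32 := d5_10 g2 x3 x4
  have x5 : R3 ≤ 0.31 := by linarith only [h23, h5T, s10, s13, s7, sR]
  have f35 := d5_11 g3 s4 x5
  have f38 := d5_16 g4 s10 s12
  have f41 := d5_17 g5 s7 x2
  linarith only [f27, f32, f35, f38, f41, h5T, r, s10, s13, sR, sp, t1]

lemma l5_14 (B : Big (5 / 4) R1 R2 R3 R4 R5 tT p1 p2 p3 p4 p5 pT)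
  (e : tT = R5) (hz : z2 ≤ (16 * R5 + R4) / 9) (T1 : Test1 5 R1 R2 R3 R5 (R4 + tT) z2)
  (T2 : Test2 R1 R2 R3 (R4 + tT)) (T4 : Test4 0.0512 R2 R3 tT)
  (s4 : 0.16 ≤ R3) (s7 : 0.002 ≤ R5) (s10 : 0.013 ≤ R4) (s12 : R4 ≤ 0.016) (s13 : 0.38 ≤ R1) (s15 : 0.39 ≤ R1) : False := by
  obtain ⟨h12, h23, h34, h45, h5T, sR, sp, g1, g2, g3, g4, g5, rest⟩ := B
  have b0 := g5.1
  have b1 := g1.2.1
  have x0 : R4 + tT ≤ 0.032 := by linarith only [e, h45, h5T, s12]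
  have x1 : R5 ≤ 0.016 := by linarith only [h45, s12, sR]
  have t0 := T1.use5 hz h12 h23 (4 / 9) 0.16 0.032 0.016 0.3795 0.107 0.1111 0.149781 b1 s4 x0 x1 (by norm_num [Dlo])
  have r := rest 0.016 3.6 (fun R p h hx => g5_12 h hx) x1
  have f26 := d5_9 g1 s13 g1.2.1
  have x2 : 0.25 ≤ R2 := by linarith only [b1, e, h23, h45, h5T, s12, sR]
  have x3 : R2 ≤ 0.42 := by linarith only [e, h12, h5T, s10, s4, s7, sR]
  have f30 := d5_10 g2 x2 x3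
  have x4 : R3 ≤ 0.31 := by linarith only [h23, h5T, s10, s15, s7, sR]
  have f33 := d5_11 g3 s4 x4
  have f36 := d5_16 g4 s10 s12
  have f39 := d5_17 g5 s7 x1
  linarith only [f26, f30, f33, f36, f39, h5T, r, s10, s15, sR, sp, t0]

lemma l5_15 (B : Big (5 / 4) R1 R2 R3 R4 R5 tT p1 p2 p3 p4 p5 pT)
  (e : tT = R5) (hz : z2 ≤ (16 * R5 + R4) / 9) (T1 : Test1 5 R1 R2 R3 R5 (R4 + tT) z2)
  (T2 : Test2 R1 R2 R3 (R4 + tT)) (T4 : Test4 0.0512 R2 R3 tT)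
  (s7 : 0.002 ≤ R5) (s12 : 0.016 ≤ R4) (s16 : R4 ≤ 0.02) (s17 : R1 ≤ 0.38) (s18 : R5 ≤ 0.013) : False := by
  obtain ⟨h12, h23, h34, h45, h5T, sR, sp, g1, g2, g3, g4, g5, rest⟩ := B
  have b0 := g5.1
  have b1 := g1.2.1
  have x0 : 0.205 ≤ R3 := by linarith only [e, h12, h5T, s16, s17, s18, sR]
  have x1 : R4 + tT ≤ 0.033 := by linarith only [e, s16, s18, sR]
  have t1 := T1.use5 hz h12 h23 0.38 0.205 0.033 0.013 0.5696 0.059 0.1111 0.22481 s17 x0 x1 s18 (by norm_num [Dlo])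
  have r := rest 0.013 3.983 (fun R p h hx => g5_11 h hx) s18
  have x2 : 0.25 ≤ R1 := by linarith only [e, h12, h23, h5T, s16, s18, sR]
  have x3 : R1 ≤ 0.42 := by linarith only [e, h5T, s17]
  have f28 := d5_10 g1 x2 x3
  have x4 : 0.25 ≤ R2 := by linarith only [e, h23, h5T, s16, s17, s18, sR]
  have x5 : R2 ≤ 0.42 := by linarith only [e, h12, h5T, s17]
  have f32 := d5_10 g2 x4 x5
  have f37 := d5_14 g5 s7 s18
  have x6 : 0.195 ≤ R3 := by linarith only [e, h12, h5T, s16, s17, s18, sR]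
  have x7 : R3 ≤ 0.33 := by linarith only [h12, h23, h5T, s12, s7, sR]
  have f39 := d5_18 g3 x6 x7
  have f40 := d5_19 g4 s12 s16
  linarith only [f28, f32, f37, f39, f40, h12, h23, h5T, r, s18, sR, sp, t1]

lemma l5_16 (B : Big (5 / 4) R1 R2 R3 R4 R5 tT p1 p2 p3 p4 p5 pT)
  (e : tT = R5) (hz : z2 ≤ (16 * R5 + R4) / 9) (T1 : Test1 5 R1 R2 R3 R5 (R4 + tT) z2)
  (T2 : Test2 R1 R2 R3 (R4 + tT)) (T4 : Test4 0.0512 R2 R3 tT)
  (s12 : 0.016 ≤ R4) (s16 : R4 ≤ 0.02) (s17 : R1 ≤ 0.38) (s18 : 0.013 ≤ R5) : False := by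
  obtain ⟨h12, h23, h34, h45, h5T, sR, sp, g1, g2, g3, g4, g5, rest⟩ := B
  have b0 := g5.1
  have b1 := g1.2.1
  have x0 : R5 ≤ 0.02 := by linarith only [h45, s16, sR]
  have r := rest 0.02 3.233 (fun R p h hx => g5_13 h hx) x0
  have x1 : 0.25 ≤ R1 := by linarith only [e, h12, h23, h45, h5T, s16, sR]
  have x2 : R1 ≤ 0.42 := by linarith only [e, h5T, s17]
  have f28 := d5_10 g1 x1 x2
  have x3 : 0.25 ≤ R2 := by linarith only [e, h23, h45, h5T, s16, s17, sR]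
  have x4 : R2 ≤ 0.42 := by linarith only [h12, s17, sR]
  have f32 := d5_10 g2 x3 x4
  have x5 : 0.195 ≤ R3 := by linarith only [e, h12, h45, h5T, s16, s17, sR]
  have x6 : R3 ≤ 0.33 := by linarith only [h12, h23, h5T, s12, s18, sR]
  have f34 := d5_18 g3 x5 x6
  have f37 := d5_19 g4 s12 s16
  have f40 := d5_20 g5 s18 x0
  linarith only [f28, f32, f34, f37, f40, h12, h23, h5T, r, s12, s18, sR, sp]

lemma l5_17 (B : Big (5 / 4) R1 R2 R3 R4 R5 tT p1 p2 p3 p4 p5 pT)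
  (e : tT = R5) (hz : z2 ≤ (16 * R5 + R4) / 9) (T1 : Test1 5 R1 R2 R3 R5 (R4 + tT) z2)
  (T2 : Test2 R1 R2 R3 (R4 + tT)) (T4 : Test4 0.0512 R2 R3 tT)
  (s4 : 0.16 ≤ R3) (s7 : 0.002 ≤ R5) (s12 : 0.016 ≤ R4) (s16 : R4 ≤ 0.02) (s17 : 0.38 ≤ R1) (s19 : R1 ≤ 0.39) : False := by
  obtain ⟨h12, h23, h34, h45, h5T, sR, sp, g1, g2, g3, g4, g5, rest⟩ := B
  have b0 := g5.1
  have b1 := g1.2.1
  have x0 : 0.18 ≤ R3 := by linarith only [e, h12, h45, h5T, s16, s19, sR]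
  have x1 : R4 + tT ≤ 0.04 := by linarith only [e, h45, s16, sR]
  have x2 : R5 ≤ 0.02 := by linarith only [h45, s16, sR]
  have t1 := T1.use5 hz h12 h23 0.39 0.18 0.04 0.02 0.5041 0.097 0.1111 0.198959 s19 x0 x1 x2 (by norm_num [Dlo])
  have r := rest 0.02 3.233 (fun R p h hx => g5_13 h hx) x2
  have f28 := d5_9 g1 s17 g1.2.1
  have x3 : 0.25 ≤ R2 := by linarith only [e, h23, h45, h5T, s16, s19, sR]
  have x4 : R2 ≤ 0.42 := by linarith only [e, h12, h5T, s19]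
  have f33 := d5_10 g2 x3 x4
  have x5 : R3 ≤ 0.31 := by linarith only [h23, h5T, s12, s17, s7, sR]
  have f36 := d5_11 g3 s4 x5
  have f39 := d5_19 g4 s12 s16
  have f42 := d5_21 g5 s7 x2
  linarith only [f28, f33, f36, f39, f42, h5T, r, s12, s17, sR, sp, t1]

lemma l5_18 (B : Big (5 / 4) R1 R2 R3 R4 R5 tT p1 p2 p3 p4 p5 pT)
  (e : tT = R5) (hz : z2 ≤ (16 * R5 + R4) / 9) (T1 : Test1 5 R1 R2 R3 R5 (R4 + tT) z2)
  (T2 : Test2 R1 R2 R3 (R4 + tT)) (T4 : Test4 0.0512 R2 R3 tT)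
  (s4 : 0.16 ≤ R3) (s7 : 0.002 ≤ R5) (s12 : 0.016 ≤ R4) (s16 : R4 ≤ 0.02) (s17 : 0.38 ≤ R1) (s19 : 0.39 ≤ R1) : False := by
  obtain ⟨h12, h23, h34, h45, h5T, sR, sp, g1, g2, g3, g4, g5, rest⟩ := B
  have b0 := g5.1
  have b1 := g1.2.1
  have x0 : R4 + tT ≤ 0.04 := by linarith only [e, h45, s16, sR]
  have x1 : R5 ≤ 0.02 := by linarith only [h45, s16, sR]
  have t0 := T1.use5 hz h12 h23 (4 / 9) 0.16 0.04 0.02 0.3521 0.144 0.1111 0.138967 b1 s4 x0 x1 (by norm_num [Dlo])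
  have r := rest 0.02 3.233 (fun R p h hx => g5_13 h hx) x1
  have f27 := d5_9 g1 s17 g1.2.1
  have x2 : 0.25 ≤ R2 := by linarith only [b1, e, h23, h45, h5T, s16, sR]
  have x3 : R2 ≤ 0.42 := by linarith only [e, h12, h5T, s12, s4, s7, sR]
  have f31 := d5_10 g2 x2 x3
  have x4 : R3 ≤ 0.31 := by linarith only [h23, h5T, s12, s19, s7, sR]
  have f34 := d5_11 g3 s4 x4
  have f37 := d5_19 g4 s12 s16
  have f41 := d5_21 g5 s7 x1
  linarith only [f27, f31, f34, f37, f41, h5T, r, s12, s19, sR, sp, t0]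

lemma l5_19 (B : Big (5 / 4) R1 R2 R3 R4 R5 tT p1 p2 p3 p4 p5 pT)
  (e : tT = R5) (hz : z2 ≤ (16 * R5 + R4) / 9) (T1 : Test1 5 R1 R2 R3 R5 (R4 + tT) z2)
  (T2 : Test2 R1 R2 R3 (R4 + tT)) (T4 : Test4 0.0512 R2 R3 tT)
  (s4 : 0.16 ≤ R3) (s7 : 0.002 ≤ R5) (s20 : R1 ≤ 0.27) : False := by
  obtain ⟨h12, h23, h34, h45, h5T, sR, sp, g1, g2, g3, g4, g5, rest⟩ := B
  have b0 := g5.1
  have b1 := g1.2.1
  have x0 : R5 ≤ 0.21 := by linarith only [h12, h23, h34, h45, h5T, sR]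
  have r := rest 0.21 1.091 (fun R p h hx => g5_30 h hx) x0
  have x1 : 0.195 ≤ R1 := by linarith only [e, h12, h23, h34, h45, h5T, sR]
  have x2 : R1 ≤ 0.33 := by linarith only [e, h5T, s20]
  have f25 := d5_18 g1 x1 x2
  have x3 : 0.16 ≤ R2 := by linarith only [e, h23, h34, h45, h5T, s20, sR]
  have x4 : R2 ≤ 0.31 := by linarith only [e, h12, h5T, s20]
  have f28 := d5_11 g2 x3 x4
  have x5 : R3 ≤ 0.31 := by linarith only [e, h12, h23, h5T, s20]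
  have f31 := d5_11 g3 s4 x5
  have x6 : 0.09 ≤ R4 := by linarith only [e, h12, h23, h45, h5T, s20, sR]
  have x7 : R4 ≤ 0.31 := by linarith only [e, h12, h23, h34, h5T, s7, sR]
  have f32 := d5_2 g4 x6 x7
  have f33 := d5_22 g5 s7 x0
  linarith only [e, f25, f28, f31, f32, f33, h12, h23, h5T, r, s20, s7, sR, sp]

lemma l5_20 (B : Big (5 / 4) R1 R2 R3 R4 R5 tT p1 p2 p3 p4 p5 pT)
  (e : tT = R5) (hz : z2 ≤ (16 * R5 + R4) / 9) (T1 : Test1 5 R1 R2 R3 R5 (R4 + tT) z2)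
  (T2 : Test2 R1 R2 R3 (R4 + tT)) (T4 : Test4 0.0512 R2 R3 tT)
  (s21 : R1 ≤ 0.4) (s22 : R4 ≤ 0.025) (s23 : R5 ≤ 0.01) : False := by
  obtain ⟨h12, h23, h34, h45, h5T, sR, sp, g1, g2, g3, g4, g5, rest⟩ := B
  have b0 := g5.1
  have b1 := g1.2.1
  have x0 : 0.165 ≤ R3 := by linarith only [e, h12, h5T, s21, s22, s23, sR]
  have x1 : R4 + tT ≤ 0.035 := by linarith only [e, s22, s23, sR]
  have t0 := T1.use5 hz h12 h23 0.4 0.165 0.035 0.01 0.4814 0.068 0.1111 0.189999 s21 x0 x1 s23 (by norm_num [Dlo])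
  linarith only [s22, s23, t0]

lemma l5_21 (B : Big (5 / 4) R1 R2 R3 R4 R5 tT p1 p2 p3 p4 p5 pT)
  (e : tT = R5) (hz : z2 ≤ (16 * R5 + R4) / 9) (T1 : Test1 5 R1 R2 R3 R5 (R4 + tT) z2)
  (T2 : Test2 R1 R2 R3 (R4 + tT)) (T4 : Test4 0.0512 R2 R3 tT)
  (s16 : 0.02 ≤ R4) (s22 : R4 ≤ 0.025) (s23 : 0.01 ≤ R5) (s24 : R1 ≤ 0.37) : False := by
  obtain ⟨h12, h23, h34, h45, h5T, sR, sp, g1, g2, g3, g4, g5, rest⟩ := B
  have b0 := g5.1
  have b1 := g1.2.1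
  have x0 : 0.21 ≤ R3 := by linarith only [e, h12, h45, h5T, s22, s24, sR]
  have x1 : R4 + tT ≤ 0.05 := by linarith only [e, h45, s22, sR]
  have x2 : R5 ≤ 0.025 := by linarith only [h45, s22, sR]
  have t1 := T1.use5 hz h12 h23 0.37 0.21 0.05 0.025 0.5412 0.106 0.1111 0.213601 s24 x0 x1 x2 (by norm_num [Dlo])
  have r := rest 0.025 2.895 (fun R p h hx => g5_14 h hx) x2
  have x3 : 0.25 ≤ R1 := by linarith only [e, h12, h23, h45, h5T, s22, sR]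
  have x4 : R1 ≤ 0.42 := by linarith only [e, h5T, s24]
  have f31 := d5_10 g1 x3 x4
  have x5 : 0.25 ≤ R2 := by linarith only [e, h23, h45, h5T, s22, s24, sR]
  have x6 : R2 ≤ 0.42 := by linarith only [e, h12, h5T, s24]
  have f35 := d5_10 g2 x5 x6
  have x7 : 0.195 ≤ R3 := by linarith only [e, h12, h45, h5T, s22, s24, sR]
  have x8 : R3 ≤ 0.33 := by linarith only [e, h12, h23, h5T, s16, s23, sR]
  have f37 := d5_18 g3 x7 x8
  have f44 := d5_23 g4 s16 s22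
  have f45 := d5_24 g5 s23 x2
  linarith only [f31, f35, f37, f44, f45, h12, h23, h5T, r, s16, sR, sp, t1]

lemma l5_22 (B : Big (5 / 4) R1 R2 R3 R4 R5 tT p1 p2 p3 p4 p5 pT)
  (e : tT = R5) (hz : z2 ≤ (16 * R5 + R4) / 9) (T1 : Test1 5 R1 R2 R3 R5 (R4 + tT) z2)
  (T2 : Test2 R1 R2 R3 (R4 + tT)) (T4 : Test4 0.0512 R2 R3 tT)
  (s4 : 0.16 ≤ R3) (s16 : 0.02 ≤ R4) (s21 : R1 ≤ 0.4) (s22 : R4 ≤ 0.025) (s23 : 0.01 ≤ R5) (s24 : 0.37 ≤ R1) : False := by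
  obtain ⟨h12, h23, h34, h45, h5T, sR, sp, g1, g2, g3, g4, g5, rest⟩ := B
  have b0 := g5.1
  have b1 := g1.2.1
  have x0 : R5 ≤ 0.025 := by linarith only [h45, s22, sR]
  have r := rest 0.025 2.895 (fun R p h hx => g5_14 h hx) x0
  have x1 : 0.25 ≤ R1 := by linarith only [e, h5T, s24]
  have f28 := d5_4 g1 x1 g1.2.1
  have x2 : 0.25 ≤ R2 := by linarith only [e, h23, h45, h5T, s21, s22, sR]
  have x3 : R2 ≤ 0.42 := by linarith only [e, h12, h5T, s21]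
  have f34 := d5_10 g2 x2 x3
  have x4 : R3 ≤ 0.31 := by linarith only [e, h23, h5T, s16, s23, s24, sR]
  have f37 := d5_11 g3 s4 x4
  have f41 := d5_23 g4 s16 s22
  have f46 := d5_24 g5 s23 x0
  linarith only [f28, f34, f37, f41, f46, h5T, r, s16, s23, s24, sR, sp]

lemma l5_23 (B : Big (5 / 4) R1 R2 R3 R4 R5 tT p1 p2 p3 p4 p5 pT)
  (e : tT = R5) (hz : z2 ≤ (16 * R5 + R4) / 9) (T1 : Test1 5 R1 R2 R3 R5 (R4 + tT) z2)
  (T2 : Test2 R1 R2 R3 (R4 + tT)) (T4 : Test4 0.0512 R2 R3 tT)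
  (s4 : 0.16 ≤ R3) (s21 : R1 ≤ 0.4) (s25 : R4 ≤ 0.03) (s26 : R5 ≤ 0.008) : False := by
  obtain ⟨h12, h23, h34, h45, h5T, sR, sp, g1, g2, g3, g4, g5, rest⟩ := B
  have b0 := g5.1
  have b1 := g1.2.1
  have x0 : R4 + tT ≤ 0.038 := by linarith only [e, h5T, s25, s26]
  have t0 := T1.use5 hz h12 h23 0.4 0.16 0.038 0.008 0.4655 0.068 0.1111 0.183724 s21 s4 x0 s26 (by norm_num [Dlo])
  linarith only [s25, s26, t0]

lemma l5_24 (B : Big (5 / 4) R1 R2 R3 R4 R5 tT p1 p2 p3 p4 p5 pT)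
  (e : tT = R5) (hz : z2 ≤ (16 * R5 + R4) / 9) (T1 : Test1 5 R1 R2 R3 R5 (R4 + tT) z2)
  (T2 : Test2 R1 R2 R3 (R4 + tT)) (T4 : Test4 0.0512 R2 R3 tT)
  (s4 : 0.16 ≤ R3) (s21 : R1 ≤ 0.4) (s22 : 0.025 ≤ R4) (s25 : R4 ≤ 0.03) (s26 : 0.008 ≤ R5) : False := by
  obtain ⟨h12, h23, h34, h45, h5T, sR, sp, g1, g2, g3, g4, g5, rest⟩ := B
  have b0 := g5.1
  have b1 := g1.2.1
  have x0 : R5 ≤ 0.03 := by linarith only [h45, s25, sR]
  have r := rest 0.03 2.658 (fun R p h hx => g5_15 h hx) x0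
  have x1 : 0.25 ≤ R1 := by linarith only [e, h12, h23, h45, h5T, s25, sR]
  have x2 : R1 ≤ 0.42 := by linarith only [e, h5T, s21]
  have f30 := d5_10 g1 x1 x2
  have x3 : 0.25 ≤ R2 := by linarith only [e, h23, h45, h5T, s21, s25, sR]
  have x4 : R2 ≤ 0.42 := by linarith only [e, h12, h5T, s21]
  have f34 := d5_10 g2 x3 x4
  have x5 : R5 ≤ 0.16 := by linarith only [h45, s25, sR]
  have f39 := d5_7 g5 s26 x5
  have x6 : R3 ≤ 0.33 := by linarith only [h12, h23, h5T, s22, s26, sR]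
  have f42 := d5_25 g3 s4 x6
  have f43 := d5_26 g4 s22 s25
  linarith only [f30, f34, f39, f42, f43, h12, h23, h5T, r, s22, s26, sR, sp]

lemma l5_25 (B : Big (5 / 4) R1 R2 R3 R4 R5 tT p1 p2 p3 p4 p5 pT)
  (e : tT = R5) (hz : z2 ≤ (16 * R5 + R4) / 9) (T1 : Test1 5 R1 R2 R3 R5 (R4 + tT) z2)
  (T2 : Test2 R1 R2 R3 (R4 + tT)) (T4 : Test4 0.0512 R2 R3 tT)
  (s4 : 0.16 ≤ R3) (s7 : 0.002 ≤ R5) (s20 : 0.27 ≤ R1) (s25 : 0.03 ≤ R4) (s27 : R3 ≤ 0.22) (s28 : R2 ≤ 0.345) : False := by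
  obtain ⟨h12, h23, h34, h45, h5T, sR, sp, g1, g2, g3, g4, g5, rest⟩ := B
  have b0 := g5.1
  have b1 := g1.2.1
  have x0 : R5 ≤ 0.195 := by linarith only [e, h23, h34, h45, h5T, s20, sR]
  have r := rest 0.195 1.126 (fun R p h hx => g5_29 h hx) x0
  have x1 : 0.25 ≤ R1 := by linarith only [e, h5T, s20]
  have f27 := d5_1 g1 x1 g1.2.1
  have f28 := d5_4 g1 x1 g1.2.1
  have x2 : R5 ≤ 0.21 := by linarith only [e, h23, h34, h45, h5T, s20, sR]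
  have f36 := d5_22 g5 s7 x2
  have x3 : 0.16 ≤ R2 := by linarith only [e, h23, h5T, s4]
  have f37 := d5_27 g2 x3 s28
  have f38 := d5_28 g3 s4 s27
  have x4 : R4 ≤ 0.22 := by linarith only [e, h34, h5T, s27]
  have f39 := d5_29 g4 s25 x4
  linarith only [f27, f28, f36, f37, f38, f39, h5T, r, s27, s28, s7, sR, sp]

lemma l5_26 (B : Big (5 / 4) R1 R2 R3 R4 R5 tT p1 p2 p3 p4 p5 pT)
  (e : tT = R5) (hz : z2 ≤ (16 * R5 + R4) / 9) (T1 : Test1 5 R1 R2 R3 R5 (R4 + tT) z2)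
  (T2 : Test2 R1 R2 R3 (R4 + tT)) (T4 : Test4 0.0512 R2 R3 tT)
  (s4 : 0.16 ≤ R3) (s7 : 0.002 ≤ R5) (s25 : 0.03 ≤ R4) (s27 : R3 ≤ 0.22) (s28 : 0.345 ≤ R2) : False := by
  obtain ⟨h12, h23, h34, h45, h5T, sR, sp, g1, g2, g3, g4, g5, rest⟩ := B
  have b0 := g5.1
  have b1 := g1.2.1
  have x0 : R5 ≤ 0.08 := by linarith only [e, h12, h45, h5T, s28, s4, sR]
  have r := rest 0.08 1.679 (fun R p h hx => g5_22 h hx) x0
  have x1 : 0.25 ≤ R1 := by linarith only [e, h12, h5T, s28]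
  have f27 := d5_1 g1 x1 g1.2.1
  have f28 := d5_4 g1 x1 g1.2.1
  have x2 : 0.25 ≤ R2 := by linarith only [e, h5T, s28]
  have f31 := d5_1 g2 x2 g2.2.1
  have f32 := d5_4 g2 x2 g2.2.1
  have f40 := d5_28 g3 s4 s27
  have x3 : R5 ≤ 0.21 := by linarith only [e, h12, h45, h5T, s28, s4, sR]
  have f47 := d5_22 g5 s7 x3
  have x4 : R4 ≤ 0.16 := by linarith only [e, h12, h5T, s28, s4, s7, sR]
  have f48 := d5_30 g4 s25 x4
  linarith only [f27, f28, f31, f32, f40, f47, f48, h5T, r, s27, s7, sR, sp]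

lemma l5_27 (B : Big (5 / 4) R1 R2 R3 R4 R5 tT p1 p2 p3 p4 p5 pT)
  (e : tT = R5) (hz : z2 ≤ (16 * R5 + R4) / 9) (T1 : Test1 5 R1 R2 R3 R5 (R4 + tT) z2)
  (T2 : Test2 R1 R2 R3 (R4 + tT)) (T4 : Test4 0.0512 R2 R3 tT)
  (s27 : 0.22 ≤ R3) (s29 : R5 ≤ 0.003) : False := by
  obtain ⟨h12, h23, h34, h45, h5T, sR, sp, g1, g2, g3, g4, g5, rest⟩ := B
  have b0 := g5.1
  have b1 := g1.2.1
  have x0 : 0.22 ≤ R2 := by linarith only [e, h23, h5T, s27]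
  have x1 : tT ≤ 0.003 := by linarith only [e, s29, sR]
  have t0 := T4.use 0.22 0.22 0.003 0.1399 0.877 0.003398 x0 s27 x1 (by norm_num)
  linarith only [e, s29, t0]

lemma l5_28 (B : Big (5 / 4) R1 R2 R3 R4 R5 tT p1 p2 p3 p4 p5 pT)
  (e : tT = R5) (hz : z2 ≤ (16 * R5 + R4) / 9) (T1 : Test1 5 R1 R2 R3 R5 (R4 + tT) z2)
  (T2 : Test2 R1 R2 R3 (R4 + tT)) (T4 : Test4 0.0512 R2 R3 tT)
  (s21 : R1 ≤ 0.4) (s25 : 0.03 ≤ R4) (s27 : 0.22 ≤ R3) (s29 : 0.003 ≤ R5) (s30 : R4 ≤ 0.035) : False := by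
  obtain ⟨h12, h23, h34, h45, h5T, sR, sp, g1, g2, g3, g4, g5, rest⟩ := B
  have b0 := g5.1
  have b1 := g1.2.1
  have x0 : R4 + tT ≤ 0.07 := by linarith only [e, h45, s30, sR]
  have x1 : R5 ≤ 0.035 := by linarith only [h45, s30, sR]
  have t1 := T1.use5 hz h12 h23 0.4 0.22 0.07 0.035 0.4439 0.177 0.1074 0.163724 s21 s27 x0 x1 (by norm_num [Dlo])
  have r := rest 0.035 2.454 (fun R p h hx => g5_16 h hx) x1
  have x2 : 0.25 ≤ R1 := by linarith only [e, h12, h23, h45, h5T, s30, sR]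
  have x3 : R1 ≤ 0.42 := by linarith only [e, h5T, s21]
  have f33 := d5_10 g1 x2 x3
  have x4 : R3 ≤ 0.33 := by linarith only [e, h12, h23, h5T, s25, s29, sR]
  have f39 := d5_15 g3 s27 x4
  have x5 : R4 ≤ 0.22 := by linarith only [e, h5T, s30]
  have f46 := d5_29 g4 s25 x5
  have x6 : 0.25 ≤ R2 := by linarith only [e, h23, h45, h5T, s21, s30, sR]
  have x7 : R2 ≤ 0.38 := by linarith only [e, h12, h5T, s25, s27, s29, sR]
  have f50 := d5_31 g2 x6 x7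
  have f51 := d5_32 g5 s29 x1
  linarith only [f33, f39, f46, f50, f51, h12, h23, h5T, r, s25, sR, sp, t1]

lemma l5_29 (B : Big (5 / 4) R1 R2 R3 R4 R5 tT p1 p2 p3 p4 p5 pT)
  (e : tT = R5) (hz : z2 ≤ (16 * R5 + R4) / 9) (T1 : Test1 5 R1 R2 R3 R5 (R4 + tT) z2)
  (T2 : Test2 R1 R2 R3 (R4 + tT)) (T4 : Test4 0.0512 R2 R3 tT)
  (s27 : 0.22 ≤ R3) (s29 : 0.003 ≤ R5) (s30 : 0.035 ≤ R4) (s31 : R4 ≤ 0.04) (s32 : R1 ≤ 0.36) : False := by
  obtain ⟨h12, h23, h34, h45, h5T, sR, sp, g1, g2, g3, g4, g5, rest⟩ := B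
  have b0 := g5.1
  have b1 := g1.2.1
  have x0 : R4 + tT ≤ 0.08 := by linarith only [e, h45, h5T, s31]
  have x1 : R5 ≤ 0.04 := by linarith only [h45, s31, sR]
  have t1 := T1.use5 hz h12 h23 0.36 0.22 0.08 0.04 0.4812 0.186 0.1039 0.166102 s32 s27 x0 x1 (by norm_num [Dlo])
  have r := rest 0.04 2.295 (fun R p h hx => g5_17 h hx) x1
  have x2 : 0.25 ≤ R1 := by linarith only [e, h12, h23, h45, h5T, s31, sR]
  have f32 := d5_1 g1 x2 g1.2.1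
  have x3 : R1 ≤ 0.38 := by linarith only [e, h5T, s32]
  have f36 := d5_31 g1 x2 x3
  have x4 : 0.25 ≤ R2 := by linarith only [e, h23, h45, h5T, s31, s32, sR]
  have f37 := d5_1 g2 x4 g2.2.1
  have x5 : R2 ≤ 0.38 := by linarith only [e, h12, h5T, s32]
  have f41 := d5_31 g2 x4 x5
  have x6 : R3 ≤ 0.33 := by linarith only [e, h12, h23, h5T, s29, s30, sR]
  have f43 := d5_15 g3 s27 x6
  have x7 : R4 ≤ 0.16 := by linarith only [e, h5T, s31]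
  have f47 := d5_6 g4 s30 x7
  have f55 := d5_33 g5 s29 x1
  linarith only [f32, f36, f37, f41, f43, f47, f55, h5T, r, s30, sR, sp, t1]

lemma l5_30 (B : Big (5 / 4) R1 R2 R3 R4 R5 tT p1 p2 p3 p4 p5 pT)
  (e : tT = R5) (hz : z2 ≤ (16 * R5 + R4) / 9) (T1 : Test1 5 R1 R2 R3 R5 (R4 + tT) z2)
  (T2 : Test2 R1 R2 R3 (R4 + tT)) (T4 : Test4 0.0512 R2 R3 tT)
  (s21 : R1 ≤ 0.4) (s27 : 0.22 ≤ R3) (s29 : 0.003 ≤ R5) (s30 : 0.035 ≤ R4) (s31 : R4 ≤ 0.04) (s32 : 0.36 ≤ R1) : False := by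
  obtain ⟨h12, h23, h34, h45, h5T, sR, sp, g1, g2, g3, g4, g5, rest⟩ := B
  have b0 := g5.1
  have b1 := g1.2.1
  have x0 : R4 + tT ≤ 0.08 := by linarith only [e, h45, h5T, s31]
  have x1 : R5 ≤ 0.04 := by linarith only [h45, s31, sR]
  have t1 := T1.use5 hz h12 h23 0.4 0.22 0.08 0.04 0.4152 0.216 0.0897 0.106822 s21 s27 x0 x1 (by norm_num [Dlo])
  have r := rest 0.04 2.295 (fun R p h hx => g5_17 h hx) x1
  have x2 : 0.25 ≤ R1 := by linarith only [e, h5T, s32]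
  have f33 := d5_4 g1 x2 g1.2.1
  have x3 : 0.25 ≤ R2 := by linarith only [e, h23, h45, h5T, s21, s31, sR]
  have f36 := d5_1 g2 x3 g2.2.1
  have x4 : R2 ≤ 0.38 := by linarith only [e, h12, h5T, s27, s29, s30, sR]
  have f40 := d5_31 g2 x3 x4
  have x5 : R3 ≤ 0.33 := by linarith only [e, h23, h5T, s29, s30, s32, sR]
  have f44 := d5_15 g3 s27 x5
  have x6 : R4 ≤ 0.16 := by linarith only [e, h5T, s31]
  have f48 := d5_6 g4 s30 x6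
  have f57 := d5_33 g5 s29 x1
  linarith only [f33, f36, f40, f44, f48, f57, h5T, r, s30, s32, sR, sp, t1]

lemma l5_31 (B : Big (5 / 4) R1 R2 R3 R4 R5 tT p1 p2 p3 p4 p5 pT)
  (e : tT = R5) (hz : z2 ≤ (16 * R5 + R4) / 9) (T1 : Test1 5 R1 R2 R3 R5 (R4 + tT) z2)
  (T2 : Test2 R1 R2 R3 (R4 + tT)) (T4 : Test4 0.0512 R2 R3 tT)
  (s20 : 0.27 ≤ R1) (s21 : R1 ≤ 0.4) (s27 : 0.22 ≤ R3) (s29 : 0.003 ≤ R5) (s31 : 0.04 ≤ R4) : False := by
  obtain ⟨h12, h23, h34, h45, h5T, sR, sp, g1, g2, g3, g4, g5, rest⟩ := B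
  have b0 := g5.1
  have b1 := g1.2.1
  have x0 : R5 ≤ 0.16 := by linarith only [e, h23, h45, h5T, s20, s27, sR]
  have r := rest 0.16 1.222 (fun R p h hx => g5_27 h hx) x0
  have x1 : R3 ≤ 0.33 := by linarith only [e, h12, h23, h5T, s29, s31, sR]
  have f35 := d5_15 g3 s27 x1
  have f41 := d5_34 g1 s20 s21
  have x2 : 0.22 ≤ R2 := by linarith only [e, h23, h5T, s27]
  have x3 : R2 ≤ 0.37 := by linarith only [e, h12, h5T, s27, s29, s31, sR]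
  have f42 := d5_35 g2 x2 x3
  have x4 : R4 ≤ 0.25 := by linarith only [e, h23, h34, h5T, s20, s29, sR]
  have f43 := d5_36 g4 s31 x4
  have f44 := d5_37 g5 s29 x0
  linarith only [f35, f41, f42, f43, f44, h5T, r, s29, s31, sR, sp]

lemma l5_32 (B : Big (5 / 4) R1 R2 R3 R4 R5 tT p1 p2 p3 p4 p5 pT)
  (e : tT = R5) (hz : z2 ≤ (16 * R5 + R4) / 9) (T1 : Test1 5 R1 R2 R3 R5 (R4 + tT) z2)
  (T2 : Test2 R1 R2 R3 (R4 + tT)) (T4 : Test4 0.0512 R2 R3 tT)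
  (s4 : 0.16 ≤ R3) (s7 : 0.002 ≤ R5) (s16 : 0.02 ≤ R4) (s21 : 0.4 ≤ R1) : False := by
  obtain ⟨h12, h23, h34, h45, h5T, sR, sp, g1, g2, g3, g4, g5, rest⟩ := B
  have b0 := g5.1
  have b1 := g1.2.1
  have x0 : R5 ≤ 0.14 := by linarith only [e, h23, h45, h5T, s21, s4, sR]
  have r := rest 0.14 1.297 (fun R p h hx => g5_26 h hx) x0
  have f23 := d5_0 g1 s21 g1.2.1
  have x1 : R3 ≤ 0.31 := by linarith only [e, h23, h5T, s16, s21, s7, sR]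
  have f31 := d5_11 g3 s4 x1
  have x2 : R5 ≤ 0.21 := by linarith only [e, h23, h45, h5T, s21, s4, sR]
  have f36 := d5_22 g5 s7 x2
  have x3 : 0.16 ≤ R2 := by linarith only [e, h23, h5T, s4]
  have x4 : R2 ≤ 0.41 := by linarith only [e, h12, h5T, s16, s4, s7, sR]
  have f37 := d5_38 g2 x3 x4
  have x5 : R4 ≤ 0.21 := by linarith only [e, h23, h34, h5T, s21, s7, sR]
  have f38 := d5_39 g4 s16 x5
  linarith only [f23, f31, f36, f37, f38, h23, h5T, r, s16, s21, s7, sR, sp]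

theorem k5 : K5Stmt := by
  intro R1 R2 R3 R4 R5 tT p1 p2 p3 p4 p5 pT z2 B e hz T1 T2 T4
  rcases le_total R4 0.008 with s1 | s1
  · rcases le_total R1 0.4 with s2 | s2
    · exact l5_0 B e hz T1 T2 T4 s1 s2
    exact l5_1 B e hz T1 T2 T4 s1 s2
  rcases le_total R5 0.0005 with s3 | s3
  · exact l5_2 B e hz T1 T2 T4 s3
  rcases le_total R3 0.16 with s4 | s4
  · exact l5_3 B e hz T1 T2 T4 s1 s3 s4
  rcases le_total R5 0.001 with s5 | s5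
  · exact l5_4 B e hz T1 T2 T4 s4 s5
  rcases le_total R5 0.0015 with s6 | s6
  · exact l5_5 B e hz T1 T2 T4 s4 s6
  rcases le_total R5 0.002 with s7 | s7
  · exact l5_6 B e hz T1 T2 T4 s4 s7
  rcases le_total R4 0.01 with s8 | s8
  · rcases le_total R1 0.38 with s9 | s9
    · exact l5_7 B e hz T1 T2 T4 s8 s9
    exact l5_8 B e hz T1 T2 T4 s1 s4 s7 s8 s9
  rcases le_total R4 0.013 with s10 | s10
  · rcases le_total R1 0.39 with s11 | s11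
    · exact l5_9 B e hz T1 T2 T4 s10 s11
    exact l5_10 B e hz T1 T2 T4 s1 s4 s7 s8 s10 s11
  rcases le_total R4 0.016 with s12 | s12
  · rcases le_total R1 0.38 with s13 | s13
    · rcases le_total R1 0.37 with s14 | s14
      · exact l5_11 B e hz T1 T2 T4 s7 s10 s12 s14
      exact l5_12 B e hz T1 T2 T4 s4 s7 s10 s12 s13 s14
    rcases le_total R1 0.39 with s15 | s15
    · exact l5_13 B e hz T1 T2 T4 s4 s7 s10 s12 s13 s15
    exact l5_14 B e hz T1 T2 T4 s4 s7 s10 s12 s13 s15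
  rcases le_total R4 0.02 with s16 | s16
  · rcases le_total R1 0.38 with s17 | s17
    · rcases le_total R5 0.013 with s18 | s18
      · exact l5_15 B e hz T1 T2 T4 s7 s12 s16 s17 s18
      exact l5_16 B e hz T1 T2 T4 s12 s16 s17 s18
    rcases le_total R1 0.39 with s19 | s19
    · exact l5_17 B e hz T1 T2 T4 s4 s7 s12 s16 s17 s19
    exact l5_18 B e hz T1 T2 T4 s4 s7 s12 s16 s17 s19
  rcases le_total R1 0.27 with s20 | s20
  · exact l5_19 B e hz T1 T2 T4 s4 s7 s20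
  rcases le_total R1 0.4 with s21 | s21
  · rcases le_total R4 0.025 with s22 | s22
    · rcases le_total R5 0.01 with s23 | s23
      · exact l5_20 B e hz T1 T2 T4 s21 s22 s23
      rcases le_total R1 0.37 with s24 | s24
      · exact l5_21 B e hz T1 T2 T4 s16 s22 s23 s24
      exact l5_22 B e hz T1 T2 T4 s4 s16 s21 s22 s23 s24
    rcases le_total R4 0.03 with s25 | s25
    · rcases le_total R5 0.008 with s26 | s26
      · exact l5_23 B e hz T1 T2 T4 s4 s21 s25 s26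
      exact l5_24 B e hz T1 T2 T4 s4 s21 s22 s25 s26
    rcases le_total R3 0.22 with s27 | s27
    · rcases le_total R2 0.345 with s28 | s28
      · exact l5_25 B e hz T1 T2 T4 s4 s7 s20 s25 s27 s28
      exact l5_26 B e hz T1 T2 T4 s4 s7 s25 s27 s28
    rcases le_total R5 0.003 with s29 | s29
    · exact l5_27 B e hz T1 T2 T4 s27 s29
    rcases le_total R4 0.035 with s30 | s30
    · exact l5_28 B e hz T1 T2 T4 s21 s25 s27 s29 s30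
    rcases le_total R4 0.04 with s31 | s31
    · rcases le_total R1 0.36 with s32 | s32
      · exact l5_29 B e hz T1 T2 T4 s27 s29 s30 s31 s32
      exact l5_30 B e hz T1 T2 T4 s21 s27 s29 s30 s31 s32
    exact l5_31 B e hz T1 T2 T4 s20 s21 s27 s29 s31
  exact l5_32 B e hz T1 T2 T4 s4 s7 s16 s21

end Crest.Agent.Prp
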