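import Crest.Agent.Prp.TreeD6

set_option autoImplicit false
set_option linter.unusedVariables false
set_option linter.style.longLine false

namespace Crest.Agent.Prp

variable {R1 R2 R3 R4 R5 tT p1 p2 p3 p4 p5 pT : ℝ}

lemma l6_0 (B : Big (6 / 5) R1 R2 R3 R4 R5 tT p1 p2 p3 p4 p5 pT)
  (e : tT ≤ 2 * R5) (T3 : Test3 (1 / 3) R1 R2 R3 R4 tT) (T4 : Test4 0.1045 R2 R3 tT)
  (s1 : R5 ≤ 0.0005) : False := by
  obtain ⟨h12, h23, h34, h45, h5T, sR, sp, g1, g2, g3, g4, g5, rest⟩ := B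
  have b0 := g5.1
  have b1 := g1.2.1
  have x0 : 0.18 ≤ R2 := by linarith only [b1, e, h23, h34, s1, sR]
  have x1 : 0.055 ≤ R3 := by linarith only [b1, e, h12, h34, s1, sR]
  have x2 : tT ≤ 0.001 := by linarith only [e, s1, sR]
  have t0 := T4.use 0.18 0.055 0.001 0.0356 0.839 0.001615 x0 x1 x2 (by norm_num)
  linarith only [e, s1, t0]

lemma l6_1 (B : Big (6 / 5) R1 R2 R3 R4 R5 tT p1 p2 p3 p4 p5 pT)
  (e : tT ≤ 2 * R5) (T3 : Test3 (1 / 3) R1 R2 R3 R4 tT) (T4 : Test4 0.1045 R2 R3 tT)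
  (s1 : 0.0005 ≤ R5) (s2 : R3 ≤ 0.14) : False := by
  obtain ⟨h12, h23, h34, h45, h5T, sR, sp, g1, g2, g3, g4, g5, rest⟩ := B
  have b0 := g5.1
  have b1 := g1.2.1
  have x0 : R5 ≤ 0.14 := by linarith only [h34, h45, s2, sR]
  have r := rest 0.14 1.296 (fun R p h hx => g6_26 h hx) x0
  have x1 : 0.22 ≤ R1 := by linarith only [e, h12, h34, h45, s2, sR]
  have f13 := d6_0 g1 x1 g1.2.1
  have x2 : 0.1 ≤ R2 := by linarith only [b1, e, h23, h34, h45, sR]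
  have f14 := d6_1 g2 x2 g2.2.1
  have x3 : 0.025 ≤ R3 := by linarith only [b1, e, h12, h34, h45, sR]
  have f15 := d6_2 g3 x3 s2
  have x4 : 0.0005 ≤ R4 := by linarith only [h45, s1, sR]
  have x5 : R4 ≤ 0.14 := by linarith only [h34, s2, sR]
  have f16 := d6_3 g4 x4 x5
  have f17 := d6_3 g5 s1 x0
  linarith only [f13, f14, f15, f16, f17, h5T, r, s2, sR, sp]

lemma l6_2 (B : Big (6 / 5) R1 R2 R3 R4 R5 tT p1 p2 p3 p4 p5 pT)
  (e : tT ≤ 2 * R5) (T3 : Test3 (1 / 3) R1 R2 R3 R4 tT) (T4 : Test4 0.1045 R2 R3 tT)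
  (s2 : 0.14 ≤ R3) (s3 : R5 ≤ 0.001) : False := by
  obtain ⟨h12, h23, h34, h45, h5T, sR, sp, g1, g2, g3, g4, g5, rest⟩ := B
  have b0 := g5.1
  have b1 := g1.2.1
  have x0 : 0.18 ≤ R2 := by linarith only [b1, e, h23, h34, s3, sR]
  have x1 : tT ≤ 0.002 := by linarith only [e, s3, sR]
  have t0 := T4.use 0.18 0.14 0.002 0.0786 0.854 0.003694 x0 s2 x1 (by norm_num)
  linarith only [e, s3, t0]

lemma l6_3 (B : Big (6 / 5) R1 R2 R3 R4 R5 tT p1 p2 p3 p4 p5 pT)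
  (e : tT ≤ 2 * R5) (T3 : Test3 (1 / 3) R1 R2 R3 R4 tT) (T4 : Test4 0.1045 R2 R3 tT)
  (s2 : 0.14 ≤ R3) (s4 : R4 ≤ 0.0015) : False := by
  obtain ⟨h12, h23, h34, h45, h5T, sR, sp, g1, g2, g3, g4, g5, rest⟩ := B
  have b0 := g5.1
  have b1 := g1.2.1
  have x0 : 0.275 ≤ R2 := by linarith only [b1, e, h23, h45, s4, sR]
  have x1 : tT ≤ 0.003 := by linarith only [e, h45, s4, sR]
  have t0 := T4.use 0.275 0.14 0.003 0.1294 0.867 0.006269 x0 s2 x1 (by norm_num)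
  linarith only [e, h45, s4, t0]

lemma l6_4 (B : Big (6 / 5) R1 R2 R3 R4 R5 tT p1 p2 p3 p4 p5 pT)
  (e : tT ≤ 2 * R5) (T3 : Test3 (1 / 3) R1 R2 R3 R4 tT) (T4 : Test4 0.1045 R2 R3 tT)
  (s2 : 0.14 ≤ R3) (s5 : R4 ≤ 0.002) : False := by
  obtain ⟨h12, h23, h34, h45, h5T, sR, sp, g1, g2, g3, g4, g5, rest⟩ := B
  have b0 := g5.1
  have b1 := g1.2.1
  have x0 : 0.27 ≤ R2 := by linarith only [b1, e, h23, h45, s5, sR]
  have x1 : tT ≤ 0.004 := by linarith only [e, h45, s5, sR]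
  have t0 := T4.use 0.27 0.14 0.004 0.1251 0.817 0.005382 x0 s2 x1 (by norm_num)
  linarith only [e, h45, s5, t0]

lemma l6_5 (B : Big (6 / 5) R1 R2 R3 R4 R5 tT p1 p2 p3 p4 p5 pT)
  (e : tT ≤ 2 * R5) (T3 : Test3 (1 / 3) R1 R2 R3 R4 tT) (T4 : Test4 0.1045 R2 R3 tT)
  (s2 : 0.14 ≤ R3) (s7 : tT ≤ 0.0015) : False := by
  obtain ⟨h12, h23, h34, h45, h5T, sR, sp, g1, g2, g3, g4, g5, rest⟩ := B
  have b0 := g5.1
  have b1 := g1.2.1
  have x0 : 0.18 ≤ R2 := by linarith only [b1, h23, h34, s7, sR]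
  have t0 := T4.use 0.18 0.14 0.0015 0.0792 0.892 0.004061 x0 s2 s7 (by norm_num)
  linarith only [s7, t0]

lemma l6_6 (B : Big (6 / 5) R1 R2 R3 R4 R5 tT p1 p2 p3 p4 p5 pT)
  (e : tT ≤ 2 * R5) (T3 : Test3 (1 / 3) R1 R2 R3 R4 tT) (T4 : Test4 0.1045 R2 R3 tT)
  (s2 : 0.14 ≤ R3) (s9 : tT ≤ 0.002) : False := by
  obtain ⟨h12, h23, h34, h45, h5T, sR, sp, g1, g2, g3, g4, g5, rest⟩ := B
  have b0 := g5.1
  have b1 := g1.2.1
  have x0 : 0.18 ≤ R2 := by linarith only [b1, h23, h34, s9, sR]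
  have t0 := T4.use 0.18 0.14 0.002 0.0786 0.854 0.003694 x0 s2 s9 (by norm_num)
  linarith only [s9, t0]

lemma l6_7 (B : Big (6 / 5) R1 R2 R3 R4 R5 tT p1 p2 p3 p4 p5 pT)
  (e : tT ≤ 2 * R5) (T3 : Test3 (1 / 3) R1 R2 R3 R4 tT) (T4 : Test4 0.1045 R2 R3 tT)
  (s1 : 0.0005 ≤ R5) (s8 : R5 ≤ 0.035) (s9 : 0.002 ≤ tT) (s10 : R1 ≤ 0.29) : False := by
  obtain ⟨h12, h23, h34, h45, h5T, sR, sp, g1, g2, g3, g4, g5, rest⟩ := B
  have b0 := g5.1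
  have b1 := g1.2.1
  have r := rest 0.035 2.454 (fun R p h hx => g6_16 h hx) s8
  have x0 : R5 ≤ 0.14 := by linarith only [s8, sR]
  have f25 := d6_3 g5 s1 x0
  have x1 : 0.22 ≤ R1 := by linarith only [e, h12, h23, h34, s8, sR]
  have f26 := d6_4 g1 x1 s10
  have x2 : 0.21 ≤ R2 := by linarith only [e, h23, h34, s10, s8, sR]
  have x3 : R2 ≤ 0.29 := by linarith only [h12, s10, sR]
  have f27 := d6_5 g2 x2 x3
  have x4 : 0.16 ≤ R3 := by linarith only [e, h12, h34, s10, s8, sR]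
  have x5 : R3 ≤ 0.29 := by linarith only [h12, h23, s10, sR]
  have f28 := d6_6 g3 x4 x5
  have x6 : 0.06 ≤ R4 := by linarith only [e, h12, h23, s10, s8, sR]
  have x7 : R4 ≤ 0.25 := by linarith only [h12, h23, h34, s9, sR]
  have f29 := d6_7 g4 x6 x7
  linarith only [f25, f26, f27, f28, f29, h12, h23, h5T, r, s10, s9, sR, sp]

lemma l6_8 (B : Big (6 / 5) R1 R2 R3 R4 R5 tT p1 p2 p3 p4 p5 pT)
  (e : tT ≤ 2 * R5) (T3 : Test3 (1 / 3) R1 R2 R3 R4 tT) (T4 : Test4 0.1045 R2 R3 tT)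
  (s2 : 0.14 ≤ R3) (s3 : 0.001 ≤ R5) (s8 : R5 ≤ 0.035) (s9 : 0.002 ≤ tT) (s10 : 0.29 ≤ R1) (s11 : R2 ≤ 0.25) : False := by
  obtain ⟨h12, h23, h34, h45, h5T, sR, sp, g1, g2, g3, g4, g5, rest⟩ := B
  have b0 := g5.1
  have b1 := g1.2.1
  have r := rest 0.035 2.454 (fun R p h hx => g6_16 h hx) s8
  have x0 : 0.06 ≤ R2 := by linarith only [b1, e, h23, h34, s8, sR]
  have f26 := d6_7 g2 x0 s11
  have x1 : 0.06 ≤ R3 := by linarith only [s2, sR]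
  have x2 : R3 ≤ 0.25 := by linarith only [h23, s11, sR]
  have f28 := d6_7 g3 x1 x2
  have f30 := d6_8 g1 s10 g1.2.1
  have x3 : 0.016 ≤ R4 := by linarith only [b1, e, h23, h45, s11, sR]
  have x4 : R4 ≤ 0.25 := by linarith only [h23, h34, s10, s9, sR]
  have f31 := d6_9 g4 x3 x4
  have f32 := d6_10 g5 s3 s8
  linarith only [f26, f28, f30, f31, f32, h23, h5T, r, s11, s9, sR, sp]

lemma l6_9 (B : Big (6 / 5) R1 R2 R3 R4 R5 tT p1 p2 p3 p4 p5 pT)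
  (e : tT ≤ 2 * R5) (T3 : Test3 (1 / 3) R1 R2 R3 R4 tT) (T4 : Test4 0.1045 R2 R3 tT)
  (s2 : 0.14 ≤ R3) (s11 : 0.25 ≤ R2) (s12 : tT ≤ 0.003) : False := by
  obtain ⟨h12, h23, h34, h45, h5T, sR, sp, g1, g2, g3, g4, g5, rest⟩ := B
  have b0 := g5.1
  have b1 := g1.2.1
  have t0 := T4.use 0.25 0.14 0.003 0.1157 0.852 0.005413 s11 s2 s12 (by norm_num)
  linarith only [s12, t0]

lemma l6_10 (B : Big (6 / 5) R1 R2 R3 R4 R5 tT p1 p2 p3 p4 p5 pT)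
  (e : tT ≤ 2 * R5) (T3 : Test3 (1 / 3) R1 R2 R3 R4 tT) (T4 : Test4 0.1045 R2 R3 tT)
  (s2 : 0.14 ≤ R3) (s11 : 0.25 ≤ R2) (s13 : tT ≤ 0.004) : False := by
  obtain ⟨h12, h23, h34, h45, h5T, sR, sp, g1, g2, g3, g4, g5, rest⟩ := B
  have b0 := g5.1
  have b1 := g1.2.1
  have t0 := T4.use 0.25 0.14 0.004 0.1142 0.8 0.004711 s11 s2 s13 (by norm_num)
  linarith only [s13, t0]

lemma l6_11 (B : Big (6 / 5) R1 R2 R3 R4 R5 tT p1 p2 p3 p4 p5 pT)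
  (e : tT ≤ 2 * R5) (T3 : Test3 (1 / 3) R1 R2 R3 R4 tT) (T4 : Test4 0.1045 R2 R3 tT)
  (s2 : 0.14 ≤ R3) (s3 : 0.001 ≤ R5) (s5 : 0.002 ≤ R4) (s8 : R5 ≤ 0.035) (s13 : 0.004 ≤ tT) (s15 : R4 ≤ 0.05) (s17 : R5 ≤ 0.008) (s20 : R3 ≤ 0.195) : False := by
  obtain ⟨h12, h23, h34, h45, h5T, sR, sp, g1, g2, g3, g4, g5, rest⟩ := B
  have b0 := g5.1
  have b1 := g1.2.1
  have r := rest 0.008 5.042 (fun R p h hx => g6_9 h hx) s17
  have x0 : 0.22 ≤ R2 := by linarith only [b1, e, s15, s17, s20, sR]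
  have f34 := d6_0 g2 x0 g2.2.1
  have f42 := d6_10 g5 s3 s8
  have x1 : 0.36 ≤ R1 := by linarith only [e, h12, s15, s17, s20, sR]
  have f43 := d6_11 g1 x1 g1.2.1
  have f44 := d6_12 g3 s2 s20
  have f45 := d6_13 g4 s5 s15
  linarith only [f34, f42, f43, f44, f45, h12, h45, h5T, r, s13, s20, sR, sp]

lemma l6_12 (B : Big (6 / 5) R1 R2 R3 R4 R5 tT p1 p2 p3 p4 p5 pT)
  (e : tT ≤ 2 * R5) (T3 : Test3 (1 / 3) R1 R2 R3 R4 tT) (T4 : Test4 0.1045 R2 R3 tT)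
  (s5 : 0.002 ≤ R4) (s13 : 0.004 ≤ tT) (s15 : R4 ≤ 0.05) (s17 : R5 ≤ 0.008) (s19 : R3 ≤ 0.21) (s20 : 0.195 ≤ R3) : False := by
  obtain ⟨h12, h23, h34, h45, h5T, sR, sp, g1, g2, g3, g4, g5, rest⟩ := B
  have b0 := g5.1
  have b1 := g1.2.1
  have x0 : R4 + tT ≤ 0.066 := by linarith only [e, s15, s17, sR]
  have x1 : tT ≤ 0.016 := by linarith only [e, s17, sR]
  have t0 := T3.use h12 h23 (4 / 9) 0.195 0.066 0.016 0.3332 0.609 0.060226 b1 s20 x0 x1 (by norm_num [Dlo])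
  have r := rest 0.008 5.042 (fun R p h hx => g6_9 h hx) s17
  have x2 : 0.22 ≤ R1 := by linarith only [e, h12, s15, s17, s19, sR]
  have f32 := d6_0 g1 x2 g1.2.1
  have x3 : 0.22 ≤ R2 := by linarith only [b1, e, s15, s17, s19, sR]
  have f36 := d6_0 g2 x3 g2.2.1
  have f43 := d6_13 g4 s5 s15
  have f47 := d6_14 g3 s20 s19
  have x4 : 0.002 ≤ R5 := by linarith only [e, s13, sR]
  have f48 := d6_15 g5 x4 s17
  linarith only [f32, f36, f43, f47, f48, h45, h5T, r, s19, sR, sp, t0]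

lemma l6_13 (B : Big (6 / 5) R1 R2 R3 R4 R5 tT p1 p2 p3 p4 p5 pT)
  (e : tT ≤ 2 * R5) (T3 : Test3 (1 / 3) R1 R2 R3 R4 tT) (T4 : Test4 0.1045 R2 R3 tT)
  (s5 : 0.002 ≤ R4) (s13 : 0.004 ≤ tT) (s15 : R4 ≤ 0.05) (s17 : R5 ≤ 0.008) (s18 : R3 ≤ 0.22) (s19 : 0.21 ≤ R3) (s21 : R1 ≤ 0.4) : False := by
  obtain ⟨h12, h23, h34, h45, h5T, sR, sp, g1, g2, g3, g4, g5, rest⟩ := B
  have b0 := g5.1
  have b1 := g1.2.1
  have x0 : R4 + tT ≤ 0.066 := by linarith only [e, s15, s17, sR]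
  have x1 : tT ≤ 0.016 := by linarith only [e, s17, sR]
  have t0 := T3.use h12 h23 0.4 0.21 0.066 0.016 0.4415 0.714 0.109692 s21 s19 x0 x1 (by norm_num [Dlo])
  have r := rest 0.008 5.042 (fun R p h hx => g6_9 h hx) s17
  have x2 : 0.22 ≤ R1 := by linarith only [e, h12, s15, s17, s18, sR]
  have f32 := d6_0 g1 x2 g1.2.1
  have x3 : 0.22 ≤ R2 := by linarith only [e, s15, s17, s18, s21, sR]
  have f35 := d6_0 g2 x3 g2.2.1
  have x4 : R3 ≤ 0.29 := by linarith only [s18, sR]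
  have f39 := d6_5 g3 s19 x4
  have f44 := d6_13 g4 s5 s15
  have x5 : 0.002 ≤ R5 := by linarith only [e, s13, sR]
  have f48 := d6_15 g5 x5 s17
  linarith only [f32, f35, f39, f44, f48, h45, r, s17, s18, sR, sp, t0]

lemma l6_14 (B : Big (6 / 5) R1 R2 R3 R4 R5 tT p1 p2 p3 p4 p5 pT)
  (e : tT ≤ 2 * R5) (T3 : Test3 (1 / 3) R1 R2 R3 R4 tT) (T4 : Test4 0.1045 R2 R3 tT)
  (s5 : 0.002 ≤ R4) (s13 : 0.004 ≤ tT) (s15 : R4 ≤ 0.05) (s17 : R5 ≤ 0.008) (s18 : R3 ≤ 0.22) (s19 : 0.21 ≤ R3) (s21 : 0.4 ≤ R1) : False := by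
  obtain ⟨h12, h23, h34, h45, h5T, sR, sp, g1, g2, g3, g4, g5, rest⟩ := B
  have b0 := g5.1
  have b1 := g1.2.1
  have x0 : R4 + tT ≤ 0.066 := by linarith only [e, s15, s17, sR]
  have x1 : tT ≤ 0.016 := by linarith only [e, s17, sR]
  have t0 := T3.use h12 h23 (4 / 9) 0.21 0.066 0.016 0.3631 0.652 0.075226 b1 s19 x0 x1 (by norm_num [Dlo])
  have r := rest 0.008 5.042 (fun R p h hx => g6_9 h hx) s17
  have x2 : 0.36 ≤ R1 := by linarith only [s21, sR]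
  have f35 := d6_11 g1 x2 g1.2.1
  have x3 : 0.22 ≤ R2 := by linarith only [b1, e, s15, s17, s18, sR]
  have f36 := d6_0 g2 x3 g2.2.1
  have x4 : R3 ≤ 0.29 := by linarith only [s18, sR]
  have f39 := d6_5 g3 s19 x4
  have f44 := d6_13 g4 s5 s15
  have x5 : 0.002 ≤ R5 := by linarith only [e, s13, sR]
  have f48 := d6_15 g5 x5 s17
  linarith only [f35, f36, f39, f44, f48, h45, h5T, r, s18, s21, sR, sp, t0]

lemma l6_15 (B : Big (6 / 5) R1 R2 R3 R4 R5 tT p1 p2 p3 p4 p5 pT)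
  (e : tT ≤ 2 * R5) (T3 : Test3 (1 / 3) R1 R2 R3 R4 tT) (T4 : Test4 0.1045 R2 R3 tT)
  (s5 : 0.002 ≤ R4) (s13 : 0.004 ≤ tT) (s15 : R4 ≤ 0.05) (s16 : R3 ≤ 0.235) (s17 : R5 ≤ 0.008) (s18 : 0.22 ≤ R3) (s22 : R1 ≤ 0.41) : False := by
  obtain ⟨h12, h23, h34, h45, h5T, sR, sp, g1, g2, g3, g4, g5, rest⟩ := B
  have b0 := g5.1
  have b1 := g1.2.1
  have x0 : R4 + tT ≤ 0.066 := by linarith only [e, s15, s17, sR]
  have x1 : tT ≤ 0.016 := by linarith only [e, s17, sR]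
  have t0 := T3.use h12 h23 0.41 0.22 0.066 0.016 0.4391 0.719 0.110629 s22 s18 x0 x1 (by norm_num [Dlo])
  have r := rest 0.008 5.042 (fun R p h hx => g6_9 h hx) s17
  have x2 : 0.22 ≤ R1 := by linarith only [e, h12, s15, s16, s17, sR]
  have f31 := d6_0 g1 x2 g1.2.1
  have x3 : 0.22 ≤ R2 := by linarith only [e, s15, s16, s17, s22, sR]
  have f34 := d6_0 g2 x3 g2.2.1
  have x4 : R3 ≤ 0.29 := by linarith only [s16, sR]
  have f38 := d6_4 g3 s18 x4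
  have f44 := d6_13 g4 s5 s15
  have x5 : 0.002 ≤ R5 := by linarith only [e, s13, sR]
  have f48 := d6_15 g5 x5 s17
  linarith only [f31, f34, f38, f44, f48, h45, r, s16, s17, sR, sp, t0]

lemma l6_16 (B : Big (6 / 5) R1 R2 R3 R4 R5 tT p1 p2 p3 p4 p5 pT)
  (e : tT ≤ 2 * R5) (T3 : Test3 (1 / 3) R1 R2 R3 R4 tT) (T4 : Test4 0.1045 R2 R3 tT)
  (s5 : 0.002 ≤ R4) (s11 : 0.25 ≤ R2) (s13 : 0.004 ≤ tT) (s15 : R4 ≤ 0.05) (s16 : R3 ≤ 0.235) (s17 : R5 ≤ 0.008) (s18 : 0.22 ≤ R3) (s22 : 0.41 ≤ R1) : False := by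
  obtain ⟨h12, h23, h34, h45, h5T, sR, sp, g1, g2, g3, g4, g5, rest⟩ := B
  have b0 := g5.1
  have b1 := g1.2.1
  have x0 : R4 + tT ≤ 0.066 := by linarith only [e, s15, s17, sR]
  have x1 : tT ≤ 0.016 := by linarith only [e, s17, sR]
  have t0 := T3.use h12 h23 (4 / 9) 0.22 0.066 0.016 0.383 0.678 0.085803 b1 s18 x0 x1 (by norm_num [Dlo])
  have r := rest 0.008 5.042 (fun R p h hx => g6_9 h hx) s17
  have x2 : 0.36 ≤ R1 := by linarith only [s22, sR]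
  have f34 := d6_11 g1 x2 g1.2.1
  have x3 : R3 ≤ 0.29 := by linarith only [s16, sR]
  have f39 := d6_4 g3 s18 x3
  have f45 := d6_13 g4 s5 s15
  have x4 : 0.002 ≤ R5 := by linarith only [e, s13, sR]
  have f49 := d6_15 g5 x4 s17
  have x5 : R2 ≤ 0.37 := by linarith only [e, h45, s13, s18, s22, sR]
  have f50 := d6_16 g2 s11 x5
  linarith only [f34, f39, f45, f49, f50, h45, h5T, r, s16, s22, sR, sp, t0]

lemma l6_17 (B : Big (6 / 5) R1 R2 R3 R4 R5 tT p1 p2 p3 p4 p5 pT)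
  (e : tT ≤ 2 * R5) (T3 : Test3 (1 / 3) R1 R2 R3 R4 tT) (T4 : Test4 0.1045 R2 R3 tT)
  (s2 : 0.14 ≤ R3) (s11 : 0.25 ≤ R2) (s14 : tT ≤ 0.025) (s15 : R4 ≤ 0.05) (s16 : R3 ≤ 0.235) (s17 : 0.008 ≤ R5) : False := by
  obtain ⟨h12, h23, h34, h45, h5T, sR, sp, g1, g2, g3, g4, g5, rest⟩ := B
  have b0 := g5.1
  have b1 := g1.2.1
  have x0 : R5 ≤ 0.025 := by linarith only [h5T, s14, sR]
  have r := rest 0.025 2.895 (fun R p h hx => g6_14 h hx) x0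
  have x1 : 0.22 ≤ R1 := by linarith only [h12, s14, s15, s16, sR]
  have f28 := d6_0 g1 x1 g1.2.1
  have x2 : 0.22 ≤ R2 := by linarith only [s11, sR]
  have f31 := d6_0 g2 x2 g2.2.1
  have x3 : 0.06 ≤ R3 := by linarith only [s2, sR]
  have x4 : R3 ≤ 0.25 := by linarith only [s16, sR]
  have f34 := d6_7 g3 x3 x4
  have x5 : 0.008 ≤ R4 := by linarith only [h45, s17, sR]
  have f41 := d6_17 g4 x5 s15
  have f42 := d6_18 g5 s17 x0
  linarith only [f28, f31, f34, f41, f42, h45, h5T, r, s16, s17, sR, sp]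

lemma l6_18 (B : Big (6 / 5) R1 R2 R3 R4 R5 tT p1 p2 p3 p4 p5 pT)
  (e : tT ≤ 2 * R5) (T3 : Test3 (1 / 3) R1 R2 R3 R4 tT) (T4 : Test4 0.1045 R2 R3 tT)
  (s15 : R4 ≤ 0.05) (s16 : 0.235 ≤ R3) (s23 : tT ≤ 0.01) (s24 : R1 ≤ 0.36) : False := by
  obtain ⟨h12, h23, h34, h45, h5T, sR, sp, g1, g2, g3, g4, g5, rest⟩ := B
  have b0 := g5.1
  have b1 := g1.2.1
  have x0 : R4 + tT ≤ 0.06 := by linarith only [s15, s23, sR]
  have t1 := T3.use h12 h23 0.36 0.235 0.06 0.01 0.5497 0.835 0.186787 s24 s16 x0 s23 (by norm_num [Dlo])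
  linarith only [s15, s23, t1]

lemma l6_19 (B : Big (6 / 5) R1 R2 R3 R4 R5 tT p1 p2 p3 p4 p5 pT)
  (e : tT ≤ 2 * R5) (T3 : Test3 (1 / 3) R1 R2 R3 R4 tT) (T4 : Test4 0.1045 R2 R3 tT)
  (s5 : 0.002 ≤ R4) (s6 : R3 ≤ 0.33) (s11 : 0.25 ≤ R2) (s13 : 0.004 ≤ tT) (s15 : R4 ≤ 0.05) (s16 : 0.235 ≤ R3) (s23 : tT ≤ 0.01) (s24 : 0.36 ≤ R1) : False := by
  obtain ⟨h12, h23, h34, h45, h5T, sR, sp, g1, g2, g3, g4, g5, rest⟩ := B
  have b0 := g5.1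
  have b1 := g1.2.1
  have x0 : R4 + tT ≤ 0.06 := by linarith only [s15, s23, sR]
  have t1 := T3.use h12 h23 (4 / 9) 0.235 0.06 0.01 0.43 0.789 0.130458 b1 s16 x0 s23 (by norm_num [Dlo])
  have x1 : R5 ≤ 0.01 := by linarith only [h5T, s23, sR]
  have r := rest 0.01 4.537 (fun R p h hx => g6_10 h hx) x1
  have x2 : 0.22 ≤ R1 := by linarith only [s24, sR]
  have f31 := d6_0 g1 x2 g1.2.1
  have f40 := d6_13 g4 s5 s15
  have x3 : R2 ≤ 0.38 := by linarith only [e, h12, h45, s13, s16, sR]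
  have f44 := d6_19 g2 s11 x3
  have f45 := d6_20 g3 s16 s6
  have x4 : 0.002 ≤ R5 := by linarith only [e, s13, sR]
  have f46 := d6_21 g5 x4 x1
  linarith only [f31, f40, f44, f45, f46, h5T, r, s23, s24, sR, sp, t1]

lemma l6_20 (B : Big (6 / 5) R1 R2 R3 R4 R5 tT p1 p2 p3 p4 p5 pT)
  (e : tT ≤ 2 * R5) (T3 : Test3 (1 / 3) R1 R2 R3 R4 tT) (T4 : Test4 0.1045 R2 R3 tT)
  (s5 : 0.002 ≤ R4) (s6 : R3 ≤ 0.33) (s11 : 0.25 ≤ R2) (s16 : 0.235 ≤ R3) (s23 : 0.01 ≤ tT) (s25 : R4 ≤ 0.01) : False := by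
  obtain ⟨h12, h23, h34, h45, h5T, sR, sp, g1, g2, g3, g4, g5, rest⟩ := B
  have b0 := g5.1
  have b1 := g1.2.1
  have x0 : R4 + tT ≤ 0.03 := by linarith only [e, h45, s25, sR]
  have x1 : tT ≤ 0.02 := by linarith only [e, h45, s25, sR]
  have t0 := T3.use h12 h23 (4 / 9) 0.235 0.03 0.02 0.5158 0.799 0.160481 b1 s16 x0 x1 (by norm_num [Dlo])
  have x2 : R5 ≤ 0.01 := by linarith only [h45, s25, sR]
  have r := rest 0.01 4.537 (fun R p h hx => g6_10 h hx) x2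
  have x3 : R2 ≤ 0.38 := by linarith only [e, h12, h45, s16, s23, sR]
  have f35 := d6_19 g2 s11 x3
  have f38 := d6_20 g3 s16 s6
  have f42 := d6_21 g4 s5 s25
  have x4 : 0.002 ≤ R5 := by linarith only [e, s23, sR]
  have f46 := d6_21 g5 x4 x2
  have x5 : 0.31 ≤ R1 := by linarith only [e, h12, h23, h45, s25, sR]
  have f47 := d6_22 g1 x5 g1.2.1
  linarith only [e, f35, f38, f42, f46, f47, h12, h23, h45, r, sR, sp, t0]

lemma l6_21 (B : Big (6 / 5) R1 R2 R3 R4 R5 tT p1 p2 p3 p4 p5 pT)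
  (e : tT ≤ 2 * R5) (T3 : Test3 (1 / 3) R1 R2 R3 R4 tT) (T4 : Test4 0.1045 R2 R3 tT)
  (s6 : R3 ≤ 0.33) (s11 : 0.25 ≤ R2) (s14 : tT ≤ 0.025) (s16 : 0.235 ≤ R3) (s23 : 0.01 ≤ tT) (s25 : 0.01 ≤ R4) (s27 : R4 ≤ 0.013) (s28 : R1 ≤ 0.38) : False := by
  obtain ⟨h12, h23, h34, h45, h5T, sR, sp, g1, g2, g3, g4, g5, rest⟩ := B
  have b0 := g5.1
  have b1 := g1.2.1
  have x0 : R4 + tT ≤ 0.038 := by linarith only [s14, s27, sR]
  have t0 := T3.use h12 h23 0.38 0.235 0.038 0.025 0.582 0.776 0.170803 s28 s16 x0 s14 (by norm_num [Dlo])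
  have x1 : R5 ≤ 0.013 := by linarith only [h45, s27, sR]
  have r := rest 0.013 3.983 (fun R p h hx => g6_11 h hx) x1
  have x2 : 0.25 ≤ R1 := by linarith only [h12, h23, s14, s27, sR]
  have f36 := d6_19 g1 x2 s28
  have x3 : R2 ≤ 0.38 := by linarith only [h12, s16, s23, s25, sR]
  have f41 := d6_19 g2 s11 x3
  have f44 := d6_20 g3 s16 s6
  have x4 : 0.008 ≤ R4 := by linarith only [s25, sR]
  have x5 : R4 ≤ 0.025 := by linarith only [s27, sR]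
  have f49 := d6_18 g4 x4 x5
  have x6 : 0.005 ≤ R5 := by linarith only [e, s23, sR]
  have f53 := d6_23 g5 x6 x1
  linarith only [f36, f41, f44, f49, f53, h45, r, s27, sR, sp, t0]

lemma l6_22 (B : Big (6 / 5) R1 R2 R3 R4 R5 tT p1 p2 p3 p4 p5 pT)
  (e : tT ≤ 2 * R5) (T3 : Test3 (1 / 3) R1 R2 R3 R4 tT) (T4 : Test4 0.1045 R2 R3 tT)
  (s6 : R3 ≤ 0.33) (s11 : 0.25 ≤ R2) (s14 : tT ≤ 0.025) (s16 : 0.235 ≤ R3) (s23 : 0.01 ≤ tT) (s25 : 0.01 ≤ R4) (s27 : R4 ≤ 0.013) (s28 : 0.38 ≤ R1) : False := by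
  obtain ⟨h12, h23, h34, h45, h5T, sR, sp, g1, g2, g3, g4, g5, rest⟩ := B
  have b0 := g5.1
  have b1 := g1.2.1
  have x0 : R4 + tT ≤ 0.038 := by linarith only [s14, s27, sR]
  have t0 := T3.use h12 h23 (4 / 9) 0.235 0.038 0.025 0.4928 0.736 0.130099 b1 s16 x0 s14 (by norm_num [Dlo])
  have x1 : R5 ≤ 0.013 := by linarith only [h45, s27, sR]
  have r := rest 0.013 3.983 (fun R p h hx => g6_11 h hx) x1
  have x2 : 0.22 ≤ R1 := by linarith only [s28, sR]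
  have f33 := d6_0 g1 x2 g1.2.1
  have x3 : R2 ≤ 0.38 := by linarith only [s16, s23, s25, s28, sR]
  have f41 := d6_19 g2 s11 x3
  have f44 := d6_20 g3 s16 s6
  have x4 : 0.005 ≤ R4 := by linarith only [s25, sR]
  have f50 := d6_23 g4 x4 s27
  have x5 : 0.005 ≤ R5 := by linarith only [e, s23, sR]
  have f54 := d6_23 g5 x5 x1
  linarith only [f33, f41, f44, f50, f54, h45, r, s25, s28, sR, sp, t0]

lemma l6_23 (B : Big (6 / 5) R1 R2 R3 R4 R5 tT p1 p2 p3 p4 p5 pT)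
  (e : tT ≤ 2 * R5) (T3 : Test3 (1 / 3) R1 R2 R3 R4 tT) (T4 : Test4 0.1045 R2 R3 tT)
  (s6 : R3 ≤ 0.33) (s11 : 0.25 ≤ R2) (s15 : R4 ≤ 0.05) (s16 : 0.235 ≤ R3) (s23 : 0.01 ≤ tT) (s27 : 0.013 ≤ R4) (s29 : R5 ≤ 0.008) (s30 : R1 ≤ 0.36) : False := by
  obtain ⟨h12, h23, h34, h45, h5T, sR, sp, g1, g2, g3, g4, g5, rest⟩ := B
  have b0 := g5.1
  have b1 := g1.2.1
  have x0 : R4 + tT ≤ 0.066 := by linarith only [e, s15, s29, sR]
  have x1 : tT ≤ 0.016 := by linarith only [e, s29, sR]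
  have t0 := T3.use h12 h23 0.36 0.235 0.066 0.016 0.5334 0.776 0.15654 s30 s16 x0 x1 (by norm_num [Dlo])
  have r := rest 0.008 5.042 (fun R p h hx => g6_9 h hx) s29
  have x2 : 0.25 ≤ R1 := by linarith only [e, h12, h23, s15, s29, sR]
  have x3 : R1 ≤ 0.38 := by linarith only [s30, sR]
  have f38 := d6_19 g1 x2 x3
  have x4 : R2 ≤ 0.38 := by linarith only [h12, s30, sR]
  have f43 := d6_19 g2 s11 x4
  have f46 := d6_20 g3 s16 s6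
  have x5 : 0.008 ≤ R4 := by linarith only [s27, sR]
  have f49 := d6_17 g4 x5 s15
  have x6 : 0.002 ≤ R5 := by linarith only [e, s23, sR]
  have f53 := d6_15 g5 x6 s29
  linarith only [f38, f43, f46, f49, f53, r, s27, s29, sR, sp, t0]

lemma l6_24 (B : Big (6 / 5) R1 R2 R3 R4 R5 tT p1 p2 p3 p4 p5 pT)
  (e : tT ≤ 2 * R5) (T3 : Test3 (1 / 3) R1 R2 R3 R4 tT) (T4 : Test4 0.1045 R2 R3 tT)
  (s6 : R3 ≤ 0.33) (s11 : 0.25 ≤ R2) (s15 : R4 ≤ 0.05) (s16 : 0.235 ≤ R3) (s23 : 0.01 ≤ tT) (s27 : 0.013 ≤ R4) (s29 : R5 ≤ 0.008) (s30 : 0.36 ≤ R1) : False := by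
  obtain ⟨h12, h23, h34, h45, h5T, sR, sp, g1, g2, g3, g4, g5, rest⟩ := B
  have b0 := g5.1
  have b1 := g1.2.1
  have r := rest 0.008 5.042 (fun R p h hx => g6_9 h hx) s29
  have x0 : R2 ≤ 0.38 := by linarith only [h12, s16, s23, s27, sR]
  have f41 := d6_19 g2 s11 x0
  have f44 := d6_20 g3 s16 s6
  have x1 : 0.002 ≤ R5 := by linarith only [e, s23, sR]
  have f51 := d6_15 g5 x1 s29
  have f54 := d6_24 g1 s30 g1.2.1
  have f55 := d6_25 g4 s27 s15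
  linarith only [f41, f44, f51, f54, f55, r, s23, s27, s29, s30, sR, sp]

lemma l6_25 (B : Big (6 / 5) R1 R2 R3 R4 R5 tT p1 p2 p3 p4 p5 pT)
  (e : tT ≤ 2 * R5) (T3 : Test3 (1 / 3) R1 R2 R3 R4 tT) (T4 : Test4 0.1045 R2 R3 tT)
  (s6 : R3 ≤ 0.33) (s11 : 0.25 ≤ R2) (s14 : tT ≤ 0.025) (s16 : 0.235 ≤ R3) (s23 : 0.01 ≤ tT) (s26 : R5 ≤ 0.016) (s27 : 0.013 ≤ R4) (s29 : 0.008 ≤ R5) (s31 : R3 ≤ 0.31) (s32 : R4 ≤ 0.016) (s33 : R1 ≤ 0.38) : False := by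
  obtain ⟨h12, h23, h34, h45, h5T, sR, sp, g1, g2, g3, g4, g5, rest⟩ := B
  have b0 := g5.1
  have b1 := g1.2.1
  have x0 : R4 + tT ≤ 0.041 := by linarith only [s14, s32, sR]
  have t0 := T3.use h12 h23 0.38 0.235 0.041 0.025 0.5737 0.769 0.165343 s33 s16 x0 s14 (by norm_num [Dlo])
  have r := rest 0.016 3.6 (fun R p h hx => g6_12 h hx) s26
  have x1 : 0.25 ≤ R1 := by linarith only [h12, s14, s31, s32, sR]
  have f39 := d6_19 g1 x1 s33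
  have x2 : R2 ≤ 0.38 := by linarith only [h12, s16, s23, s27, sR]
  have f43 := d6_19 g2 s11 x2
  have f46 := d6_20 g3 s16 s6
  have f58 := d6_26 g4 s27 s32
  have f59 := d6_27 g5 s29 s26
  linarith only [f39, f43, f46, f58, f59, h45, h5T, r, sR, sp, t0]

lemma l6_26 (B : Big (6 / 5) R1 R2 R3 R4 R5 tT p1 p2 p3 p4 p5 pT)
  (e : tT ≤ 2 * R5) (T3 : Test3 (1 / 3) R1 R2 R3 R4 tT) (T4 : Test4 0.1045 R2 R3 tT)
  (s6 : R3 ≤ 0.33) (s11 : 0.25 ≤ R2) (s14 : tT ≤ 0.025) (s16 : 0.235 ≤ R3) (s23 : 0.01 ≤ tT) (s26 : R5 ≤ 0.016) (s27 : 0.013 ≤ R4) (s29 : 0.008 ≤ R5) (s32 : R4 ≤ 0.016) (s33 : 0.38 ≤ R1) : False := by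
  obtain ⟨h12, h23, h34, h45, h5T, sR, sp, g1, g2, g3, g4, g5, rest⟩ := B
  have b0 := g5.1
  have b1 := g1.2.1
  have x0 : R4 + tT ≤ 0.041 := by linarith only [s14, s32, sR]
  have t0 := T3.use h12 h23 (4 / 9) 0.235 0.041 0.025 0.4842 0.726 0.124379 b1 s16 x0 s14 (by norm_num [Dlo])
  have r := rest 0.016 3.6 (fun R p h hx => g6_12 h hx) s26
  have x1 : 0.22 ≤ R1 := by linarith only [s33, sR]
  have f36 := d6_0 g1 x1 g1.2.1
  have x2 : R2 ≤ 0.38 := by linarith only [s16, s23, s27, s33, sR]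
  have f45 := d6_19 g2 s11 x2
  have f48 := d6_20 g3 s16 s6
  have f55 := d6_26 g4 s27 s32
  have f62 := d6_27 g5 s29 s26
  linarith only [f36, f45, f48, f55, f62, h5T, r, s27, s33, sR, sp, t0]

lemma l6_27 (B : Big (6 / 5) R1 R2 R3 R4 R5 tT p1 p2 p3 p4 p5 pT)
  (e : tT ≤ 2 * R5) (T3 : Test3 (1 / 3) R1 R2 R3 R4 tT) (T4 : Test4 0.1045 R2 R3 tT)
  (s6 : R3 ≤ 0.33) (s11 : 0.25 ≤ R2) (s14 : tT ≤ 0.025) (s16 : 0.235 ≤ R3) (s26 : R5 ≤ 0.016) (s29 : 0.008 ≤ R5) (s31 : R3 ≤ 0.31) (s32 : 0.016 ≤ R4) (s34 : R1 ≤ 0.38) (s35 : R4 ≤ 0.025) (s36 : R1 ≤ 0.36) : False := by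
  obtain ⟨h12, h23, h34, h45, h5T, sR, sp, g1, g2, g3, g4, g5, rest⟩ := B
  have b0 := g5.1
  have b1 := g1.2.1
  have x0 : R4 + tT ≤ 0.05 := by linarith only [s14, s35, sR]
  have t0 := T3.use h12 h23 0.36 0.235 0.05 0.025 0.5769 0.756 0.160691 s36 s16 x0 s14 (by norm_num [Dlo])
  have r := rest 0.016 3.6 (fun R p h hx => g6_12 h hx) s26
  have x1 : 0.25 ≤ R1 := by linarith only [h12, s14, s31, s35, sR]
  have f42 := d6_19 g1 x1 s34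
  have x2 : R2 ≤ 0.38 := by linarith only [h12, s36, sR]
  have f48 := d6_19 g2 s11 x2
  have f51 := d6_20 g3 s16 s6
  have x3 : R4 ≤ 0.25 := by linarith only [s35, sR]
  have f53 := d6_9 g4 s32 x3
  have f64 := d6_27 g5 s29 s26
  linarith only [f42, f48, f51, f53, f64, h5T, r, s32, sR, sp, t0]

lemma l6_28 (B : Big (6 / 5) R1 R2 R3 R4 R5 tT p1 p2 p3 p4 p5 pT)
  (e : tT ≤ 2 * R5) (T3 : Test3 (1 / 3) R1 R2 R3 R4 tT) (T4 : Test4 0.1045 R2 R3 tT)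
  (s6 : R3 ≤ 0.33) (s11 : 0.25 ≤ R2) (s14 : tT ≤ 0.025) (s16 : 0.235 ≤ R3) (s23 : 0.01 ≤ tT) (s26 : R5 ≤ 0.016) (s29 : 0.008 ≤ R5) (s32 : 0.016 ≤ R4) (s34 : R1 ≤ 0.38) (s35 : R4 ≤ 0.025) (s36 : 0.36 ≤ R1) : False := by
  obtain ⟨h12, h23, h34, h45, h5T, sR, sp, g1, g2, g3, g4, g5, rest⟩ := B
  have b0 := g5.1
  have b1 := g1.2.1
  have x0 : R4 + tT ≤ 0.05 := by linarith only [s14, s35, sR]
  have t0 := T3.use h12 h23 0.38 0.235 0.05 0.025 0.5489 0.744 0.148077 s34 s16 x0 s14 (by norm_num [Dlo])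
  have r := rest 0.016 3.6 (fun R p h hx => g6_12 h hx) s26
  have f44 := d6_24 g1 s36 g1.2.1
  have x1 : R2 ≤ 0.38 := by linarith only [h12, s16, s23, s32, sR]
  have f48 := d6_19 g2 s11 x1
  have f51 := d6_20 g3 s16 s6
  have x2 : R4 ≤ 0.25 := by linarith only [s35, sR]
  have f53 := d6_9 g4 s32 x2
  have f64 := d6_27 g5 s29 s26
  linarith only [f44, f48, f51, f53, f64, h5T, r, s32, s36, sR, sp, t0]

lemma l6_29 (B : Big (6 / 5) R1 R2 R3 R4 R5 tT p1 p2 p3 p4 p5 pT)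
  (e : tT ≤ 2 * R5) (T3 : Test3 (1 / 3) R1 R2 R3 R4 tT) (T4 : Test4 0.1045 R2 R3 tT)
  (s6 : R3 ≤ 0.33) (s11 : 0.25 ≤ R2) (s14 : tT ≤ 0.025) (s15 : R4 ≤ 0.05) (s16 : 0.235 ≤ R3) (s23 : 0.01 ≤ tT) (s26 : R5 ≤ 0.016) (s29 : 0.008 ≤ R5) (s34 : R1 ≤ 0.38) (s35 : 0.025 ≤ R4) : False := by
  obtain ⟨h12, h23, h34, h45, h5T, sR, sp, g1, g2, g3, g4, g5, rest⟩ := B
  have b0 := g5.1
  have b1 := g1.2.1
  have r := rest 0.016 3.6 (fun R p h hx => g6_12 h hx) s26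
  have x0 : 0.25 ≤ R1 := by linarith only [h12, h23, s14, s15, sR]
  have f40 := d6_19 g1 x0 s34
  have x1 : R2 ≤ 0.38 := by linarith only [h12, s16, s23, s35, sR]
  have f44 := d6_19 g2 s11 x1
  have f47 := d6_20 g3 s16 s6
  have x2 : R4 ≤ 0.14 := by linarith only [s15, sR]
  have f48 := d6_2 g4 s35 x2
  have f59 := d6_27 g5 s29 s26
  linarith only [f40, f44, f47, f48, f59, h5T, r, s23, s35, sR, sp]

lemma l6_30 (B : Big (6 / 5) R1 R2 R3 R4 R5 tT p1 p2 p3 p4 p5 pT)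
  (e : tT ≤ 2 * R5) (T3 : Test3 (1 / 3) R1 R2 R3 R4 tT) (T4 : Test4 0.1045 R2 R3 tT)
  (s6 : R3 ≤ 0.33) (s11 : 0.25 ≤ R2) (s15 : R4 ≤ 0.05) (s16 : 0.235 ≤ R3) (s23 : 0.01 ≤ tT) (s26 : R5 ≤ 0.016) (s29 : 0.008 ≤ R5) (s32 : 0.016 ≤ R4) (s34 : 0.38 ≤ R1) : False := by
  obtain ⟨h12, h23, h34, h45, h5T, sR, sp, g1, g2, g3, g4, g5, rest⟩ := B
  have b0 := g5.1
  have b1 := g1.2.1
  have r := rest 0.016 3.6 (fun R p h hx => g6_12 h hx) s26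
  have x0 : 0.22 ≤ R1 := by linarith only [s34, sR]
  have f36 := d6_0 g1 x0 g1.2.1
  have x1 : R2 ≤ 0.38 := by linarith only [s16, s23, s32, s34, sR]
  have f45 := d6_19 g2 s11 x1
  have f48 := d6_20 g3 s16 s6
  have x2 : R4 ≤ 0.25 := by linarith only [s15, sR]
  have f50 := d6_9 g4 s32 x2
  have f59 := d6_27 g5 s29 s26
  linarith only [f36, f45, f48, f50, f59, h5T, r, s23, s32, s34, sR, sp]

lemma l6_31 (B : Big (6 / 5) R1 R2 R3 R4 R5 tT p1 p2 p3 p4 p5 pT)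
  (e : tT ≤ 2 * R5) (T3 : Test3 (1 / 3) R1 R2 R3 R4 tT) (T4 : Test4 0.1045 R2 R3 tT)
  (s6 : R3 ≤ 0.33) (s11 : 0.25 ≤ R2) (s14 : tT ≤ 0.025) (s15 : R4 ≤ 0.05) (s16 : 0.235 ≤ R3) (s23 : 0.01 ≤ tT) (s26 : R5 ≤ 0.016) (s27 : 0.013 ≤ R4) (s29 : 0.008 ≤ R5) (s31 : 0.31 ≤ R3) : False := by
  obtain ⟨h12, h23, h34, h45, h5T, sR, sp, g1, g2, g3, g4, g5, rest⟩ := B
  have b0 := g5.1
  have b1 := g1.2.1
  have x0 : R1 ≤ 0.36 := by linarith only [h23, s23, s27, s31, sR]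
  have x1 : R4 + tT ≤ 0.07 := by linarith only [h12, h23, s31, sR]
  have t0 := T3.use h12 h23 0.36 0.31 0.07 0.025 0.589 0.778 0.173749 x0 s31 x1 s14 (by norm_num [Dlo])
  have r := rest 0.016 3.6 (fun R p h hx => g6_12 h hx) s26
  have x2 : 0.25 ≤ R1 := by linarith only [h12, h23, s31, sR]
  have x3 : R1 ≤ 0.38 := by linarith only [h23, s23, s27, s31, sR]
  have f38 := d6_19 g1 x2 x3
  have x4 : R2 ≤ 0.38 := by linarith only [h12, s23, s27, s31, sR]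
  have f44 := d6_19 g2 s11 x4
  have f51 := d6_20 g3 s16 s6
  have f56 := d6_25 g4 s27 s15
  have f62 := d6_27 g5 s29 s26
  linarith only [f38, f44, f51, f56, f62, h45, h5T, r, sR, sp, t0]

lemma l6_32 (B : Big (6 / 5) R1 R2 R3 R4 R5 tT p1 p2 p3 p4 p5 pT)
  (e : tT ≤ 2 * R5) (T3 : Test3 (1 / 3) R1 R2 R3 R4 tT) (T4 : Test4 0.1045 R2 R3 tT)
  (s6 : R3 ≤ 0.33) (s10 : 0.29 ≤ R1) (s11 : 0.25 ≤ R2) (s14 : tT ≤ 0.025) (s15 : R4 ≤ 0.05) (s16 : 0.235 ≤ R3) (s26 : 0.016 ≤ R5) : False := by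
  obtain ⟨h12, h23, h34, h45, h5T, sR, sp, g1, g2, g3, g4, g5, rest⟩ := B
  have b0 := g5.1
  have b1 := g1.2.1
  have x0 : R5 ≤ 0.025 := by linarith only [h5T, s14, sR]
  have r := rest 0.025 2.895 (fun R p h hx => g6_14 h hx) x0
  have x1 : R2 ≤ 0.38 := by linarith only [h12, h45, h5T, s16, s26, sR]
  have f37 := d6_19 g2 s11 x1
  have f40 := d6_20 g3 s16 s6
  have x2 : 0.016 ≤ R4 := by linarith only [h45, s26, sR]
  have x3 : R4 ≤ 0.25 := by linarith only [s15, sR]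
  have f42 := d6_9 g4 x2 x3
  have x4 : R5 ≤ 0.25 := by linarith only [h5T, s14, sR]
  have f47 := d6_9 g5 s26 x4
  have f53 := d6_28 g1 s10 g1.2.1
  linarith only [f37, f40, f42, f47, f53, h12, h23, h45, h5T, r, s26, sR, sp]

lemma l6_33 (B : Big (6 / 5) R1 R2 R3 R4 R5 tT p1 p2 p3 p4 p5 pT)
  (e : tT ≤ 2 * R5) (T3 : Test3 (1 / 3) R1 R2 R3 R4 tT) (T4 : Test4 0.1045 R2 R3 tT)
  (s2 : 0.14 ≤ R3) (s6 : R3 ≤ 0.33) (s10 : 0.29 ≤ R1) (s11 : 0.25 ≤ R2) (s13 : 0.004 ≤ tT) (s14 : tT ≤ 0.025) (s15 : 0.05 ≤ R4) : False := by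
  obtain ⟨h12, h23, h34, h45, h5T, sR, sp, g1, g2, g3, g4, g5, rest⟩ := B
  have b0 := g5.1
  have b1 := g1.2.1
  have x0 : R5 ≤ 0.025 := by linarith only [h5T, s14, sR]
  have r := rest 0.025 2.895 (fun R p h hx => g6_14 h hx) x0
  have f28 := d6_8 g1 s10 g1.2.1
  have f29 := d6_28 g1 s10 g1.2.1
  have x1 : R2 ≤ 0.41 := by linarith only [h12, s13, s15, s2, sR]
  have f37 := d6_29 g2 s11 x1
  have f38 := d6_30 g3 s2 s6
  have x2 : R4 ≤ 0.235 := by linarith only [h34, s10, s11, s13, sR]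
  have f39 := d6_31 g4 s15 x2
  have x3 : 0.002 ≤ R5 := by linarith only [e, s13, sR]
  have f40 := d6_32 g5 x3 x0
  linarith only [f28, f29, f37, f38, f39, f40, h12, h5T, r, s13, s15, sR, sp]

lemma l6_34 (B : Big (6 / 5) R1 R2 R3 R4 R5 tT p1 p2 p3 p4 p5 pT)
  (e : tT ≤ 2 * R5) (T3 : Test3 (1 / 3) R1 R2 R3 R4 tT) (T4 : Test4 0.1045 R2 R3 tT)
  (s2 : 0.14 ≤ R3) (s6 : R3 ≤ 0.33) (s8 : R5 ≤ 0.035) (s10 : 0.29 ≤ R1) (s11 : 0.25 ≤ R2) (s14 : 0.025 ≤ tT) : False := by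
  obtain ⟨h12, h23, h34, h45, h5T, sR, sp, g1, g2, g3, g4, g5, rest⟩ := B
  have b0 := g5.1
  have b1 := g1.2.1
  have r := rest 0.035 2.454 (fun R p h hx => g6_16 h hx) s8
  have f27 := d6_8 g1 s10 g1.2.1
  have f28 := d6_28 g1 s10 g1.2.1
  have f32 := d6_30 g3 s2 s6
  have x0 : R2 ≤ 0.42 := by linarith only [e, h12, h45, s14, s2, sR]
  have f37 := d6_33 g2 s11 x0
  have x1 : 0.01 ≤ R4 := by linarith only [e, h45, s14, sR]
  have x2 : R4 ≤ 0.22 := by linarith only [h34, s10, s11, s14, sR]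
  have f38 := d6_34 g4 x1 x2
  have x3 : 0.01 ≤ R5 := by linarith only [e, s14, sR]
  have f39 := d6_35 g5 x3 s8
  linarith only [f27, f28, f32, f37, f38, f39, h12, h45, h5T, r, s14, sR, sp]

lemma l6_35 (B : Big (6 / 5) R1 R2 R3 R4 R5 tT p1 p2 p3 p4 p5 pT)
  (e : tT ≤ 2 * R5) (T3 : Test3 (1 / 3) R1 R2 R3 R4 tT) (T4 : Test4 0.1045 R2 R3 tT)
  (s2 : 0.14 ≤ R3) (s6 : R3 ≤ 0.33) (s8 : 0.035 ≤ R5) : False := by
  obtain ⟨h12, h23, h34, h45, h5T, sR, sp, g1, g2, g3, g4, g5, rest⟩ := B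
  have b0 := g5.1
  have b1 := g1.2.1
  have x0 : R5 ≤ 0.21 := by linarith only [h12, h23, h34, h45, h5T, sR]
  have r := rest 0.21 1.089 (fun R p h hx => g6_30 h hx) x0
  have f22 := d6_30 g3 s2 s6
  have x1 : 0.016 ≤ R4 := by linarith only [h45, s8, sR]
  have x2 : R4 ≤ 0.25 := by linarith only [h12, h23, h34, h5T, s8, sR]
  have f23 := d6_9 g4 x1 x2
  have x3 : 0.016 ≤ R5 := by linarith only [s8, sR]
  have x4 : R5 ≤ 0.25 := by linarith only [h12, h23, h34, h45, h5T, sR]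
  have f24 := d6_9 g5 x3 x4
  have x5 : 0.16 ≤ R1 := by linarith only [e, h12, h23, h34, h45, sR]
  have f26 := d6_36 g1 x5 g1.2.1
  have x6 : 0.14 ≤ R2 := by linarith only [h23, s2, sR]
  have x7 : R2 ≤ 0.4 := by linarith only [h12, h45, h5T, s2, s8, sR]
  have f27 := d6_37 g2 x6 x7
  linarith only [f22, f23, f24, f26, f27, h12, h23, h45, h5T, r, s8, sR, sp]

lemma l6_36 (B : Big (6 / 5) R1 R2 R3 R4 R5 tT p1 p2 p3 p4 p5 pT)
  (e : tT ≤ 2 * R5) (T3 : Test3 (1 / 3) R1 R2 R3 R4 tT) (T4 : Test4 0.1045 R2 R3 tT)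
  (s3 : 0.001 ≤ R5) (s5 : 0.002 ≤ R4) (s6 : 0.33 ≤ R3) : False := by
  obtain ⟨h12, h23, h34, h45, h5T, sR, sp, g1, g2, g3, g4, g5, rest⟩ := B
  have b0 := g5.1
  have b1 := g1.2.1
  have x0 : R1 ≤ 0.34 := by linarith only [h23, h5T, s3, s5, s6, sR]
  have x1 : R4 + tT ≤ 0.01 := by linarith only [h12, h23, s6, sR]
  have x2 : tT ≤ 0.0067 := by linarith only [e, h12, h23, h45, s6, sR]
  have t1 := T3.use h12 h23 0.34 0.33 0.01 0.0067 0.7294 0.962 0.328976 x0 s6 x1 x2 (by norm_num [Dlo])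
  linarith only [e, h12, h23, h45, s6, sR, t1]

theorem k6 : K6Stmt := by
  intro R1 R2 R3 R4 R5 tT p1 p2 p3 p4 p5 pT B e T3 T4
  rcases le_total R5 0.0005 with s1 | s1
  · exact l6_0 B e T3 T4 s1
  rcases le_total R3 0.14 with s2 | s2
  · exact l6_1 B e T3 T4 s1 s2
  rcases le_total R5 0.001 with s3 | s3
  · exact l6_2 B e T3 T4 s2 s3
  rcases le_total R4 0.0015 with s4 | s4
  · exact l6_3 B e T3 T4 s2 s4
  rcases le_total R4 0.002 with s5 | s5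
  · exact l6_4 B e T3 T4 s2 s5
  rcases le_total R3 0.33 with s6 | s6
  · rcases le_total tT 0.0015 with s7 | s7
    · exact l6_5 B e T3 T4 s2 s7
    rcases le_total R5 0.035 with s8 | s8
    · rcases le_total tT 0.002 with s9 | s9
      · exact l6_6 B e T3 T4 s2 s9
      rcases le_total R1 0.29 with s10 | s10
      · exact l6_7 B e T3 T4 s1 s8 s9 s10
      rcases le_total R2 0.25 with s11 | s11
      · exact l6_8 B e T3 T4 s2 s3 s8 s9 s10 s11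
      rcases le_total tT 0.003 with s12 | s12
      · exact l6_9 B e T3 T4 s2 s11 s12
      rcases le_total tT 0.004 with s13 | s13
      · exact l6_10 B e T3 T4 s2 s11 s13
      rcases le_total tT 0.025 with s14 | s14
      · rcases le_total R4 0.05 with s15 | s15
        · rcases le_total R3 0.235 with s16 | s16
          · rcases le_total R5 0.008 with s17 | s17
            · rcases le_total R3 0.22 with s18 | s18
              · rcases le_total R3 0.21 with s19 | s19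
                · rcases le_total R3 0.195 with s20 | s20
                  · exact l6_11 B e T3 T4 s2 s3 s5 s8 s13 s15 s17 s20
                  exact l6_12 B e T3 T4 s5 s13 s15 s17 s19 s20
                rcases le_total R1 0.4 with s21 | s21
                · exact l6_13 B e T3 T4 s5 s13 s15 s17 s18 s19 s21
                exact l6_14 B e T3 T4 s5 s13 s15 s17 s18 s19 s21
              rcases le_total R1 0.41 with s22 | s22
              · exact l6_15 B e T3 T4 s5 s13 s15 s16 s17 s18 s22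
              exact l6_16 B e T3 T4 s5 s11 s13 s15 s16 s17 s18 s22
            exact l6_17 B e T3 T4 s2 s11 s14 s15 s16 s17
          rcases le_total tT 0.01 with s23 | s23
          · rcases le_total R1 0.36 with s24 | s24
            · exact l6_18 B e T3 T4 s15 s16 s23 s24
            exact l6_19 B e T3 T4 s5 s6 s11 s13 s15 s16 s23 s24
          rcases le_total R4 0.01 with s25 | s25
          · exact l6_20 B e T3 T4 s5 s6 s11 s16 s23 s25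
          rcases le_total R5 0.016 with s26 | s26
          · rcases le_total R4 0.013 with s27 | s27
            · rcases le_total R1 0.38 with s28 | s28
              · exact l6_21 B e T3 T4 s6 s11 s14 s16 s23 s25 s27 s28
              exact l6_22 B e T3 T4 s6 s11 s14 s16 s23 s25 s27 s28
            rcases le_total R5 0.008 with s29 | s29
            · rcases le_total R1 0.36 with s30 | s30
              · exact l6_23 B e T3 T4 s6 s11 s15 s16 s23 s27 s29 s30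
              exact l6_24 B e T3 T4 s6 s11 s15 s16 s23 s27 s29 s30
            rcases le_total R3 0.31 with s31 | s31
            · rcases le_total R4 0.016 with s32 | s32
              · rcases le_total R1 0.38 with s33 | s33
                · exact l6_25 B e T3 T4 s6 s11 s14 s16 s23 s26 s27 s29 s31 s32 s33
                exact l6_26 B e T3 T4 s6 s11 s14 s16 s23 s26 s27 s29 s32 s33
              rcases le_total R1 0.38 with s34 | s34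
              · rcases le_total R4 0.025 with s35 | s35
                · rcases le_total R1 0.36 with s36 | s36
                  · exact l6_27 B e T3 T4 s6 s11 s14 s16 s26 s29 s31 s32 s34 s35 s36
                  exact l6_28 B e T3 T4 s6 s11 s14 s16 s23 s26 s29 s32 s34 s35 s36
                exact l6_29 B e T3 T4 s6 s11 s14 s15 s16 s23 s26 s29 s34 s35
              exact l6_30 B e T3 T4 s6 s11 s15 s16 s23 s26 s29 s32 s34
            exact l6_31 B e T3 T4 s6 s11 s14 s15 s16 s23 s26 s27 s29 s31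
          exact l6_32 B e T3 T4 s6 s10 s11 s14 s15 s16 s26
        exact l6_33 B e T3 T4 s2 s6 s10 s11 s13 s14 s15
      exact l6_34 B e T3 T4 s2 s6 s8 s10 s11 s14
    exact l6_35 B e T3 T4 s2 s6 s8
  exact l6_36 B e T3 T4 s3 s5 s6

end Crest.Agent.Prp
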