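import Crest.Agent.Prp.TreeD7

set_option autoImplicit false
set_option linter.unusedVariables false
set_option linter.style.longLine false

namespace Crest.Agent.Prp

variable {R1 R2 R3 R4 R5 tT p1 p2 p3 p4 p5 pT : ℝ}

lemma l7_0 (B : Big 1 R1 R2 R3 R4 R5 tT p1 p2 p3 p4 p5 pT)
  (T3 : Test3 (3 / 7) R1 R2 R3 R4 tT) (T4 : Test4 0.1728 R2 R3 tT)
  (s1 : R3 ≤ 0.05) : False := by
  obtain ⟨h12, h23, h34, h45, h5T, sR, sp, g1, g2, g3, g4, g5, rest⟩ := B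
  have b0 := g5.1
  have b1 := g1.2.1
  have x0 : R5 ≤ 0.05 := by linarith only [h34, h45, s1, sR]
  have r := rest 0.05 2.089 (fun R p h hx => g7_19 h hx) x0
  have f11 := d7_0 g1 g1.1.le g1.2.1
  have f12 := d7_0 g2 g2.1.le g2.2.1
  have f13 := d7_1 g3 g3.1.le s1
  have x1 : R4 ≤ 0.05 := by linarith only [h34, s1, sR]
  have f14 := d7_1 g4 g4.1.le x1
  have f15 := d7_1 g5 g5.1.le x0
  linarith only [b0, f11, f12, f13, f14, f15, h34, h45, r, sR, sp]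

lemma l7_1 (B : Big 1 R1 R2 R3 R4 R5 tT p1 p2 p3 p4 p5 pT)
  (T3 : Test3 (3 / 7) R1 R2 R3 R4 tT) (T4 : Test4 0.1728 R2 R3 tT)
  (s3 : tT ≤ 0.0005) : False := by
  obtain ⟨h12, h23, h34, h45, h5T, sR, sp, g1, g2, g3, g4, g5, rest⟩ := B
  have b0 := g5.1
  have b1 := g1.2.1
  have x0 : 0.185 ≤ R2 := by linarith only [b1, h23, h34, s3, sR]
  have x1 : 0.055 ≤ R3 := by linarith only [b1, h12, h34, s3, sR]
  have t0 := T4.use 0.185 0.055 0.0005 0.0371 0.923 0.003368 x0 x1 s3 (by norm_num)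
  linarith only [s3, t0]

lemma l7_2 (B : Big 1 R1 R2 R3 R4 R5 tT p1 p2 p3 p4 p5 pT)
  (T3 : Test3 (3 / 7) R1 R2 R3 R4 tT) (T4 : Test4 0.1728 R2 R3 tT)
  (s5 : tT ≤ 0.001) : False := by
  obtain ⟨h12, h23, h34, h45, h5T, sR, sp, g1, g2, g3, g4, g5, rest⟩ := B
  have b0 := g5.1
  have b1 := g1.2.1
  have x0 : 0.18 ≤ R2 := by linarith only [b1, h23, h34, s5, sR]
  have x1 : 0.055 ≤ R3 := by linarith only [b1, h12, h34, s5, sR]
  have t0 := T4.use 0.18 0.055 0.001 0.0356 0.839 0.00267 x0 x1 s5 (by norm_num)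
  linarith only [s5, t0]

lemma l7_3 (B : Big 1 R1 R2 R3 R4 R5 tT p1 p2 p3 p4 p5 pT)
  (T3 : Test3 (3 / 7) R1 R2 R3 R4 tT) (T4 : Test4 0.1728 R2 R3 tT)
  (s1 : 0.05 ≤ R3) (s6 : tT ≤ 0.0015) : False := by
  obtain ⟨h12, h23, h34, h45, h5T, sR, sp, g1, g2, g3, g4, g5, rest⟩ := B
  have b0 := g5.1
  have b1 := g1.2.1
  have x0 : 0.18 ≤ R2 := by linarith only [b1, h23, h34, s6, sR]
  have t0 := T4.use 0.18 0.05 0.0015 0.0321 0.733 0.001838 x0 s1 s6 (by norm_num)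
  linarith only [s6, t0]

lemma l7_4 (B : Big 1 R1 R2 R3 R4 R5 tT p1 p2 p3 p4 p5 pT)
  (T3 : Test3 (3 / 7) R1 R2 R3 R4 tT) (T4 : Test4 0.1728 R2 R3 tT)
  (s1 : 0.05 ≤ R3) (s10 : R4 ≤ 0.07) (s11 : tT ≤ 0.002) : False := by
  obtain ⟨h12, h23, h34, h45, h5T, sR, sp, g1, g2, g3, g4, g5, rest⟩ := B
  have b0 := g5.1
  have b1 := g1.2.1
  have x0 : 0.24 ≤ R2 := by linarith only [b1, h23, s10, s11, sR]
  have t0 := T4.use 0.24 0.05 0.002 0.0431 0.735 0.002481 x0 s1 s11 (by norm_num)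
  linarith only [s11, t0]

lemma l7_5 (B : Big 1 R1 R2 R3 R4 R5 tT p1 p2 p3 p4 p5 pT)
  (T3 : Test3 (3 / 7) R1 R2 R3 R4 tT) (T4 : Test4 0.1728 R2 R3 tT)
  (s7 : tT ≤ 0.14) (s8 : R5 ≤ 0.0005) (s9 : R3 ≤ 0.31) (s10 : R4 ≤ 0.07) (s11 : 0.002 ≤ tT) (s12 : R1 ≤ 0.31) : False := by
  obtain ⟨h12, h23, h34, h45, h5T, sR, sp, g1, g2, g3, g4, g5, rest⟩ := B
  have b0 := g5.1
  have b1 := g1.2.1
  have r := rest 0.0005 18.659 (fun R p h hx => g7_1 h hx) s8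
  have x0 : R5 ≤ 0.05 := by linarith only [s8, sR]
  have f27 := d7_1 g5 g5.1.le x0
  have x1 : 0.25 ≤ R1 := by linarith only [h12, h23, s10, s7, sR]
  have f28 := d7_2 g1 x1 s12
  have x2 : 0.235 ≤ R2 := by linarith only [h23, s10, s12, s7, sR]
  have x3 : R2 ≤ 0.31 := by linarith only [h12, s12, sR]
  have f29 := d7_3 g2 x2 x3
  have x4 : 0.16 ≤ R3 := by linarith only [h12, s10, s12, s7, sR]
  have f30 := d7_4 g3 x4 s9
  have f31 := d7_5 g4 g4.1.le s10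
  linarith only [f27, f28, f29, f30, f31, h12, r, s11, s12, s8, s9, sR, sp]

lemma l7_6 (B : Big 1 R1 R2 R3 R4 R5 tT p1 p2 p3 p4 p5 pT)
  (T3 : Test3 (3 / 7) R1 R2 R3 R4 tT) (T4 : Test4 0.1728 R2 R3 tT)
  (s7 : tT ≤ 0.14) (s8 : R5 ≤ 0.0005) (s10 : R4 ≤ 0.07) (s11 : 0.002 ≤ tT) (s13 : R2 ≤ 0.25) : False := by
  obtain ⟨h12, h23, h34, h45, h5T, sR, sp, g1, g2, g3, g4, g5, rest⟩ := B
  have b0 := g5.1
  have b1 := g1.2.1
  have r := rest 0.0005 18.659 (fun R p h hx => g7_1 h hx) s8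
  have f23 := d7_0 g1 g1.1.le g1.2.1
  have x0 : 0.16 ≤ R2 := by linarith only [b1, h23, s10, s7, sR]
  have x1 : R2 ≤ 0.31 := by linarith only [s13, sR]
  have f25 := d7_4 g2 x0 x1
  have f28 := d7_5 g4 g4.1.le s10
  have x2 : R5 ≤ 0.05 := by linarith only [s8, sR]
  have f30 := d7_1 g5 g5.1.le x2
  have x3 : 0.09 ≤ R3 := by linarith only [b1, s10, s13, s7, sR]
  have x4 : R3 ≤ 0.25 := by linarith only [h23, s13, sR]
  have f32 := d7_6 g3 x3 x4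
  linarith only [f23, f25, f28, f30, f32, h23, r, s10, s11, s13, s8, sR, sp]

lemma l7_7 (B : Big 1 R1 R2 R3 R4 R5 tT p1 p2 p3 p4 p5 pT)
  (T3 : Test3 (3 / 7) R1 R2 R3 R4 tT) (T4 : Test4 0.1728 R2 R3 tT)
  (s1 : 0.05 ≤ R3) (s8 : R5 ≤ 0.0005) (s10 : R4 ≤ 0.07) (s11 : 0.002 ≤ tT) (s13 : 0.25 ≤ R2) (s14 : R3 ≤ 0.18) : False := by
  obtain ⟨h12, h23, h34, h45, h5T, sR, sp, g1, g2, g3, g4, g5, rest⟩ := B
  have b0 := g5.1
  have b1 := g1.2.1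
  have r := rest 0.0005 18.659 (fun R p h hx => g7_1 h hx) s8
  have f24 := d7_0 g1 g1.1.le g1.2.1
  have f28 := d7_5 g4 g4.1.le s10
  have x0 : R5 ≤ 0.05 := by linarith only [s8, sR]
  have f30 := d7_1 g5 g5.1.le x0
  have f32 := d7_7 g2 s13 g2.2.1
  have f33 := d7_8 g3 s1 s14
  linarith only [f24, f28, f30, f32, f33, h12, r, s10, s11, s14, s8, sR, sp]

lemma l7_8 (B : Big 1 R1 R2 R3 R4 R5 tT p1 p2 p3 p4 p5 pT)
  (T3 : Test3 (3 / 7) R1 R2 R3 R4 tT) (T4 : Test4 0.1728 R2 R3 tT)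
  (s8 : R5 ≤ 0.0005) (s10 : R4 ≤ 0.07) (s11 : 0.002 ≤ tT) (s13 : 0.25 ≤ R2) (s14 : 0.18 ≤ R3) (s15 : tT ≤ 0.01) (s16 : R3 ≤ 0.235) : False := by
  obtain ⟨h12, h23, h34, h45, h5T, sR, sp, g1, g2, g3, g4, g5, rest⟩ := B
  have b0 := g5.1
  have b1 := g1.2.1
  have t0 := T4.use 0.25 0.18 0.01 0.1308 0.564 0.004434 s13 s14 s15 (by norm_num)
  have r := rest 0.0005 18.659 (fun R p h hx => g7_1 h hx) s8
  have x0 : 0.25 ≤ R1 := by linarith only [h12, s10, s15, s16, sR]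
  have f28 := d7_7 g1 x0 g1.2.1
  have x1 : 0.09 ≤ R3 := by linarith only [s14, sR]
  have x2 : R3 ≤ 0.25 := by linarith only [s16, sR]
  have f33 := d7_6 g3 x1 x2
  have f35 := d7_5 g4 g4.1.le s10
  have x3 : R5 ≤ 0.05 := by linarith only [s8, sR]
  have f37 := d7_1 g5 g5.1.le x3
  have x4 : R2 ≤ 0.41 := by linarith only [b0, h12, h45, s11, s14, sR]
  have f39 := d7_9 g2 s13 x4
  linarith only [f28, f33, f35, f37, f39, h12, h45, r, s16, s8, sR, sp, t0]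

lemma l7_9 (B : Big 1 R1 R2 R3 R4 R5 tT p1 p2 p3 p4 p5 pT)
  (T3 : Test3 (3 / 7) R1 R2 R3 R4 tT) (T4 : Test4 0.1728 R2 R3 tT)
  (s8 : R5 ≤ 0.0005) (s9 : R3 ≤ 0.31) (s10 : R4 ≤ 0.07) (s11 : 0.002 ≤ tT) (s12 : 0.31 ≤ R1) (s13 : 0.25 ≤ R2) (s15 : tT ≤ 0.01) (s16 : 0.235 ≤ R3) : False := by
  obtain ⟨h12, h23, h34, h45, h5T, sR, sp, g1, g2, g3, g4, g5, rest⟩ := B
  have b0 := g5.1
  have b1 := g1.2.1
  have x0 : R4 + tT ≤ 0.08 := by linarith only [s10, s15, sR]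
  have t1 := T3.use h12 h23 (4 / 9) 0.235 0.08 0.01 0.3733 0.71 0.151604 b1 s16 x0 s15 (by norm_num [Dlo])
  have r := rest 0.0005 18.659 (fun R p h hx => g7_1 h hx) s8
  have x1 : 0.25 ≤ R1 := by linarith only [s12, sR]
  have f29 := d7_7 g1 x1 g1.2.1
  have x2 : R2 ≤ 0.41 := by linarith only [b0, h12, h45, s11, s16, sR]
  have f32 := d7_9 g2 s13 x2
  have f34 := d7_3 g3 s16 s9
  have f37 := d7_5 g4 g4.1.le s10
  have x3 : R5 ≤ 0.05 := by linarith only [s8, sR]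
  have f39 := d7_1 g5 g5.1.le x3
  linarith only [f29, f32, f34, f37, f39, h23, r, s10, s12, s8, sR, sp, t1]

lemma l7_10 (B : Big 1 R1 R2 R3 R4 R5 tT p1 p2 p3 p4 p5 pT)
  (T3 : Test3 (3 / 7) R1 R2 R3 R4 tT) (T4 : Test4 0.1728 R2 R3 tT)
  (s8 : R5 ≤ 0.0005) (s9 : R3 ≤ 0.31) (s10 : R4 ≤ 0.07) (s12 : 0.31 ≤ R1) (s13 : 0.25 ≤ R2) (s14 : 0.18 ≤ R3) (s15 : 0.01 ≤ tT) : False := by
  obtain ⟨h12, h23, h34, h45, h5T, sR, sp, g1, g2, g3, g4, g5, rest⟩ := B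
  have b0 := g5.1
  have b1 := g1.2.1
  have r := rest 0.0005 18.659 (fun R p h hx => g7_1 h hx) s8
  have x0 : 0.25 ≤ R1 := by linarith only [s12, sR]
  have f26 := d7_7 g1 x0 g1.2.1
  have x1 : R2 ≤ 0.41 := by linarith only [b0, h12, h45, s14, s15, sR]
  have f29 := d7_9 g2 s13 x1
  have x2 : 0.16 ≤ R3 := by linarith only [s14, sR]
  have f31 := d7_4 g3 x2 s9
  have f33 := d7_5 g4 g4.1.le s10
  have x3 : R5 ≤ 0.05 := by linarith only [s8, sR]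
  have f35 := d7_1 g5 g5.1.le x3
  linarith only [f26, f29, f31, f33, f35, h12, h45, r, s15, s8, s9, sR, sp]

lemma l7_11 (B : Big 1 R1 R2 R3 R4 R5 tT p1 p2 p3 p4 p5 pT)
  (T3 : Test3 (3 / 7) R1 R2 R3 R4 tT) (T4 : Test4 0.1728 R2 R3 tT)
  (s6 : 0.0015 ≤ tT) (s7 : tT ≤ 0.14) (s8 : R5 ≤ 0.0005) (s9 : R3 ≤ 0.31) (s10 : 0.07 ≤ R4) : False := by
  obtain ⟨h12, h23, h34, h45, h5T, sR, sp, g1, g2, g3, g4, g5, rest⟩ := B
  have b0 := g5.1
  have b1 := g1.2.1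
  have r := rest 0.0005 18.659 (fun R p h hx => g7_1 h hx) s8
  have f21 := d7_0 g2 g2.1.le g2.2.1
  have x0 : 0.21 ≤ R1 := by linarith only [h12, h23, h34, s7, sR]
  have f27 := d7_10 g1 x0 g1.2.1
  have x1 : 0.12 ≤ R2 := by linarith only [b1, h23, h34, s7, sR]
  have x2 : R2 ≤ 0.43 := by linarith only [h12, h34, s10, s6, sR]
  have f28 := d7_11 g2 x1 x2
  have x3 : 0.07 ≤ R3 := by linarith only [h34, s10, sR]
  have f29 := d7_12 g3 x3 s9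
  have x4 : R4 ≤ 0.25 := by linarith only [h12, h23, h34, s6, sR]
  have f30 := d7_13 g4 s10 x4
  have f31 := d7_14 g5 g5.1.le s8
  linarith only [f21, f27, f28, f29, f30, f31, h12, r, s10, s6, sR, sp]

lemma l7_12 (B : Big 1 R1 R2 R3 R4 R5 tT p1 p2 p3 p4 p5 pT)
  (T3 : Test3 (3 / 7) R1 R2 R3 R4 tT) (T4 : Test4 0.1728 R2 R3 tT)
  (s2 : R3 ≤ 0.33) (s6 : 0.0015 ≤ tT) (s8 : R5 ≤ 0.0005) (s9 : 0.31 ≤ R3) : False := by
  obtain ⟨h12, h23, h34, h45, h5T, sR, sp, g1, g2, g3, g4, g5, rest⟩ := B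
  have b0 := g5.1
  have b1 := g1.2.1
  have x0 : R1 ≤ 0.38 := by linarith only [b0, h23, h45, s6, s9, sR]
  have x1 : R4 + tT ≤ 0.07 := by linarith only [h12, h23, s9, sR]
  have x2 : tT ≤ 0.07 := by linarith only [b0, h12, h23, h45, s9, sR]
  have t0 := T3.use h12 h23 0.38 0.31 0.07 0.07 0.5806 0.526 0.129415 x0 s9 x1 x2 (by norm_num [Dlo])
  have r := rest 0.0005 18.659 (fun R p h hx => g7_1 h hx) s8
  have x3 : 0.12 ≤ R1 := by linarith only [h12, h23, s9, sR]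
  have x4 : R1 ≤ 0.43 := by linarith only [b0, h23, h45, s6, s9, sR]
  have f24 := d7_11 g1 x3 x4
  have x5 : 0.12 ≤ R2 := by linarith only [h23, s9, sR]
  have x6 : R2 ≤ 0.43 := by linarith only [b0, h12, h45, s6, s9, sR]
  have f29 := d7_11 g2 x5 x6
  have x7 : 0.12 ≤ R3 := by linarith only [s9, sR]
  have x8 : R3 ≤ 0.43 := by linarith only [s2, sR]
  have f34 := d7_11 g3 x7 x8
  have x9 : R4 ≤ 0.07 := by linarith only [h12, h23, s6, s9, sR]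
  have f36 := d7_5 g4 g4.1.le x9
  have f40 := d7_14 g5 g5.1.le s8
  linarith only [f24, f29, f34, f36, f40, h12, h23, r, s9, sR, sp, t0]

lemma l7_13 (B : Big 1 R1 R2 R3 R4 R5 tT p1 p2 p3 p4 p5 pT)
  (T3 : Test3 (3 / 7) R1 R2 R3 R4 tT) (T4 : Test4 0.1728 R2 R3 tT)
  (s4 : R5 ≤ 0.03) (s6 : 0.0015 ≤ tT) (s7 : tT ≤ 0.14) (s8 : 0.0005 ≤ R5) (s17 : R1 ≤ 0.27) : False := by
  obtain ⟨h12, h23, h34, h45, h5T, sR, sp, g1, g2, g3, g4, g5, rest⟩ := B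
  have b0 := g5.1
  have b1 := g1.2.1
  have r := rest 0.03 2.658 (fun R p h hx => g7_15 h hx) s4
  have x0 : 0.16 ≤ R1 := by linarith only [h12, h23, h34, s7, sR]
  have x1 : R1 ≤ 0.31 := by linarith only [s17, sR]
  have f20 := d7_4 g1 x0 x1
  have x2 : 0.16 ≤ R2 := by linarith only [h23, h34, s17, s7, sR]
  have x3 : R2 ≤ 0.31 := by linarith only [h12, s17, sR]
  have f25 := d7_4 g2 x2 x3
  have x4 : 0.16 ≤ R3 := by linarith only [h12, h34, s17, s7, sR]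
  have x5 : R3 ≤ 0.31 := by linarith only [h12, h23, s17, sR]
  have f29 := d7_4 g3 x4 x5
  have x6 : 0.05 ≤ R4 := by linarith only [h12, h23, s17, s7, sR]
  have x7 : R4 ≤ 0.25 := by linarith only [h12, h23, h34, s6, sR]
  have f36 := d7_15 g4 x6 x7
  have f37 := d7_16 g5 s8 s4
  linarith only [f20, f25, f29, f36, f37, h12, h23, h5T, r, s17, s6, sR, sp]

lemma l7_14 (B : Big 1 R1 R2 R3 R4 R5 tT p1 p2 p3 p4 p5 pT)
  (T3 : Test3 (3 / 7) R1 R2 R3 R4 tT) (T4 : Test4 0.1728 R2 R3 tT)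
  (s1 : 0.05 ≤ R3) (s4 : R5 ≤ 0.03) (s6 : 0.0015 ≤ tT) (s7 : tT ≤ 0.14) (s8 : 0.0005 ≤ R5) (s18 : R3 ≤ 0.18) (s19 : R4 ≤ 0.07) : False := by
  obtain ⟨h12, h23, h34, h45, h5T, sR, sp, g1, g2, g3, g4, g5, rest⟩ := B
  have b0 := g5.1
  have b1 := g1.2.1
  have r := rest 0.03 2.658 (fun R p h hx => g7_15 h hx) s4
  have x0 : 0.25 ≤ R1 := by linarith only [h12, s18, s19, s7, sR]
  have f22 := d7_7 g1 x0 g1.2.1
  have f26 := d7_8 g3 s1 s18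
  have f33 := d7_16 g5 s8 s4
  have x1 : 0.16 ≤ R2 := by linarith only [b1, h23, s19, s7, sR]
  have f34 := d7_17 g2 x1 g2.2.1
  have x2 : 0.0005 ≤ R4 := by linarith only [h45, s8, sR]
  have f35 := d7_18 g4 x2 s19
  linarith only [f22, f26, f33, f34, f35, h45, h5T, r, s18, s6, sR, sp]

lemma l7_15 (B : Big 1 R1 R2 R3 R4 R5 tT p1 p2 p3 p4 p5 pT)
  (T3 : Test3 (3 / 7) R1 R2 R3 R4 tT) (T4 : Test4 0.1728 R2 R3 tT)
  (s4 : R5 ≤ 0.03) (s6 : 0.0015 ≤ tT) (s7 : tT ≤ 0.14) (s8 : 0.0005 ≤ R5) (s17 : 0.27 ≤ R1) (s18 : R3 ≤ 0.18) (s19 : 0.07 ≤ R4) : False := by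
  obtain ⟨h12, h23, h34, h45, h5T, sR, sp, g1, g2, g3, g4, g5, rest⟩ := B
  have b0 := g5.1
  have b1 := g1.2.1
  have r := rest 0.03 2.658 (fun R p h hx => g7_15 h hx) s4
  have x0 : 0.21 ≤ R1 := by linarith only [s17, sR]
  have f23 := d7_10 g1 x0 g1.2.1
  have x1 : 0.12 ≤ R2 := by linarith only [b1, h23, h34, s7, sR]
  have x2 : R2 ≤ 0.43 := by linarith only [h12, h34, s19, s6, sR]
  have f26 := d7_11 g2 x1 x2
  have f40 := d7_16 g5 s8 s4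
  have f42 := d7_19 g1 s17 g1.2.1
  have x3 : 0.07 ≤ R3 := by linarith only [h34, s19, sR]
  have f43 := d7_20 g3 x3 s18
  have x4 : R4 ≤ 0.18 := by linarith only [h34, s18, sR]
  have f44 := d7_20 g4 s19 x4
  linarith only [f23, f26, f40, f42, f43, f44, h12, h5T, r, s6, sR, sp]

lemma l7_16 (B : Big 1 R1 R2 R3 R4 R5 tT p1 p2 p3 p4 p5 pT)
  (T3 : Test3 (3 / 7) R1 R2 R3 R4 tT) (T4 : Test4 0.1728 R2 R3 tT)
  (s18 : 0.18 ≤ R3) (s20 : tT ≤ 0.002) : False := by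
  obtain ⟨h12, h23, h34, h45, h5T, sR, sp, g1, g2, g3, g4, g5, rest⟩ := B
  have b0 := g5.1
  have b1 := g1.2.1
  have x0 : 0.18 ≤ R2 := by linarith only [b1, h23, h34, s20, sR]
  have t0 := T4.use 0.18 0.18 0.002 0.0943 0.879 0.007765 x0 s18 s20 (by norm_num)
  linarith only [s20, t0]

lemma l7_17 (B : Big 1 R1 R2 R3 R4 R5 tT p1 p2 p3 p4 p5 pT)
  (T3 : Test3 (3 / 7) R1 R2 R3 R4 tT) (T4 : Test4 0.1728 R2 R3 tT)
  (s18 : 0.18 ≤ R3) (s21 : tT ≤ 0.003) : False := by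
  obtain ⟨h12, h23, h34, h45, h5T, sR, sp, g1, g2, g3, g4, g5, rest⟩ := B
  have b0 := g5.1
  have b1 := g1.2.1
  have x0 : 0.18 ≤ R2 := by linarith only [b1, h23, h34, s21, sR]
  have t0 := T4.use 0.18 0.18 0.003 0.0929 0.815 0.006577 x0 s18 s21 (by norm_num)
  linarith only [s21, t0]

lemma l7_18 (B : Big 1 R1 R2 R3 R4 R5 tT p1 p2 p3 p4 p5 pT)
  (T3 : Test3 (3 / 7) R1 R2 R3 R4 tT) (T4 : Test4 0.1728 R2 R3 tT)
  (s18 : 0.18 ≤ R3) (s22 : tT ≤ 0.004) : False := by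
  obtain ⟨h12, h23, h34, h45, h5T, sR, sp, g1, g2, g3, g4, g5, rest⟩ := B
  have b0 := g5.1
  have b1 := g1.2.1
  have x0 : 0.18 ≤ R2 := by linarith only [b1, h23, h34, s22, sR]
  have t0 := T4.use 0.18 0.18 0.004 0.0915 0.75 0.005485 x0 s18 s22 (by norm_num)
  linarith only [s22, t0]

lemma l7_19 (B : Big 1 R1 R2 R3 R4 R5 tT p1 p2 p3 p4 p5 pT)
  (T3 : Test3 (3 / 7) R1 R2 R3 R4 tT) (T4 : Test4 0.1728 R2 R3 tT)
  (s18 : 0.18 ≤ R3) (s25 : R4 ≤ 0.06) (s26 : tT ≤ 0.005) : False := by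
  obtain ⟨h12, h23, h34, h45, h5T, sR, sp, g1, g2, g3, g4, g5, rest⟩ := B
  have b0 := g5.1
  have b1 := g1.2.1
  have x0 : 0.245 ≤ R2 := by linarith only [b1, h23, s25, s26, sR]
  have t0 := T4.use 0.245 0.18 0.005 0.1356 0.789 0.008997 x0 s18 s26 (by norm_num)
  linarith only [s26, t0]

lemma l7_20 (B : Big 1 R1 R2 R3 R4 R5 tT p1 p2 p3 p4 p5 pT)
  (T3 : Test3 (3 / 7) R1 R2 R3 R4 tT) (T4 : Test4 0.1728 R2 R3 tT)
  (s18 : 0.18 ≤ R3) (s25 : R4 ≤ 0.06) (s27 : tT ≤ 0.006) : False := by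
  obtain ⟨h12, h23, h34, h45, h5T, sR, sp, g1, g2, g3, g4, g5, rest⟩ := B
  have b0 := g5.1
  have b1 := g1.2.1
  have x0 : 0.24 ≤ R2 := by linarith only [b1, h23, s25, s27, sR]
  have t0 := T4.use 0.24 0.18 0.006 0.1304 0.737 0.007549 x0 s18 s27 (by norm_num)
  linarith only [s27, t0]

lemma l7_21 (B : Big 1 R1 R2 R3 R4 R5 tT p1 p2 p3 p4 p5 pT)
  (T3 : Test3 (3 / 7) R1 R2 R3 R4 tT) (T4 : Test4 0.1728 R2 R3 tT)
  (s4 : R5 ≤ 0.03) (s8 : 0.0005 ≤ R5) (s18 : 0.18 ≤ R3) (s23 : R5 ≤ 0.003) (s24 : R3 ≤ 0.31) (s27 : 0.006 ≤ tT) (s28 : R4 ≤ 0.016) (s29 : tT ≤ 0.02) : False := by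
  obtain ⟨h12, h23, h34, h45, h5T, sR, sp, g1, g2, g3, g4, g5, rest⟩ := B
  have b0 := g5.1
  have b1 := g1.2.1
  have x0 : R4 + tT ≤ 0.036 := by linarith only [s28, s29, sR]
  have t0 := T3.use h12 h23 (4 / 9) 0.18 0.036 0.02 0.4012 0.694 0.155674 b1 s18 x0 s29 (by norm_num [Dlo])
  have r := rest 0.003 8.15 (fun R p h hx => g7_5 h hx) s23
  have x1 : 0.21 ≤ R1 := by linarith only [h12, s24, s28, s29, sR]
  have f33 := d7_10 g1 x1 g1.2.1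
  have x2 : 0.12 ≤ R2 := by linarith only [b1, h23, s28, s29, sR]
  have x3 : R2 ≤ 0.43 := by linarith only [h12, h45, s18, s27, s8, sR]
  have f40 := d7_11 g2 x2 x3
  have x4 : 0.16 ≤ R3 := by linarith only [s18, sR]
  have f43 := d7_4 g3 x4 s24
  have x5 : 0.07 ≤ R3 := by linarith only [s18, sR]
  have f45 := d7_12 g3 x5 s24
  have x6 : 0.0005 ≤ R4 := by linarith only [h45, s8, sR]
  have x7 : R4 ≤ 0.03 := by linarith only [s28, sR]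
  have f50 := d7_16 g4 x6 x7
  have f55 := d7_16 g5 s8 s4
  linarith only [f33, f40, f43, f45, f50, f55, h12, h45, r, s23, sR, sp, t0]

lemma l7_22 (B : Big 1 R1 R2 R3 R4 R5 tT p1 p2 p3 p4 p5 pT)
  (T3 : Test3 (3 / 7) R1 R2 R3 R4 tT) (T4 : Test4 0.1728 R2 R3 tT)
  (s4 : R5 ≤ 0.03) (s7 : tT ≤ 0.14) (s8 : 0.0005 ≤ R5) (s18 : 0.18 ≤ R3) (s23 : R5 ≤ 0.003) (s24 : R3 ≤ 0.31) (s28 : R4 ≤ 0.016) (s29 : 0.02 ≤ tT) : False := by
  obtain ⟨h12, h23, h34, h45, h5T, sR, sp, g1, g2, g3, g4, g5, rest⟩ := B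
  have b0 := g5.1
  have b1 := g1.2.1
  have r := rest 0.003 8.15 (fun R p h hx => g7_5 h hx) s23
  have x0 : 0.21 ≤ R1 := by linarith only [h12, h23, s28, s7, sR]
  have f32 := d7_10 g1 x0 g1.2.1
  have x1 : 0.12 ≤ R2 := by linarith only [b1, h23, s28, s7, sR]
  have x2 : R2 ≤ 0.43 := by linarith only [h12, h45, s18, s29, s8, sR]
  have f36 := d7_11 g2 x1 x2
  have x3 : 0.16 ≤ R3 := by linarith only [s18, sR]
  have f39 := d7_4 g3 x3 s24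
  have x4 : 0.07 ≤ R3 := by linarith only [s18, sR]
  have f41 := d7_12 g3 x4 s24
  have x5 : 0.0005 ≤ R4 := by linarith only [h45, s8, sR]
  have x6 : R4 ≤ 0.03 := by linarith only [s28, sR]
  have f46 := d7_16 g4 x5 x6
  have f51 := d7_16 g5 s8 s4
  linarith only [f32, f36, f39, f41, f46, f51, h12, h45, r, s23, s29, sR, sp]

lemma l7_23 (B : Big 1 R1 R2 R3 R4 R5 tT p1 p2 p3 p4 p5 pT)
  (T3 : Test3 (3 / 7) R1 R2 R3 R4 tT) (T4 : Test4 0.1728 R2 R3 tT)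
  (s4 : R5 ≤ 0.03) (s7 : tT ≤ 0.14) (s8 : 0.0005 ≤ R5) (s17 : 0.27 ≤ R1) (s18 : 0.18 ≤ R3) (s23 : R5 ≤ 0.003) (s25 : R4 ≤ 0.06) (s27 : 0.006 ≤ tT) (s28 : 0.016 ≤ R4) (s30 : R3 ≤ 0.235) : False := by
  obtain ⟨h12, h23, h34, h45, h5T, sR, sp, g1, g2, g3, g4, g5, rest⟩ := B
  have b0 := g5.1
  have b1 := g1.2.1
  have r := rest 0.003 8.15 (fun R p h hx => g7_5 h hx) s23
  have x0 : 0.25 ≤ R1 := by linarith only [h12, s25, s30, s7, sR]
  have f31 := d7_7 g1 x0 g1.2.1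
  have f34 := d7_19 g1 s17 g1.2.1
  have x1 : 0.09 ≤ R3 := by linarith only [s18, sR]
  have x2 : R3 ≤ 0.25 := by linarith only [s30, sR]
  have f40 := d7_6 g3 x1 x2
  have f52 := d7_16 g5 s8 s4
  have x3 : 0.18 ≤ R2 := by linarith only [h23, s18, sR]
  have x4 : R2 ≤ 0.4 := by linarith only [h12, s18, s27, s28, sR]
  have f54 := d7_21 g2 x3 x4
  have f55 := d7_22 g4 s28 s25
  linarith only [f31, f34, f40, f52, f54, f55, r, s23, s27, s28, s30, sR, sp]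

lemma l7_24 (B : Big 1 R1 R2 R3 R4 R5 tT p1 p2 p3 p4 p5 pT)
  (T3 : Test3 (3 / 7) R1 R2 R3 R4 tT) (T4 : Test4 0.1728 R2 R3 tT)
  (s25 : R4 ≤ 0.06) (s30 : 0.235 ≤ R3) (s31 : tT ≤ 0.008) : False := by
  obtain ⟨h12, h23, h34, h45, h5T, sR, sp, g1, g2, g3, g4, g5, rest⟩ := B
  have b0 := g5.1
  have b1 := g1.2.1
  have x0 : R4 + tT ≤ 0.068 := by linarith only [s25, s31, sR]
  have t1 := T3.use h12 h23 (4 / 9) 0.235 0.068 0.008 0.4073 0.779 0.199125 b1 s30 x0 s31 (by norm_num [Dlo])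
  linarith only [s25, s31, t1]

lemma l7_25 (B : Big 1 R1 R2 R3 R4 R5 tT p1 p2 p3 p4 p5 pT)
  (T3 : Test3 (3 / 7) R1 R2 R3 R4 tT) (T4 : Test4 0.1728 R2 R3 tT)
  (s8 : 0.0005 ≤ R5) (s17 : 0.27 ≤ R1) (s23 : R5 ≤ 0.003) (s24 : R3 ≤ 0.31) (s25 : R4 ≤ 0.06) (s28 : 0.016 ≤ R4) (s30 : 0.235 ≤ R3) (s31 : 0.008 ≤ tT) : False := by
  obtain ⟨h12, h23, h34, h45, h5T, sR, sp, g1, g2, g3, g4, g5, rest⟩ := B
  have b0 := g5.1
  have b1 := g1.2.1
  have r := rest 0.003 8.15 (fun R p h hx => g7_5 h hx) s23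
  have x0 : 0.21 ≤ R1 := by linarith only [s17, sR]
  have f33 := d7_10 g1 x0 g1.2.1
  have x1 : 0.12 ≤ R2 := by linarith only [h23, s30, sR]
  have x2 : R2 ≤ 0.43 := by linarith only [h12, s28, s30, s31, sR]
  have f38 := d7_11 g2 x1 x2
  have f42 := d7_3 g3 s30 s24
  have f52 := d7_22 g4 s28 s25
  have f58 := d7_23 g5 s8 s23
  linarith only [f33, f38, f42, f52, f58, h12, r, s23, s24, s28, s31, sR, sp]

lemma l7_26 (B : Big 1 R1 R2 R3 R4 R5 tT p1 p2 p3 p4 p5 pT)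
  (T3 : Test3 (3 / 7) R1 R2 R3 R4 tT) (T4 : Test4 0.1728 R2 R3 tT)
  (s8 : 0.0005 ≤ R5) (s17 : 0.27 ≤ R1) (s18 : 0.18 ≤ R3) (s22 : 0.004 ≤ tT) (s23 : R5 ≤ 0.003) (s24 : R3 ≤ 0.31) (s25 : 0.06 ≤ R4) : False := by
  obtain ⟨h12, h23, h34, h45, h5T, sR, sp, g1, g2, g3, g4, g5, rest⟩ := B
  have b0 := g5.1
  have b1 := g1.2.1
  have r := rest 0.003 8.15 (fun R p h hx => g7_5 h hx) s23
  have x0 : 0.21 ≤ R1 := by linarith only [s17, sR]
  have f28 := d7_10 g1 x0 g1.2.1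
  have x1 : 0.12 ≤ R2 := by linarith only [h23, s18, sR]
  have x2 : R2 ≤ 0.43 := by linarith only [h12, s18, s22, s25, sR]
  have f32 := d7_11 g2 x1 x2
  have x3 : 0.16 ≤ R3 := by linarith only [s18, sR]
  have f36 := d7_4 g3 x3 s24
  have x4 : 0.05 ≤ R4 := by linarith only [s25, sR]
  have x5 : R4 ≤ 0.25 := by linarith only [h23, h34, s17, s22, sR]
  have f42 := d7_15 g4 x4 x5
  have f48 := d7_23 g5 s8 s23
  have f49 := d7_24 g1 s17 g1.2.1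
  linarith only [f28, f32, f36, f42, f48, f49, h23, r, s22, s23, s25, sR, sp]

lemma l7_27 (B : Big 1 R1 R2 R3 R4 R5 tT p1 p2 p3 p4 p5 pT)
  (T3 : Test3 (3 / 7) R1 R2 R3 R4 tT) (T4 : Test4 0.1728 R2 R3 tT)
  (s8 : 0.0005 ≤ R5) (s17 : 0.27 ≤ R1) (s22 : 0.004 ≤ tT) (s23 : R5 ≤ 0.003) (s24 : 0.31 ≤ R3) : False := by
  obtain ⟨h12, h23, h34, h45, h5T, sR, sp, g1, g2, g3, g4, g5, rest⟩ := B
  have b0 := g5.1
  have b1 := g1.2.1
  have x0 : R1 ≤ 0.38 := by linarith only [h23, h45, s22, s24, s8, sR]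
  have x1 : R4 + tT ≤ 0.07 := by linarith only [h12, h23, s24, sR]
  have x2 : tT ≤ 0.07 := by linarith only [h12, h23, h45, s24, s8, sR]
  have t0 := T3.use h12 h23 0.38 0.31 0.07 0.07 0.5806 0.526 0.129415 x0 s24 x1 x2 (by norm_num [Dlo])
  have r := rest 0.003 8.15 (fun R p h hx => g7_5 h hx) s23
  have f34 := d7_24 g1 s17 g1.2.1
  have x3 : 0.27 ≤ R2 := by linarith only [h23, s24, sR]
  have f43 := d7_24 g2 x3 g2.2.1
  have x4 : 0.27 ≤ R3 := by linarith only [s24, sR]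
  have f52 := d7_24 g3 x4 g3.2.1
  have x5 : 0.0005 ≤ R4 := by linarith only [h45, s8, sR]
  have x6 : R4 ≤ 0.07 := by linarith only [h12, h23, s22, s24, sR]
  have f55 := d7_18 g4 x5 x6
  have f61 := d7_23 g5 s8 s23
  linarith only [f34, f43, f52, f55, f61, h45, r, s23, sR, sp, t0]

lemma l7_28 (B : Big 1 R1 R2 R3 R4 R5 tT p1 p2 p3 p4 p5 pT)
  (T3 : Test3 (3 / 7) R1 R2 R3 R4 tT) (T4 : Test4 0.1728 R2 R3 tT)
  (s18 : 0.18 ≤ R3) (s32 : R4 ≤ 0.06) (s33 : tT ≤ 0.005) : False := by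
  obtain ⟨h12, h23, h34, h45, h5T, sR, sp, g1, g2, g3, g4, g5, rest⟩ := B
  have b0 := g5.1
  have b1 := g1.2.1
  have x0 : 0.245 ≤ R2 := by linarith only [b1, h23, s32, s33, sR]
  have t0 := T4.use 0.245 0.18 0.005 0.1356 0.789 0.008997 x0 s18 s33 (by norm_num)
  linarith only [s33, t0]

lemma l7_29 (B : Big 1 R1 R2 R3 R4 R5 tT p1 p2 p3 p4 p5 pT)
  (T3 : Test3 (3 / 7) R1 R2 R3 R4 tT) (T4 : Test4 0.1728 R2 R3 tT)
  (s18 : 0.18 ≤ R3) (s32 : R4 ≤ 0.06) (s34 : tT ≤ 0.006) : False := by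
  obtain ⟨h12, h23, h34, h45, h5T, sR, sp, g1, g2, g3, g4, g5, rest⟩ := B
  have b0 := g5.1
  have b1 := g1.2.1
  have x0 : 0.24 ≤ R2 := by linarith only [b1, h23, s32, s34, sR]
  have t0 := T4.use 0.24 0.18 0.006 0.1304 0.737 0.007549 x0 s18 s34 (by norm_num)
  linarith only [s34, t0]

lemma l7_30 (B : Big 1 R1 R2 R3 R4 R5 tT p1 p2 p3 p4 p5 pT)
  (T3 : Test3 (3 / 7) R1 R2 R3 R4 tT) (T4 : Test4 0.1728 R2 R3 tT)
  (s4 : R5 ≤ 0.03) (s7 : tT ≤ 0.14) (s8 : 0.0005 ≤ R5) (s17 : 0.27 ≤ R1) (s23 : 0.003 ≤ R5) (s32 : R4 ≤ 0.06) (s35 : R1 ≤ 0.31) : False := by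
  obtain ⟨h12, h23, h34, h45, h5T, sR, sp, g1, g2, g3, g4, g5, rest⟩ := B
  have b0 := g5.1
  have b1 := g1.2.1
  have r := rest 0.03 2.658 (fun R p h hx => g7_15 h hx) s4
  have x0 : 0.07 ≤ R1 := by linarith only [s17, sR]
  have f36 := d7_12 g1 x0 s35
  have x1 : 0.235 ≤ R2 := by linarith only [h23, s32, s35, s7, sR]
  have x2 : R2 ≤ 0.31 := by linarith only [h12, s35, sR]
  have f42 := d7_3 g2 x1 x2
  have x3 : 0.07 ≤ R3 := by linarith only [h12, s32, s35, s7, sR]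
  have x4 : R3 ≤ 0.31 := by linarith only [h12, h23, s35, sR]
  have f52 := d7_12 g3 x3 x4
  have f61 := d7_16 g5 s8 s4
  have x5 : 0.003 ≤ R4 := by linarith only [h45, s23, sR]
  have f63 := d7_25 g4 x5 s32
  linarith only [f36, f42, f52, f61, f63, h12, h23, h5T, r, s32, s35, sR, sp]

lemma l7_31 (B : Big 1 R1 R2 R3 R4 R5 tT p1 p2 p3 p4 p5 pT)
  (T3 : Test3 (3 / 7) R1 R2 R3 R4 tT) (T4 : Test4 0.1728 R2 R3 tT)
  (s4 : R5 ≤ 0.03) (s8 : 0.0005 ≤ R5) (s18 : 0.18 ≤ R3) (s23 : 0.003 ≤ R5) (s32 : R4 ≤ 0.06) (s36 : R2 ≤ 0.25) : False := by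
  obtain ⟨h12, h23, h34, h45, h5T, sR, sp, g1, g2, g3, g4, g5, rest⟩ := B
  have b0 := g5.1
  have b1 := g1.2.1
  have r := rest 0.03 2.658 (fun R p h hx => g7_15 h hx) s4
  have f29 := d7_0 g1 g1.1.le g1.2.1
  have x0 : 0.09 ≤ R2 := by linarith only [h23, s18, sR]
  have f37 := d7_6 g2 x0 s36
  have x1 : 0.09 ≤ R3 := by linarith only [s18, sR]
  have x2 : R3 ≤ 0.25 := by linarith only [h23, s36, sR]
  have f46 := d7_6 g3 x1 x2
  have x3 : 0.003 ≤ R4 := by linarith only [h45, s23, sR]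
  have f56 := d7_25 g4 x3 s32
  have f60 := d7_16 g5 s8 s4
  have x4 : R5 ≤ 0.06 := by linarith only [s4, sR]
  have f62 := d7_25 g5 s23 x4
  linarith only [f29, f37, f46, f56, f60, f62, h23, h5T, r, s32, s36, sR, sp]

lemma l7_32 (B : Big 1 R1 R2 R3 R4 R5 tT p1 p2 p3 p4 p5 pT)
  (T3 : Test3 (3 / 7) R1 R2 R3 R4 tT) (T4 : Test4 0.1728 R2 R3 tT)
  (s18 : 0.18 ≤ R3) (s40 : tT ≤ 0.02) (s41 : R4 ≤ 0.02) (s42 : R1 ≤ 0.39) : False := by
  obtain ⟨h12, h23, h34, h45, h5T, sR, sp, g1, g2, g3, g4, g5, rest⟩ := B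
  have b0 := g5.1
  have b1 := g1.2.1
  have x0 : R4 + tT ≤ 0.04 := by linarith only [s40, s41, sR]
  have t0 := T3.use h12 h23 0.39 0.18 0.04 0.02 0.5041 0.748 0.227225 s42 s18 x0 s40 (by norm_num [Dlo])
  linarith only [s40, s41, t0]

lemma l7_33 (B : Big 1 R1 R2 R3 R4 R5 tT p1 p2 p3 p4 p5 pT)
  (T3 : Test3 (3 / 7) R1 R2 R3 R4 tT) (T4 : Test4 0.1728 R2 R3 tT)
  (s18 : 0.18 ≤ R3) (s23 : 0.003 ≤ R5) (s32 : R4 ≤ 0.06) (s34 : 0.006 ≤ tT) (s38 : R5 ≤ 0.01) (s39 : R3 ≤ 0.31) (s40 : tT ≤ 0.02) (s41 : R4 ≤ 0.02) (s42 : 0.39 ≤ R1) : False := by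
  obtain ⟨h12, h23, h34, h45, h5T, sR, sp, g1, g2, g3, g4, g5, rest⟩ := B
  have b0 := g5.1
  have b1 := g1.2.1
  have x0 : R4 + tT ≤ 0.04 := by linarith only [s40, s41, sR]
  have t0 := T3.use h12 h23 (4 / 9) 0.18 0.04 0.02 0.3881 0.673 0.141615 b1 s18 x0 s40 (by norm_num [Dlo])
  have r := rest 0.01 4.537 (fun R p h hx => g7_10 h hx) s38
  have x1 : 0.25 ≤ R1 := by linarith only [s42, sR]
  have f37 := d7_7 g1 x1 g1.2.1
  have x2 : 0.12 ≤ R2 := by linarith only [b1, h23, s40, s41, sR]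
  have x3 : R2 ≤ 0.43 := by linarith only [h12, h45, s18, s23, s34, sR]
  have f46 := d7_11 g2 x2 x3
  have x4 : 0.16 ≤ R3 := by linarith only [s18, sR]
  have f49 := d7_4 g3 x4 s39
  have x5 : 0.003 ≤ R4 := by linarith only [h45, s23, sR]
  have f59 := d7_25 g4 x5 s32
  have f66 := d7_26 g5 s23 s38
  linarith only [f37, f46, f49, f59, f66, h23, h45, r, s38, s42, sR, sp, t0]

lemma l7_34 (B : Big 1 R1 R2 R3 R4 R5 tT p1 p2 p3 p4 p5 pT)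
  (T3 : Test3 (3 / 7) R1 R2 R3 R4 tT) (T4 : Test4 0.1728 R2 R3 tT)
  (s18 : 0.18 ≤ R3) (s23 : 0.003 ≤ R5) (s32 : R4 ≤ 0.06) (s34 : 0.006 ≤ tT) (s36 : 0.25 ≤ R2) (s38 : R5 ≤ 0.01) (s40 : tT ≤ 0.02) (s41 : 0.02 ≤ R4) (s43 : R3 ≤ 0.235) : False := by
  obtain ⟨h12, h23, h34, h45, h5T, sR, sp, g1, g2, g3, g4, g5, rest⟩ := B
  have b0 := g5.1
  have b1 := g1.2.1
  have r := rest 0.01 4.537 (fun R p h hx => g7_10 h hx) s38
  have x0 : 0.25 ≤ R1 := by linarith only [h12, s32, s40, s43, sR]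
  have f36 := d7_7 g1 x0 g1.2.1
  have x1 : R2 ≤ 0.41 := by linarith only [h12, s18, s34, s41, sR]
  have f43 := d7_9 g2 s36 x1
  have x2 : 0.09 ≤ R3 := by linarith only [s18, sR]
  have x3 : R3 ≤ 0.25 := by linarith only [s43, sR]
  have f50 := d7_6 g3 x2 x3
  have x4 : 0.016 ≤ R4 := by linarith only [s41, sR]
  have f60 := d7_22 g4 x4 s32
  have f68 := d7_26 g5 s23 s38
  have x5 : 0.33 ≤ R1 := by linarith only [h12, s32, s40, s43, sR]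
  have f69 := d7_27 g1 x5 g1.2.1
  linarith only [f36, f43, f50, f60, f68, f69, h5T, r, s34, s41, s43, sR, sp]

lemma l7_35 (B : Big 1 R1 R2 R3 R4 R5 tT p1 p2 p3 p4 p5 pT)
  (T3 : Test3 (3 / 7) R1 R2 R3 R4 tT) (T4 : Test4 0.1728 R2 R3 tT)
  (s17 : 0.27 ≤ R1) (s23 : 0.003 ≤ R5) (s32 : R4 ≤ 0.06) (s38 : R5 ≤ 0.01) (s39 : R3 ≤ 0.31) (s40 : tT ≤ 0.02) (s41 : 0.02 ≤ R4) (s43 : 0.235 ≤ R3) (s44 : R1 ≤ 0.37) : False := by
  obtain ⟨h12, h23, h34, h45, h5T, sR, sp, g1, g2, g3, g4, g5, rest⟩ := B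
  have b0 := g5.1
  have b1 := g1.2.1
  have x0 : R4 + tT ≤ 0.08 := by linarith only [s32, s40, sR]
  have t0 := T3.use h12 h23 0.37 0.235 0.08 0.02 0.4811 0.694 0.186677 s44 s43 x0 s40 (by norm_num [Dlo])
  have r := rest 0.01 4.537 (fun R p h hx => g7_10 h hx) s38
  have f45 := d7_24 g1 s17 g1.2.1
  have x1 : 0.27 ≤ R2 := by linarith only [h23, s32, s40, s44, sR]
  have f54 := d7_24 g2 x1 g2.2.1
  have f56 := d7_3 g3 s43 s39
  have x2 : 0.016 ≤ R4 := by linarith only [s41, sR]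
  have f66 := d7_22 g4 x2 s32
  have f74 := d7_26 g5 s23 s38
  linarith only [f45, f54, f56, f66, f74, r, s38, s39, s41, sR, sp, t0]

lemma l7_36 (B : Big 1 R1 R2 R3 R4 R5 tT p1 p2 p3 p4 p5 pT)
  (T3 : Test3 (3 / 7) R1 R2 R3 R4 tT) (T4 : Test4 0.1728 R2 R3 tT)
  (s23 : 0.003 ≤ R5) (s32 : R4 ≤ 0.06) (s34 : 0.006 ≤ tT) (s36 : 0.25 ≤ R2) (s38 : R5 ≤ 0.01) (s39 : R3 ≤ 0.31) (s40 : tT ≤ 0.02) (s41 : 0.02 ≤ R4) (s43 : 0.235 ≤ R3) (s44 : 0.37 ≤ R1) : False := by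
  obtain ⟨h12, h23, h34, h45, h5T, sR, sp, g1, g2, g3, g4, g5, rest⟩ := B
  have b0 := g5.1
  have b1 := g1.2.1
  have x0 : R4 + tT ≤ 0.08 := by linarith only [s32, s40, sR]
  have t0 := T3.use h12 h23 (4 / 9) 0.235 0.08 0.02 0.3733 0.606 0.110443 b1 s43 x0 s40 (by norm_num [Dlo])
  have r := rest 0.01 4.537 (fun R p h hx => g7_10 h hx) s38
  have x1 : 0.33 ≤ R1 := by linarith only [s44, sR]
  have f43 := d7_27 g1 x1 g1.2.1
  have f52 := d7_3 g3 s43 s39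
  have f70 := d7_26 g5 s23 s38
  have x2 : R2 ≤ 0.37 := by linarith only [s34, s41, s43, s44, sR]
  have f71 := d7_28 g2 s36 x2
  have f72 := d7_29 g4 s41 s32
  linarith only [f43, f52, f70, f71, f72, h5T, r, s41, s44, sR, sp, t0]

lemma l7_37 (B : Big 1 R1 R2 R3 R4 R5 tT p1 p2 p3 p4 p5 pT)
  (T3 : Test3 (3 / 7) R1 R2 R3 R4 tT) (T4 : Test4 0.1728 R2 R3 tT)
  (s17 : 0.27 ≤ R1) (s18 : 0.18 ≤ R3) (s23 : 0.003 ≤ R5) (s32 : R4 ≤ 0.06) (s35 : 0.31 ≤ R1) (s36 : 0.25 ≤ R2) (s38 : R5 ≤ 0.01) (s39 : R3 ≤ 0.31) (s40 : 0.02 ≤ tT) : False := by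
  obtain ⟨h12, h23, h34, h45, h5T, sR, sp, g1, g2, g3, g4, g5, rest⟩ := B
  have b0 := g5.1
  have b1 := g1.2.1
  have r := rest 0.01 4.537 (fun R p h hx => g7_10 h hx) s38
  have x0 : 0.21 ≤ R1 := by linarith only [s35, sR]
  have f35 := d7_10 g1 x0 g1.2.1
  have f38 := d7_24 g1 s17 g1.2.1
  have x1 : 0.12 ≤ R2 := by linarith only [s36, sR]
  have x2 : R2 ≤ 0.43 := by linarith only [h12, h45, s18, s23, s40, sR]
  have f43 := d7_11 g2 x1 x2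
  have x3 : 0.16 ≤ R3 := by linarith only [s18, sR]
  have f47 := d7_4 g3 x3 s39
  have x4 : 0.07 ≤ R3 := by linarith only [s18, sR]
  have f49 := d7_12 g3 x4 s39
  have x5 : 0.003 ≤ R4 := by linarith only [h45, s23, sR]
  have f55 := d7_25 g4 x5 s32
  have f62 := d7_26 g5 s23 s38
  linarith only [f35, f38, f43, f47, f49, f55, f62, h45, r, s38, s40, sR, sp]

lemma l7_38 (B : Big 1 R1 R2 R3 R4 R5 tT p1 p2 p3 p4 p5 pT)
  (T3 : Test3 (3 / 7) R1 R2 R3 R4 tT) (T4 : Test4 0.1728 R2 R3 tT)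
  (s2 : R3 ≤ 0.33) (s17 : 0.27 ≤ R1) (s23 : 0.003 ≤ R5) (s32 : R4 ≤ 0.06) (s34 : 0.006 ≤ tT) (s36 : 0.25 ≤ R2) (s37 : tT ≤ 0.04) (s38 : R5 ≤ 0.01) (s39 : 0.31 ≤ R3) : False := by
  obtain ⟨h12, h23, h34, h45, h5T, sR, sp, g1, g2, g3, g4, g5, rest⟩ := B
  have b0 := g5.1
  have b1 := g1.2.1
  have x0 : R1 ≤ 0.375 := by linarith only [h23, h45, s23, s34, s39, sR]
  have x1 : R4 + tT ≤ 0.07 := by linarith only [h12, h23, s39, sR]
  have t0 := T3.use h12 h23 0.375 0.31 0.07 0.04 0.5827 0.693 0.225449 x0 s39 x1 s37 (by norm_num [Dlo])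
  have r := rest 0.01 4.537 (fun R p h hx => g7_10 h hx) s38
  have f41 := d7_24 g1 s17 g1.2.1
  have x2 : R2 ≤ 0.37 := by linarith only [h12, h45, s23, s34, s39, sR]
  have f51 := d7_28 g2 s36 x2
  have x3 : 0.25 ≤ R3 := by linarith only [s39, sR]
  have x4 : R3 ≤ 0.37 := by linarith only [s2, sR]
  have f61 := d7_28 g3 x3 x4
  have x5 : 0.003 ≤ R4 := by linarith only [h45, s23, sR]
  have f65 := d7_25 g4 x5 s32
  have f72 := d7_26 g5 s23 s38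
  linarith only [f41, f51, f61, f65, f72, h12, h23, h45, r, s38, sR, sp, t0]

lemma l7_39 (B : Big 1 R1 R2 R3 R4 R5 tT p1 p2 p3 p4 p5 pT)
  (T3 : Test3 (3 / 7) R1 R2 R3 R4 tT) (T4 : Test4 0.1728 R2 R3 tT)
  (s4 : R5 ≤ 0.03) (s18 : 0.18 ≤ R3) (s32 : R4 ≤ 0.06) (s36 : 0.25 ≤ R2) (s37 : tT ≤ 0.04) (s38 : 0.01 ≤ R5) (s45 : R3 ≤ 0.235) : False := by
  obtain ⟨h12, h23, h34, h45, h5T, sR, sp, g1, g2, g3, g4, g5, rest⟩ := B
  have b0 := g5.1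
  have b1 := g1.2.1
  have r := rest 0.03 2.658 (fun R p h hx => g7_15 h hx) s4
  have x0 : 0.25 ≤ R1 := by linarith only [h12, s32, s37, s45, sR]
  have f33 := d7_7 g1 x0 g1.2.1
  have x1 : 0.33 ≤ R1 := by linarith only [h12, s32, s37, s45, sR]
  have f38 := d7_27 g1 x1 g1.2.1
  have x2 : R2 ≤ 0.41 := by linarith only [h12, h45, h5T, s18, s38, sR]
  have f41 := d7_9 g2 s36 x2
  have x3 : 0.09 ≤ R3 := by linarith only [s18, sR]
  have x4 : R3 ≤ 0.25 := by linarith only [s45, sR]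
  have f48 := d7_6 g3 x3 x4
  have x5 : 0.01 ≤ R4 := by linarith only [h45, s38, sR]
  have f65 := d7_30 g4 x5 s32
  have f66 := d7_31 g5 s38 s4
  linarith only [f33, f38, f41, f48, f65, f66, h45, h5T, r, s38, s45, sR, sp]

lemma l7_40 (B : Big 1 R1 R2 R3 R4 R5 tT p1 p2 p3 p4 p5 pT)
  (T3 : Test3 (3 / 7) R1 R2 R3 R4 tT) (T4 : Test4 0.1728 R2 R3 tT)
  (s32 : R4 ≤ 0.06) (s45 : 0.235 ≤ R3) (s46 : tT ≤ 0.013) (s47 : R1 ≤ 0.37) : False := by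
  obtain ⟨h12, h23, h34, h45, h5T, sR, sp, g1, g2, g3, g4, g5, rest⟩ := B
  have b0 := g5.1
  have b1 := g1.2.1
  have x0 : R4 + tT ≤ 0.073 := by linarith only [s32, s46, sR]
  have t0 := T3.use h12 h23 0.37 0.235 0.073 0.013 0.5001 0.772 0.24012 s47 s45 x0 s46 (by norm_num [Dlo])
  linarith only [s32, s46, t0]

lemma l7_41 (B : Big 1 R1 R2 R3 R4 R5 tT p1 p2 p3 p4 p5 pT)
  (T3 : Test3 (3 / 7) R1 R2 R3 R4 tT) (T4 : Test4 0.1728 R2 R3 tT)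
  (s4 : R5 ≤ 0.03) (s32 : R4 ≤ 0.06) (s36 : 0.25 ≤ R2) (s38 : 0.01 ≤ R5) (s45 : 0.235 ≤ R3) (s46 : tT ≤ 0.013) (s47 : 0.37 ≤ R1) : False := by
  obtain ⟨h12, h23, h34, h45, h5T, sR, sp, g1, g2, g3, g4, g5, rest⟩ := B
  have b0 := g5.1
  have b1 := g1.2.1
  have x0 : R4 + tT ≤ 0.073 := by linarith only [s32, s46, sR]
  have t0 := T3.use h12 h23 (4 / 9) 0.235 0.073 0.013 0.3931 0.711 0.160095 b1 s45 x0 s46 (by norm_num [Dlo])
  have x1 : R5 ≤ 0.013 := by linarith only [h5T, s46, sR]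
  have r := rest 0.013 3.983 (fun R p h hx => g7_11 h hx) x1
  have x2 : 0.33 ≤ R1 := by linarith only [s47, sR]
  have f41 := d7_27 g1 x2 g1.2.1
  have x3 : 0.12 ≤ R2 := by linarith only [s36, sR]
  have x4 : R2 ≤ 0.43 := by linarith only [h12, h45, h5T, s38, s45, sR]
  have f46 := d7_11 g2 x3 x4
  have x5 : R3 ≤ 0.31 := by linarith only [h23, h45, h5T, s38, s47, sR]
  have f50 := d7_3 g3 s45 x5
  have x6 : 0.01 ≤ R4 := by linarith only [h45, s38, sR]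
  have f61 := d7_30 g4 x6 s32
  have f69 := d7_31 g5 s38 s4
  linarith only [f41, f46, f50, f61, f69, h23, h5T, r, s46, s47, sR, sp, t0]

lemma l7_42 (B : Big 1 R1 R2 R3 R4 R5 tT p1 p2 p3 p4 p5 pT)
  (T3 : Test3 (3 / 7) R1 R2 R3 R4 tT) (T4 : Test4 0.1728 R2 R3 tT)
  (s45 : 0.235 ≤ R3) (s49 : R4 ≤ 0.03) (s50 : tT ≤ 0.02) (s51 : R1 ≤ 0.37) : False := by
  obtain ⟨h12, h23, h34, h45, h5T, sR, sp, g1, g2, g3, g4, g5, rest⟩ := B
  have b0 := g5.1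
  have b1 := g1.2.1
  have x0 : R4 + tT ≤ 0.05 := by linarith only [s49, s50, sR]
  have t0 := T3.use h12 h23 0.37 0.235 0.05 0.02 0.5629 0.785 0.279452 s51 s45 x0 s50 (by norm_num [Dlo])
  linarith only [s49, s50, t0]

lemma l7_43 (B : Big 1 R1 R2 R3 R4 R5 tT p1 p2 p3 p4 p5 pT)
  (T3 : Test3 (3 / 7) R1 R2 R3 R4 tT) (T4 : Test4 0.1728 R2 R3 tT)
  (s4 : R5 ≤ 0.03) (s38 : 0.01 ≤ R5) (s45 : 0.235 ≤ R3) (s46 : 0.013 ≤ tT) (s48 : R5 ≤ 0.02) (s49 : R4 ≤ 0.03) (s50 : tT ≤ 0.02) (s51 : 0.37 ≤ R1) : False := by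
  obtain ⟨h12, h23, h34, h45, h5T, sR, sp, g1, g2, g3, g4, g5, rest⟩ := B
  have b0 := g5.1
  have b1 := g1.2.1
  have x0 : R4 + tT ≤ 0.05 := by linarith only [s49, s50, sR]
  have t0 := T3.use h12 h23 (4 / 9) 0.235 0.05 0.02 0.4585 0.736 0.200093 b1 s45 x0 s50 (by norm_num [Dlo])
  have r := rest 0.02 3.233 (fun R p h hx => g7_13 h hx) s48
  have x1 : 0.33 ≤ R1 := by linarith only [s51, sR]
  have f44 := d7_27 g1 x1 g1.2.1
  have x2 : 0.12 ≤ R2 := by linarith only [b1, h23, s49, s50, sR]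
  have x3 : R2 ≤ 0.43 := by linarith only [h12, h45, s38, s45, s46, sR]
  have f49 := d7_11 g2 x2 x3
  have x4 : R3 ≤ 0.31 := by linarith only [h23, h45, s38, s46, s51, sR]
  have f53 := d7_3 g3 s45 x4
  have x5 : 0.01 ≤ R4 := by linarith only [h45, s38, sR]
  have f67 := d7_31 g4 x5 s49
  have f75 := d7_31 g5 s38 s4
  linarith only [f44, f49, f53, f67, f75, h23, h45, h5T, r, s51, sR, sp, t0]

lemma l7_44 (B : Big 1 R1 R2 R3 R4 R5 tT p1 p2 p3 p4 p5 pT)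
  (T3 : Test3 (3 / 7) R1 R2 R3 R4 tT) (T4 : Test4 0.1728 R2 R3 tT)
  (s2 : R3 ≤ 0.33) (s4 : R5 ≤ 0.03) (s35 : 0.31 ≤ R1) (s36 : 0.25 ≤ R2) (s38 : 0.01 ≤ R5) (s45 : 0.235 ≤ R3) (s49 : R4 ≤ 0.03) (s50 : 0.02 ≤ tT) (s52 : R4 ≤ 0.016) : False := by
  obtain ⟨h12, h23, h34, h45, h5T, sR, sp, g1, g2, g3, g4, g5, rest⟩ := B
  have b0 := g5.1
  have b1 := g1.2.1
  have x0 : R5 ≤ 0.016 := by linarith only [h45, s52, sR]
  have r := rest 0.016 3.6 (fun R p h hx => g7_12 h hx) x0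
  have x1 : R2 ≤ 0.37 := by linarith only [h12, h45, s38, s45, s50, sR]
  have f51 := d7_28 g2 s36 x1
  have x2 : 0.01 ≤ R4 := by linarith only [h45, s38, sR]
  have f64 := d7_31 g4 x2 s49
  have f72 := d7_31 g5 s38 s4
  have f73 := d7_32 g1 s35 g1.2.1
  have f74 := d7_33 g3 s45 s2
  linarith only [f51, f64, f72, f73, f74, h23, h45, r, s50, s52, sR, sp]

lemma l7_45 (B : Big 1 R1 R2 R3 R4 R5 tT p1 p2 p3 p4 p5 pT)
  (T3 : Test3 (3 / 7) R1 R2 R3 R4 tT) (T4 : Test4 0.1728 R2 R3 tT)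
  (s2 : R3 ≤ 0.33) (s35 : 0.31 ≤ R1) (s36 : 0.25 ≤ R2) (s38 : 0.01 ≤ R5) (s45 : 0.235 ≤ R3) (s48 : R5 ≤ 0.02) (s49 : R4 ≤ 0.03) (s50 : 0.02 ≤ tT) (s52 : 0.016 ≤ R4) : False := by
  obtain ⟨h12, h23, h34, h45, h5T, sR, sp, g1, g2, g3, g4, g5, rest⟩ := B
  have b0 := g5.1
  have b1 := g1.2.1
  have r := rest 0.02 3.233 (fun R p h hx => g7_13 h hx) s48
  have f44 := d7_32 g1 s35 g1.2.1
  have x0 : R2 ≤ 0.37 := by linarith only [h12, s45, s50, s52, sR]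
  have f52 := d7_28 g2 s36 x0
  have f58 := d7_33 g3 s45 s2
  have f76 := d7_34 g4 s52 s49
  have f77 := d7_35 g5 s38 s48
  linarith only [f44, f52, f58, f76, f77, h23, h45, r, s48, s50, sR, sp]

lemma l7_46 (B : Big 1 R1 R2 R3 R4 R5 tT p1 p2 p3 p4 p5 pT)
  (T3 : Test3 (3 / 7) R1 R2 R3 R4 tT) (T4 : Test4 0.1728 R2 R3 tT)
  (s2 : R3 ≤ 0.33) (s32 : R4 ≤ 0.06) (s35 : 0.31 ≤ R1) (s36 : 0.25 ≤ R2) (s38 : 0.01 ≤ R5) (s45 : 0.235 ≤ R3) (s46 : 0.013 ≤ tT) (s48 : R5 ≤ 0.02) (s49 : 0.03 ≤ R4) : False := by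
  obtain ⟨h12, h23, h34, h45, h5T, sR, sp, g1, g2, g3, g4, g5, rest⟩ := B
  have b0 := g5.1
  have b1 := g1.2.1
  have r := rest 0.02 3.233 (fun R p h hx => g7_13 h hx) s48
  have f42 := d7_32 g1 s35 g1.2.1
  have x0 : R2 ≤ 0.37 := by linarith only [h12, s45, s46, s49, sR]
  have f50 := d7_28 g2 s36 x0
  have f56 := d7_33 g3 s45 s2
  have f72 := d7_35 g5 s38 s48
  have f73 := d7_36 g4 s49 s32
  linarith only [f42, f50, f56, f72, f73, h23, h5T, r, s46, s49, sR, sp]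

lemma l7_47 (B : Big 1 R1 R2 R3 R4 R5 tT p1 p2 p3 p4 p5 pT)
  (T3 : Test3 (3 / 7) R1 R2 R3 R4 tT) (T4 : Test4 0.1728 R2 R3 tT)
  (s2 : R3 ≤ 0.33) (s4 : R5 ≤ 0.03) (s32 : R4 ≤ 0.06) (s35 : 0.31 ≤ R1) (s36 : 0.25 ≤ R2) (s45 : 0.235 ≤ R3) (s48 : 0.02 ≤ R5) : False := by
  obtain ⟨h12, h23, h34, h45, h5T, sR, sp, g1, g2, g3, g4, g5, rest⟩ := B
  have b0 := g5.1
  have b1 := g1.2.1
  have r := rest 0.03 2.658 (fun R p h hx => g7_15 h hx) s4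
  have f41 := d7_32 g1 s35 g1.2.1
  have x0 : R2 ≤ 0.37 := by linarith only [h12, h45, h5T, s45, s48, sR]
  have f49 := d7_28 g2 s36 x0
  have f55 := d7_33 g3 s45 s2
  have x1 : 0.02 ≤ R4 := by linarith only [h45, s48, sR]
  have f61 := d7_29 g4 x1 s32
  have x2 : R5 ≤ 0.06 := by linarith only [s4, sR]
  have f70 := d7_29 g5 s48 x2
  linarith only [f41, f49, f55, f61, f70, h23, h45, h5T, r, s48, sR, sp]

lemma l7_48 (B : Big 1 R1 R2 R3 R4 R5 tT p1 p2 p3 p4 p5 pT)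
  (T3 : Test3 (3 / 7) R1 R2 R3 R4 tT) (T4 : Test4 0.1728 R2 R3 tT)
  (s4 : R5 ≤ 0.03) (s8 : 0.0005 ≤ R5) (s17 : 0.27 ≤ R1) (s18 : 0.18 ≤ R3) (s23 : 0.003 ≤ R5) (s32 : R4 ≤ 0.06) (s35 : 0.31 ≤ R1) (s36 : 0.25 ≤ R2) (s37 : 0.04 ≤ tT) : False := by
  obtain ⟨h12, h23, h34, h45, h5T, sR, sp, g1, g2, g3, g4, g5, rest⟩ := B
  have b0 := g5.1
  have b1 := g1.2.1
  have r := rest 0.03 2.658 (fun R p h hx => g7_15 h hx) s4
  have x0 : 0.21 ≤ R1 := by linarith only [s35, sR]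
  have f32 := d7_10 g1 x0 g1.2.1
  have f35 := d7_24 g1 s17 g1.2.1
  have x1 : 0.12 ≤ R2 := by linarith only [s36, sR]
  have x2 : R2 ≤ 0.43 := by linarith only [h12, h45, s18, s23, s37, sR]
  have f41 := d7_11 g2 x1 x2
  have x3 : 0.12 ≤ R3 := by linarith only [s18, sR]
  have x4 : R3 ≤ 0.43 := by linarith only [h12, h23, h45, s23, s37, sR]
  have f45 := d7_11 g3 x3 x4
  have x5 : 0.003 ≤ R4 := by linarith only [h45, s23, sR]
  have f51 := d7_25 g4 x5 s32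
  have f55 := d7_16 g5 s8 s4
  have x6 : R5 ≤ 0.06 := by linarith only [s4, sR]
  have f57 := d7_25 g5 s23 x6
  linarith only [f32, f35, f41, f45, f51, f55, f57, h45, r, s37, sR, sp]

lemma l7_49 (B : Big 1 R1 R2 R3 R4 R5 tT p1 p2 p3 p4 p5 pT)
  (T3 : Test3 (3 / 7) R1 R2 R3 R4 tT) (T4 : Test4 0.1728 R2 R3 tT)
  (s4 : R5 ≤ 0.03) (s17 : 0.27 ≤ R1) (s18 : 0.18 ≤ R3) (s22 : 0.004 ≤ tT) (s23 : 0.003 ≤ R5) (s32 : 0.06 ≤ R4) (s53 : R3 ≤ 0.25) : False := by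
  obtain ⟨h12, h23, h34, h45, h5T, sR, sp, g1, g2, g3, g4, g5, rest⟩ := B
  have b0 := g5.1
  have b1 := g1.2.1
  have r := rest 0.03 2.658 (fun R p h hx => g7_15 h hx) s4
  have x0 : 0.21 ≤ R1 := by linarith only [s17, sR]
  have f28 := d7_10 g1 x0 g1.2.1
  have f30 := d7_19 g1 s17 g1.2.1
  have x1 : 0.12 ≤ R2 := by linarith only [h23, s18, sR]
  have x2 : R2 ≤ 0.43 := by linarith only [h12, s18, s22, s32, sR]
  have f33 := d7_11 g2 x1 x2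
  have x3 : 0.09 ≤ R3 := by linarith only [s18, sR]
  have f38 := d7_6 g3 x3 s53
  have x4 : R5 ≤ 0.06 := by linarith only [s4, sR]
  have f52 := d7_25 g5 s23 x4
  have x5 : R4 ≤ 0.25 := by linarith only [h23, h34, s17, s22, sR]
  have f53 := d7_37 g4 s32 x5
  linarith only [f28, f30, f33, f38, f52, f53, h12, h5T, r, s22, s53, sR, sp]

lemma l7_50 (B : Big 1 R1 R2 R3 R4 R5 tT p1 p2 p3 p4 p5 pT)
  (T3 : Test3 (3 / 7) R1 R2 R3 R4 tT) (T4 : Test4 0.1728 R2 R3 tT)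
  (s2 : R3 ≤ 0.33) (s17 : 0.27 ≤ R1) (s22 : 0.004 ≤ tT) (s23 : 0.003 ≤ R5) (s32 : 0.06 ≤ R4) (s53 : 0.25 ≤ R3) (s54 : R5 ≤ 0.006) : False := by
  obtain ⟨h12, h23, h34, h45, h5T, sR, sp, g1, g2, g3, g4, g5, rest⟩ := B
  have b0 := g5.1
  have b1 := g1.2.1
  have r := rest 0.006 5.813 (fun R p h hx => g7_8 h hx) s54
  have f32 := d7_24 g1 s17 g1.2.1
  have x0 : 0.25 ≤ R2 := by linarith only [h23, s53, sR]
  have x1 : R2 ≤ 0.37 := by linarith only [h12, s22, s32, s53, sR]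
  have f40 := d7_28 g2 x0 x1
  have x2 : 0.235 ≤ R3 := by linarith only [s53, sR]
  have f49 := d7_33 g3 x2 s2
  have x3 : R4 ≤ 0.25 := by linarith only [h23, s17, s22, s53, sR]
  have f52 := d7_37 g4 s32 x3
  have x4 : R5 ≤ 0.01 := by linarith only [s54, sR]
  have f59 := d7_26 g5 s23 x4
  have f60 := d7_38 g1 s17 g1.2.1
  linarith only [f32, f40, f49, f52, f59, f60, h23, h5T, r, s22, s32, sR, sp]

lemma l7_51 (B : Big 1 R1 R2 R3 R4 R5 tT p1 p2 p3 p4 p5 pT)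
  (T3 : Test3 (3 / 7) R1 R2 R3 R4 tT) (T4 : Test4 0.1728 R2 R3 tT)
  (s2 : R3 ≤ 0.33) (s4 : R5 ≤ 0.03) (s17 : 0.27 ≤ R1) (s23 : 0.003 ≤ R5) (s32 : 0.06 ≤ R4) (s53 : 0.25 ≤ R3) (s54 : 0.006 ≤ R5) : False := by
  obtain ⟨h12, h23, h34, h45, h5T, sR, sp, g1, g2, g3, g4, g5, rest⟩ := B
  have b0 := g5.1
  have b1 := g1.2.1
  have r := rest 0.03 2.658 (fun R p h hx => g7_15 h hx) s4
  have f32 := d7_24 g1 s17 g1.2.1
  have f33 := d7_38 g1 s17 g1.2.1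
  have x0 : 0.25 ≤ R2 := by linarith only [h23, s53, sR]
  have x1 : R2 ≤ 0.37 := by linarith only [h12, h5T, s32, s53, s54, sR]
  have f41 := d7_28 g2 x0 x1
  have x2 : 0.235 ≤ R3 := by linarith only [s53, sR]
  have f50 := d7_33 g3 x2 s2
  have x3 : R4 ≤ 0.25 := by linarith only [h23, h5T, s17, s53, s54, sR]
  have f53 := d7_37 g4 s32 x3
  have x4 : R5 ≤ 0.06 := by linarith only [s4, sR]
  have f59 := d7_25 g5 s23 x4
  linarith only [f32, f33, f41, f50, f53, f59, h23, h5T, r, s32, s54, sR, sp]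

lemma l7_52 (B : Big 1 R1 R2 R3 R4 R5 tT p1 p2 p3 p4 p5 pT)
  (T3 : Test3 (3 / 7) R1 R2 R3 R4 tT) (T4 : Test4 0.1728 R2 R3 tT)
  (s1 : 0.05 ≤ R3) (s4 : R5 ≤ 0.03) (s7 : 0.14 ≤ tT) : False := by
  obtain ⟨h12, h23, h34, h45, h5T, sR, sp, g1, g2, g3, g4, g5, rest⟩ := B
  have b0 := g5.1
  have b1 := g1.2.1
  have r := rest 0.03 2.658 (fun R p h hx => g7_15 h hx) s4
  have x0 : R5 ≤ 0.05 := by linarith only [s4, sR]
  have f22 := d7_1 g5 g5.1.le x0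
  have x1 : 0.05 ≤ R1 := by linarith only [h12, h23, s1, sR]
  have f24 := d7_39 g1 x1 g1.2.1
  have x2 : 0.05 ≤ R2 := by linarith only [h23, s1, sR]
  have x3 : R2 ≤ 0.41 := by linarith only [b0, h12, h45, s1, s7, sR]
  have f25 := d7_40 g2 x2 x3
  have x4 : R3 ≤ 0.29 := by linarith only [b0, h12, h23, h45, s7, sR]
  have f26 := d7_41 g3 s1 x4
  have x5 : R4 ≤ 0.22 := by linarith only [h12, h23, h34, s7, sR]
  have f27 := d7_42 g4 g4.1.le x5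
  linarith only [f22, f24, f25, f26, f27, h12, h45, r, s4, s7, sR, sp]

lemma l7_53 (B : Big 1 R1 R2 R3 R4 R5 tT p1 p2 p3 p4 p5 pT)
  (T3 : Test3 (3 / 7) R1 R2 R3 R4 tT) (T4 : Test4 0.1728 R2 R3 tT)
  (s1 : 0.05 ≤ R3) (s4 : 0.03 ≤ R5) : False := by
  obtain ⟨h12, h23, h34, h45, h5T, sR, sp, g1, g2, g3, g4, g5, rest⟩ := B
  have b0 := g5.1
  have b1 := g1.2.1
  have x0 : R5 ≤ 0.21 := by linarith only [h12, h23, h34, h45, h5T, sR]
  have r := rest 0.21 1.081 (fun R p h hx => g7_30 h hx) x0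
  have x1 : 0.05 ≤ R1 := by linarith only [h12, h23, s1, sR]
  have f15 := d7_39 g1 x1 g1.2.1
  have x2 : 0.05 ≤ R2 := by linarith only [h23, s1, sR]
  have f17 := d7_39 g2 x2 g2.2.1
  have x3 : R3 ≤ 0.41 := by linarith only [h12, h23, h45, h5T, s4, sR]
  have f20 := d7_40 g3 s1 x3
  have x4 : 0.03 ≤ R4 := by linarith only [h45, s4, sR]
  have x5 : R4 ≤ 0.25 := by linarith only [h12, h23, h34, h5T, s4, sR]
  have f24 := d7_43 g4 x4 x5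
  have f25 := d7_44 g5 s4 x0
  linarith only [f15, f17, f20, f24, f25, h12, h23, h45, h5T, r, s4, sR, sp]

lemma l7_54 (B : Big 1 R1 R2 R3 R4 R5 tT p1 p2 p3 p4 p5 pT)
  (T3 : Test3 (3 / 7) R1 R2 R3 R4 tT) (T4 : Test4 0.1728 R2 R3 tT)
  (s2 : 0.33 ≤ R3) : False := by
  obtain ⟨h12, h23, h34, h45, h5T, sR, sp, g1, g2, g3, g4, g5, rest⟩ := B
  have b0 := g5.1
  have b1 := g1.2.1
  have x0 : R1 ≤ 0.34 := by linarith only [b0, h23, h45, h5T, s2, sR]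
  have x1 : R4 + tT ≤ 0.01 := by linarith only [h12, h23, s2, sR]
  have x2 : tT ≤ 0.01 := by linarith only [b0, h12, h23, h45, s2, sR]
  have t1 := T3.use h12 h23 0.34 0.33 0.01 0.01 0.7294 0.949 0.529219 x0 s2 x1 x2 (by norm_num [Dlo])
  linarith only [b0, h12, h23, h45, s2, sR, t1]

theorem k7 : K7Stmt := by
  intro R1 R2 R3 R4 R5 tT p1 p2 p3 p4 p5 pT B T3 T4
  rcases le_total R3 0.05 with s1 | s1
  · exact l7_0 B T3 T4 s1
  rcases le_total R3 0.33 with s2 | s2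
  · rcases le_total tT 0.0005 with s3 | s3
    · exact l7_1 B T3 T4 s3
    rcases le_total R5 0.03 with s4 | s4
    · rcases le_total tT 0.001 with s5 | s5
      · exact l7_2 B T3 T4 s5
      rcases le_total tT 0.0015 with s6 | s6
      · exact l7_3 B T3 T4 s1 s6
      rcases le_total tT 0.14 with s7 | s7
      · rcases le_total R5 0.0005 with s8 | s8
        · rcases le_total R3 0.31 with s9 | s9
          · rcases le_total R4 0.07 with s10 | s10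
            · rcases le_total tT 0.002 with s11 | s11
              · exact l7_4 B T3 T4 s1 s10 s11
              rcases le_total R1 0.31 with s12 | s12
              · exact l7_5 B T3 T4 s7 s8 s9 s10 s11 s12
              rcases le_total R2 0.25 with s13 | s13
              · exact l7_6 B T3 T4 s7 s8 s10 s11 s13
              rcases le_total R3 0.18 with s14 | s14
              · exact l7_7 B T3 T4 s1 s8 s10 s11 s13 s14
              rcases le_total tT 0.01 with s15 | s15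
              · rcases le_total R3 0.235 with s16 | s16
                · exact l7_8 B T3 T4 s8 s10 s11 s13 s14 s15 s16
                exact l7_9 B T3 T4 s8 s9 s10 s11 s12 s13 s15 s16
              exact l7_10 B T3 T4 s8 s9 s10 s12 s13 s14 s15
            exact l7_11 B T3 T4 s6 s7 s8 s9 s10
          exact l7_12 B T3 T4 s2 s6 s8 s9
        rcases le_total R1 0.27 with s17 | s17
        · exact l7_13 B T3 T4 s4 s6 s7 s8 s17
        rcases le_total R3 0.18 with s18 | s18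
        · rcases le_total R4 0.07 with s19 | s19
          · exact l7_14 B T3 T4 s1 s4 s6 s7 s8 s18 s19
          exact l7_15 B T3 T4 s4 s6 s7 s8 s17 s18 s19
        rcases le_total tT 0.002 with s20 | s20
        · exact l7_16 B T3 T4 s18 s20
        rcases le_total tT 0.003 with s21 | s21
        · exact l7_17 B T3 T4 s18 s21
        rcases le_total tT 0.004 with s22 | s22
        · exact l7_18 B T3 T4 s18 s22
        rcases le_total R5 0.003 with s23 | s23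
        · rcases le_total R3 0.31 with s24 | s24
          · rcases le_total R4 0.06 with s25 | s25
            · rcases le_total tT 0.005 with s26 | s26
              · exact l7_19 B T3 T4 s18 s25 s26
              rcases le_total tT 0.006 with s27 | s27
              · exact l7_20 B T3 T4 s18 s25 s27
              rcases le_total R4 0.016 with s28 | s28
              · rcases le_total tT 0.02 with s29 | s29
                · exact l7_21 B T3 T4 s4 s8 s18 s23 s24 s27 s28 s29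
                exact l7_22 B T3 T4 s4 s7 s8 s18 s23 s24 s28 s29
              rcases le_total R3 0.235 with s30 | s30
              · exact l7_23 B T3 T4 s4 s7 s8 s17 s18 s23 s25 s27 s28 s30
              rcases le_total tT 0.008 with s31 | s31
              · exact l7_24 B T3 T4 s25 s30 s31
              exact l7_25 B T3 T4 s8 s17 s23 s24 s25 s28 s30 s31
            exact l7_26 B T3 T4 s8 s17 s18 s22 s23 s24 s25
          exact l7_27 B T3 T4 s8 s17 s22 s23 s24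
        rcases le_total R4 0.06 with s32 | s32
        · rcases le_total tT 0.005 with s33 | s33
          · exact l7_28 B T3 T4 s18 s32 s33
          rcases le_total tT 0.006 with s34 | s34
          · exact l7_29 B T3 T4 s18 s32 s34
          rcases le_total R1 0.31 with s35 | s35
          · exact l7_30 B T3 T4 s4 s7 s8 s17 s23 s32 s35
          rcases le_total R2 0.25 with s36 | s36
          · exact l7_31 B T3 T4 s4 s8 s18 s23 s32 s36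
          rcases le_total tT 0.04 with s37 | s37
          · rcases le_total R5 0.01 with s38 | s38
            · rcases le_total R3 0.31 with s39 | s39
              · rcases le_total tT 0.02 with s40 | s40
                · rcases le_total R4 0.02 with s41 | s41
                  · rcases le_total R1 0.39 with s42 | s42
                    · exact l7_32 B T3 T4 s18 s40 s41 s42
                    exact l7_33 B T3 T4 s18 s23 s32 s34 s38 s39 s40 s41 s42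
                  rcases le_total R3 0.235 with s43 | s43
                  · exact l7_34 B T3 T4 s18 s23 s32 s34 s36 s38 s40 s41 s43
                  rcases le_total R1 0.37 with s44 | s44
                  · exact l7_35 B T3 T4 s17 s23 s32 s38 s39 s40 s41 s43 s44
                  exact l7_36 B T3 T4 s23 s32 s34 s36 s38 s39 s40 s41 s43 s44
                exact l7_37 B T3 T4 s17 s18 s23 s32 s35 s36 s38 s39 s40
              exact l7_38 B T3 T4 s2 s17 s23 s32 s34 s36 s37 s38 s39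
            rcases le_total R3 0.235 with s45 | s45
            · exact l7_39 B T3 T4 s4 s18 s32 s36 s37 s38 s45
            rcases le_total tT 0.013 with s46 | s46
            · rcases le_total R1 0.37 with s47 | s47
              · exact l7_40 B T3 T4 s32 s45 s46 s47
              exact l7_41 B T3 T4 s4 s32 s36 s38 s45 s46 s47
            rcases le_total R5 0.02 with s48 | s48
            · rcases le_total R4 0.03 with s49 | s49
              · rcases le_total tT 0.02 with s50 | s50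
                · rcases le_total R1 0.37 with s51 | s51
                  · exact l7_42 B T3 T4 s45 s49 s50 s51
                  exact l7_43 B T3 T4 s4 s38 s45 s46 s48 s49 s50 s51
                rcases le_total R4 0.016 with s52 | s52
                · exact l7_44 B T3 T4 s2 s4 s35 s36 s38 s45 s49 s50 s52
                exact l7_45 B T3 T4 s2 s35 s36 s38 s45 s48 s49 s50 s52
              exact l7_46 B T3 T4 s2 s32 s35 s36 s38 s45 s46 s48 s49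
            exact l7_47 B T3 T4 s2 s4 s32 s35 s36 s45 s48
          exact l7_48 B T3 T4 s4 s8 s17 s18 s23 s32 s35 s36 s37
        rcases le_total R3 0.25 with s53 | s53
        · exact l7_49 B T3 T4 s4 s17 s18 s22 s23 s32 s53
        rcases le_total R5 0.006 with s54 | s54
        · exact l7_50 B T3 T4 s2 s17 s22 s23 s32 s53 s54
        exact l7_51 B T3 T4 s2 s4 s17 s23 s32 s53 s54
      exact l7_52 B T3 T4 s1 s4 s7
    exact l7_53 B T3 T4 s1 s4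
  exact l7_54 B T3 T4 s2

end Crest.Agent.Prp
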