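import Crest.Agent.Prp.OneD

/-! Piece N: certified numerics for the normal density and tail. -/

set_option autoImplicit false

open Set Filter Topology Finset

namespace Crest.Agent.Prp

/-- Taylor polynomial of `exp (-u)` -/
noncomputable def numTT (n : ℕ) (u : ℝ) : ℝ := ∑ k ∈ range n, (-u) ^ k / k.factorial

/-- antiderivative of `numTT n (a ^ 2 / 2)` -/
noncomputable def numPP (n : ℕ) (a : ℝ) : ℝ :=
  ∑ k ∈ range n, (-1) ^ k * a ^ (2 * k + 1) / (2 ^ k * k.factorial * (2 * k + 1))

lemma num_mono_deriv {f f' : ℝ → ℝ} (hf : ∀ x, HasDerivAt f (f' x) x) {a b : ℝ} (hab : a ≤ b)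
    (h : ∀ x, a ≤ x → x ≤ b → 0 ≤ f' x) : f a ≤ f b := by
  have := monotoneOn_of_deriv_nonneg (convex_Icc a b)
    (continuous_iff_continuousAt.2 fun x => (hf x).continuousAt).continuousOn
    (fun x _ => (hf x).differentiableAt.differentiableWithinAt) fun x hx => by
      rw [(hf x).deriv]
      exact h x (interior_subset hx).1 (interior_subset hx).2
  exact this ⟨le_rfl, hab⟩ ⟨hab, le_rfl⟩ hab

lemma hasDerivAt_TT (n : ℕ) (u : ℝ) : HasDerivAt (numTT (n + 1)) (-numTT n u) u := by
  induction n with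
  | zero =>
    have : numTT 1 = fun _ => 1 := by funext u; simp [numTT]
    rw [this]; simpa [numTT] using hasDerivAt_const u (1 : ℝ)
  | succ n ih =>
    have : numTT (n + 1 + 1) = fun u => numTT (n + 1) u + (-u) ^ (n + 1) / (n + 1).factorial := by
      funext u; rw [numTT, sum_range_succ]; rfl
    rw [this]
    refine (ih.fun_add (((hasDerivAt_neg' u).fun_pow (n + 1)).div_const _)).congr_deriv ?_
    rw [numTT, numTT, sum_range_succ, Nat.factorial_succ]
    push_cast
    have : (0 : ℝ) < n.factorial := by exact_mod_cast n.factorial_pos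
    field_simp
    ring

lemma TT_sign (n : ℕ) (u : ℝ) (hu : 0 ≤ u) : 0 ≤ (-1) ^ n * (Real.exp (-u) - numTT n u) := by
  induction n generalizing u with
  | zero => simpa [numTT] using (Real.exp_pos _).le
  | succ n ih =>
    have := num_mono_deriv (f := fun u => (-1) ^ (n + 1) * (Real.exp (-u) - numTT (n + 1) u))
      (f' := fun u => (-1) ^ n * (Real.exp (-u) - numTT n u)) (fun x =>
        (((hasDerivAt_neg' x).exp.fun_sub (hasDerivAt_TT n x)).const_mul _).congr_deriv (by ring))
      hu fun x hx _ => ih x hx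
    simpa [numTT, sum_range_succ'] using this

lemma hasDerivAt_PP (n : ℕ) (a : ℝ) : HasDerivAt (numPP n) (numTT n (a ^ 2 / 2)) a := by
  refine HasDerivAt.fun_sum fun k _ => ?_
  refine (((hasDerivAt_pow (2 * k + 1) a).const_mul _).div_const _).congr_deriv ?_
  have : (0 : ℝ) < k.factorial := by exact_mod_cast k.factorial_pos
  rw [Nat.add_sub_cancel, neg_pow (a ^ 2 / 2), div_pow, ← pow_mul]
  push_cast
  field_simp

lemma phi0_bd : 0.398942280 ≤ phi 0 ∧ phi 0 ≤ 0.398942281 := by
  have h := phi_zero_sq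
  have h0 := phi_pos 0
  have h1 := Real.pi_gt_d20
  have h2 := Real.pi_lt_d20
  constructor
  · refine (pow_le_pow_iff_left₀ (by norm_num) h0.le two_ne_zero).1 ?_
    rw [h, le_div_iff₀ (by positivity)]
    norm_num at h2 ⊢
    linarith
  · refine (pow_le_pow_iff_left₀ h0.le (by norm_num) two_ne_zero).1 ?_
    rw [h, div_le_iff₀ (by positivity)]
    norm_num at h1 ⊢
    linarith

lemma phi_eq_mul (a : ℝ) : phi a = phi 0 * Real.exp (-(a ^ 2 / 2)) := by
  rw [phi_zero, phi, neg_div]; ring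

lemma num_node {a lo hi q : ℝ} (ha : 0 ≤ a) (h1 : lo ≤ 0.398942280 * numTT 22 (a ^ 2 / 2))
    (h2 : 0.398942281 * numTT 21 (a ^ 2 / 2) ≤ hi) (h3 : q ≤ 1 / 2 - 0.398942281 * numPP 21 a)
    (h4 : 0 ≤ numPP 21 a) : lo ≤ phi a ∧ phi a ≤ hi ∧ q ≤ Qb a := by
  obtain ⟨c1, c2⟩ := phi0_bd
  have e1 : ∀ x : ℝ, Real.exp (-(x ^ 2 / 2)) ≤ numTT 21 (x ^ 2 / 2) := fun x => by
    have := TT_sign 21 (x ^ 2 / 2) (by positivity)
    norm_num at this ⊢; linarith
  have e2 : numTT 22 (a ^ 2 / 2) ≤ Real.exp (-(a ^ 2 / 2)) := by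
    have := TT_sign 22 (a ^ 2 / 2) (by positivity)
    norm_num at this ⊢; linarith
  have e3 := Real.exp_pos (-(a ^ 2 / 2))
  refine ⟨?_, ?_, ?_⟩
  · rw [phi_eq_mul]; nlinarith
  · rw [phi_eq_mul]; nlinarith [e1 a]
  · have := num_mono_deriv (f := fun x => Qb x + phi 0 * numPP 21 x)
      (f' := fun x => -phi x + phi 0 * numTT 21 (x ^ 2 / 2))
      (fun x => (hasDerivAt_Qb x).fun_add ((hasDerivAt_PP 21 x).const_mul _)) ha fun x _ _ => by
        rw [phi_eq_mul x]; nlinarith [e1 x]
    have e4 : numPP 21 0 = 0 := by simp [numPP]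
    simp only [e4, Qb_zero] at this
    nlinarith

lemma num_endp {a lo hi q A B : ℝ} (h : lo ≤ phi a ∧ phi a ≤ hi ∧ q ≤ Qb a) (ha : 0 ≤ a)
    (hq : 0 ≤ q) (hB : 0 ≤ B + a * lo) (hc : hi ^ 2 - A ≤ (B + a * lo) * q) :
    phi a * psi a ≤ A + B * Qb a := by
  obtain ⟨h1, h2, h3⟩ := h
  have h0 := phi_pos a
  have e1 : phi a ^ 2 ≤ hi ^ 2 := by gcongr
  have e2 : (B + a * lo) * q ≤ (B + a * phi a) * Qb a := by
    refine mul_le_mul (by gcongr) h3 hq (hB.trans (by gcongr))
  unfold psi
  nlinarith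

lemma hasDerivAt_gg (A B x : ℝ) : HasDerivAt (fun a => A + B * Qb a - phi a * psi a)
    (phi x * (x * psi x + Qb x - B)) x :=
  ((((hasDerivAt_Qb x).const_mul B).const_add A).fun_sub
    ((hasDerivAt_phi x).fun_mul (hasDerivAt_psi x))).congr_deriv (by ring)

lemma hh_anti {x y : ℝ} (hx : 0 ≤ x) (hxy : x ≤ y) : y * psi y + Qb y ≤ x * psi x + Qb x := by
  have := num_mono_deriv (f := fun a => -(a * psi a + Qb a)) (f' := fun a => 2 * a * Qb a)
    (fun a => ((((hasDerivAt_id' a).fun_mul (hasDerivAt_psi a)).fun_add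
      (hasDerivAt_Qb a)).fun_neg).congr_deriv (by unfold psi; ring)) hxy fun a ha _ => by
      have := Qb_pos a
      have : 0 ≤ a := hx.trans ha
      positivity
  linarith

lemma num_piece {A B a b x : ℝ} (ha : 0 ≤ a) (_hab : a ≤ b) (h1 : phi a * psi a ≤ A + B * Qb a)
    (h2 : phi b * psi b ≤ A + B * Qb b) (hx1 : a ≤ x) (hx2 : x ≤ b) :
    phi x * psi x ≤ A + B * Qb x := by
  rcases le_total B (x * psi x + Qb x) with h | h
  · have := num_mono_deriv (hasDerivAt_gg A B) hx1 fun y hy hy' =>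
      mul_nonneg (phi_pos y).le (by linarith [hh_anti (ha.trans hy) hy'])
    linarith
  · have := num_mono_deriv (fun y => (hasDerivAt_gg A B y).fun_neg) hx2 fun y hy _ => by
      have := mul_nonneg (phi_pos y).le
        (by linarith [hh_anti (ha.trans hx1) hy] : 0 ≤ B - (y * psi y + Qb y))
      linarith
    linarith

lemma piece_last {B a x : ℝ} (ha : 0 ≤ a) (hB : 0 ≤ B) (h1 : phi a * psi a ≤ 0 + B * Qb a)
    (hx1 : a ≤ x) : phi x * psi x ≤ 0 + B * Qb x := by
  rcases le_total B (x * psi x + Qb x) with h | h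
  · have := num_mono_deriv (hasDerivAt_gg 0 B) hx1 fun y hy hy' =>
      mul_nonneg (phi_pos y).le (by linarith [hh_anti (ha.trans hy) hy'])
    linarith
  · have key : ∀ᶠ b in atTop, phi x * psi x - (0 + B * Qb x) ≤ phi b * phi 0 := by
      filter_upwards [eventually_ge_atTop x] with b hb
      have := num_mono_deriv (fun y => (hasDerivAt_gg 0 B y).fun_neg) hb fun y hy _ => by
        have := mul_nonneg (phi_pos y).le
          (by linarith [hh_anti (ha.trans hx1) hy] : 0 ≤ B - (y * psi y + Qb y))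
        linarith
      have e1 : psi b ≤ phi 0 := by
        have := mul_nonneg (ha.trans (hx1.trans hb)) (Qb_pos b).le
        unfold psi; linarith [phi_le b]
      have e2 := mul_le_mul_of_nonneg_left e1 (phi_pos b).le
      have e3 := mul_nonneg hB (Qb_pos b).le
      linarith
    have := ge_of_tendsto (tendsto_phi_atTop.mul_const (phi 0)) key
    linarith

/-- evaluate the Taylor sums -/
macro "nd_check" : tactic =>
  `(tactic| (simp only [numTT, numPP, Finset.sum_range_succ, Finset.sum_range_zero, Nat.factorial]; norm_num))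

lemma nd0 : 0.39894228 ≤ phi 0 ∧ phi 0 ≤ 0.39894229 ∧ 0.50000000 ≤ Qb 0 :=
  num_node (by norm_num) (by nd_check) (by nd_check) (by nd_check) (by nd_check)

lemma nd0_25 : 0.38666811 ≤ phi 0.25 ∧ phi 0.25 ≤ 0.38666812 ∧ 0.40129367 ≤ Qb 0.25 :=
  num_node (by norm_num) (by nd_check) (by nd_check) (by nd_check) (by nd_check)

lemma nd0_4 : 0.36827013 ≤ phi 0.4 ∧ phi 0.4 ≤ 0.36827015 ∧ 0.34457825 ≤ Qb 0.4 :=
  num_node (by norm_num) (by nd_check) (by nd_check) (by nd_check) (by nd_check)

lemma nd0_5 : 0.35206532 ≤ phi 0.5 ∧ phi 0.5 ≤ 0.35206533 ∧ 0.30853753 ≤ Qb 0.5 :=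
  num_node (by norm_num) (by nd_check) (by nd_check) (by nd_check) (by nd_check)

lemma nd0_6 : 0.33322460 ≤ phi 0.6 ∧ phi 0.6 ≤ 0.33322461 ∧ 0.27425311 ≤ Qb 0.6 :=
  num_node (by norm_num) (by nd_check) (by nd_check) (by nd_check) (by nd_check)

lemma nd0_7 : 0.31225393 ≤ phi 0.7 ∧ phi 0.7 ≤ 0.31225394 ∧ 0.24196365 ≤ Qb 0.7 :=
  num_node (by norm_num) (by nd_check) (by nd_check) (by nd_check) (by nd_check)

lemma nd0_8 : 0.28969155 ≤ phi 0.8 ∧ phi 0.8 ≤ 0.28969156 ∧ 0.21185539 ≤ Qb 0.8 :=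
  num_node (by norm_num) (by nd_check) (by nd_check) (by nd_check) (by nd_check)

lemma nd0_95 : 0.25405905 ≤ phi 0.95 ∧ phi 0.95 ≤ 0.25405906 ∧ 0.17105612 ≤ Qb 0.95 :=
  num_node (by norm_num) (by nd_check) (by nd_check) (by nd_check) (by nd_check)

lemma nd1_1 : 0.21785217 ≤ phi 1.1 ∧ phi 1.1 ≤ 0.21785218 ∧ 0.13566606 ≤ Qb 1.1 :=
  num_node (by norm_num) (by nd_check) (by nd_check) (by nd_check) (by nd_check)

lemma nd1_25 : 0.18264908 ≤ phi 1.25 ∧ phi 1.25 ≤ 0.18264909 ∧ 0.10564977 ≤ Qb 1.25 :=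
  num_node (by norm_num) (by nd_check) (by nd_check) (by nd_check) (by nd_check)

lemma nd1_4 : 0.14972746 ≤ phi 1.4 ∧ phi 1.4 ≤ 0.14972747 ∧ 0.08075665 ≤ Qb 1.4 :=
  num_node (by norm_num) (by nd_check) (by nd_check) (by nd_check) (by nd_check)

lemma nd1_5 : 0.12951759 ≤ phi 1.5 ∧ phi 1.5 ≤ 0.12951760 ∧ 0.06680720 ≤ Qb 1.5 :=
  num_node (by norm_num) (by nd_check) (by nd_check) (by nd_check) (by nd_check)

lemma nd1_6 : 0.11092083 ≤ phi 1.6 ∧ phi 1.6 ≤ 0.11092084 ∧ 0.05479929 ≤ Qb 1.6 :=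
  num_node (by norm_num) (by nd_check) (by nd_check) (by nd_check) (by nd_check)

lemma nd1_7 : 0.09404907 ≤ phi 1.7 ∧ phi 1.7 ≤ 0.09404908 ∧ 0.04456546 ≤ Qb 1.7 :=
  num_node (by norm_num) (by nd_check) (by nd_check) (by nd_check) (by nd_check)

lemma nd1_8 : 0.07895015 ≤ phi 1.8 ∧ phi 1.8 ≤ 0.07895016 ∧ 0.03593031 ≤ Qb 1.8 :=
  num_node (by norm_num) (by nd_check) (by nd_check) (by nd_check) (by nd_check)

lemma nd1_95 : 0.05959470 ≤ phi 1.95 ∧ phi 1.95 ≤ 0.05959471 ∧ 0.02558805 ≤ Qb 1.95 :=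
  num_node (by norm_num) (by nd_check) (by nd_check) (by nd_check) (by nd_check)

lemma nd2_1 : 0.04398359 ≤ phi 2.1 ∧ phi 2.1 ≤ 0.04398360 ∧ 0.01786441 ≤ Qb 2.1 :=
  num_node (by norm_num) (by nd_check) (by nd_check) (by nd_check) (by nd_check)

lemma nd2_4 : 0.02239453 ≤ phi 2.4 ∧ phi 2.4 ≤ 0.02239454 ∧ 0.00819753 ≤ Qb 2.4 :=
  num_node (by norm_num) (by nd_check) (by nd_check) (by nd_check) (by nd_check)

lemma nd0_2 : 0.39104269 ≤ phi 0.2 ∧ phi 0.2 ≤ 0.39104270 ∧ 0.42074029 ≤ Qb 0.2 :=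
  num_node (by norm_num) (by nd_check) (by nd_check) (by nd_check) (by nd_check)

lemma nd0_3 : 0.38138781 ≤ phi 0.3 ∧ phi 0.3 ≤ 0.38138782 ∧ 0.38208857 ≤ Qb 0.3 :=
  num_node (by norm_num) (by nd_check) (by nd_check) (by nd_check) (by nd_check)

lemma nd0_45 : 0.36052696 ≤ phi 0.45 ∧ phi 0.45 ≤ 0.36052697 ∧ 0.32635522 ≤ Qb 0.45 :=
  num_node (by norm_num) (by nd_check) (by nd_check) (by nd_check) (by nd_check)

lemma lines_all (a : ℝ) : Lines (phi a * psi a) (Qb a) := by
  rcases lt_or_ge a 0 with h | h0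
  · exact Or.inl (Qb_zero ▸ (Qb_strictAnti h).le)
  rcases le_or_gt a 0.25 with h | h
  · have := num_piece (A := -0.086189) (B := 0.4907) (by norm_num) (by norm_num)
      (num_endp nd0 (by norm_num) (by norm_num) (by norm_num) (by norm_num))
      (num_endp nd0_25 (by norm_num) (by norm_num) (by norm_num) (by norm_num)) h0 h
    exact Or.inr <| Or.inl this
  have h1 := h.le
  clear h
  rcases le_or_gt a 0.4 with h | h
  · have := num_piece (A := -0.072224) (B := 0.4559) (by norm_num) (by norm_num)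
      (num_endp nd0_25 (by norm_num) (by norm_num) (by norm_num) (by norm_num))
      (num_endp nd0_4 (by norm_num) (by norm_num) (by norm_num) (by norm_num)) h1 h
    exact Or.inr <| Or.inr <| Or.inl this
  have h2 := h.le
  clear h
  rcases le_or_gt a 0.5 with h | h
  · have := num_piece (A := -0.060714) (B := 0.4225) (by norm_num) (by norm_num)
      (num_endp nd0_4 (by norm_num) (by norm_num) (by norm_num) (by norm_num))
      (num_endp nd0_5 (by norm_num) (by norm_num) (by norm_num) (by norm_num)) h2 h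
    exact Or.inr <| Or.inr <| Or.inr <| Or.inl this
  have h3 := h.le
  clear h
  rcases le_or_gt a 0.6 with h | h
  · have := num_piece (A := -0.051241) (B := 0.3918) (by norm_num) (by norm_num)
      (num_endp nd0_5 (by norm_num) (by norm_num) (by norm_num) (by norm_num))
      (num_endp nd0_6 (by norm_num) (by norm_num) (by norm_num) (by norm_num)) h3 h
    exact Or.inr <| Or.inr <| Or.inr <| Or.inr <| Or.inl this
  have h4 := h.le
  clear h
  rcases le_or_gt a 0.7 with h | h
  · have := num_piece (A := -0.042245) (B := 0.359) (by norm_num) (by norm_num)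
      (num_endp nd0_6 (by norm_num) (by norm_num) (by norm_num) (by norm_num))
      (num_endp nd0_7 (by norm_num) (by norm_num) (by norm_num) (by norm_num)) h4 h
    exact Or.inr <| Or.inr <| Or.inr <| Or.inr <| Or.inr <| Or.inl this
  have h5 := h.le
  clear h
  rcases le_or_gt a 0.8 with h | h
  · have := num_piece (A := -0.034066) (B := 0.3252) (by norm_num) (by norm_num)
      (num_endp nd0_7 (by norm_num) (by norm_num) (by norm_num) (by norm_num))
      (num_endp nd0_8 (by norm_num) (by norm_num) (by norm_num) (by norm_num)) h5 h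
    exact Or.inr <| Or.inr <| Or.inr <| Or.inr <| Or.inr <| Or.inr <| Or.inl this
  have h6 := h.le
  clear h
  rcases le_or_gt a 0.95 with h | h
  · have := num_piece (A := -0.025211) (B := 0.2834) (by norm_num) (by norm_num)
      (num_endp nd0_8 (by norm_num) (by norm_num) (by norm_num) (by norm_num))
      (num_endp nd0_95 (by norm_num) (by norm_num) (by norm_num) (by norm_num)) h6 h
    exact Or.inr <| Or.inr <| Or.inr <| Or.inr <| Or.inr <| Or.inr <| Or.inr <| Or.inl this
  have h7 := h.le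
  clear h
  rcases le_or_gt a 1.1 with h | h
  · have := num_piece (A := -0.016914) (B := 0.2349) (by norm_num) (by norm_num)
      (num_endp nd0_95 (by norm_num) (by norm_num) (by norm_num) (by norm_num))
      (num_endp nd1_1 (by norm_num) (by norm_num) (by norm_num) (by norm_num)) h7 h
    exact Or.inr <| Or.inr <| Or.inr <| Or.inr <| Or.inr <| Or.inr <| Or.inr <| Or.inr <| Or.inl this
  have h8 := h.le
  clear h
  rcases le_or_gt a 1.25 with h | h
  · have := num_piece (A := -0.010849) (B := 0.1902) (by norm_num) (by norm_num)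
      (num_endp nd1_1 (by norm_num) (by norm_num) (by norm_num) (by norm_num))
      (num_endp nd1_25 (by norm_num) (by norm_num) (by norm_num) (by norm_num)) h8 h
    exact Or.inr <| Or.inr <| Or.inr <| Or.inr <| Or.inr <| Or.inr <| Or.inr <| Or.inr <| Or.inr <| Or.inl this
  have h9 := h.le
  clear h
  rcases le_or_gt a 1.4 with h | h
  · have := num_piece (A := -0.006669) (B := 0.1506) (by norm_num) (by norm_num)
      (num_endp nd1_25 (by norm_num) (by norm_num) (by norm_num) (by norm_num))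
      (num_endp nd1_4 (by norm_num) (by norm_num) (by norm_num) (by norm_num)) h9 h
    exact Or.inr <| Or.inr <| Or.inr <| Or.inr <| Or.inr <| Or.inr <| Or.inr <| Or.inr <| Or.inr <| Or.inr <| Or.inl this
  have h10 := h.le
  clear h
  rcases le_or_gt a 1.5 with h | h
  · have := num_piece (A := -0.004319) (B := 0.1215) (by norm_num) (by norm_num)
      (num_endp nd1_4 (by norm_num) (by norm_num) (by norm_num) (by norm_num))
      (num_endp nd1_5 (by norm_num) (by norm_num) (by norm_num) (by norm_num)) h10 h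
    exact Or.inr <| Or.inr <| Or.inr <| Or.inr <| Or.inr <| Or.inr <| Or.inr <| Or.inr <| Or.inr <| Or.inr <| Or.inr <| Or.inl this
  have h11 := h.le
  clear h
  rcases le_or_gt a 1.6 with h | h
  · have := num_piece (A := -0.002976) (B := 0.1014) (by norm_num) (by norm_num)
      (num_endp nd1_5 (by norm_num) (by norm_num) (by norm_num) (by norm_num))
      (num_endp nd1_6 (by norm_num) (by norm_num) (by norm_num) (by norm_num)) h11 h
    exact Or.inr <| Or.inr <| Or.inr <| Or.inr <| Or.inr <| Or.inr <| Or.inr <| Or.inr <| Or.inr <| Or.inr <| Or.inr <| Or.inr <| Or.inl this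
  have h12 := h.le
  clear h
  rcases le_or_gt a 1.7 with h | h
  · have := num_piece (A := -0.002012) (B := 0.0838) (by norm_num) (by norm_num)
      (num_endp nd1_6 (by norm_num) (by norm_num) (by norm_num) (by norm_num))
      (num_endp nd1_7 (by norm_num) (by norm_num) (by norm_num) (by norm_num)) h12 h
    exact Or.inr <| Or.inr <| Or.inr <| Or.inr <| Or.inr <| Or.inr <| Or.inr <| Or.inr <| Or.inr <| Or.inr <| Or.inr <| Or.inr <| Or.inr <| Or.inl this
  have h13 := h.le
  clear h
  rcases le_or_gt a 1.8 with h | h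
  · have := num_piece (A := -0.001339) (B := 0.0687) (by norm_num) (by norm_num)
      (num_endp nd1_7 (by norm_num) (by norm_num) (by norm_num) (by norm_num))
      (num_endp nd1_8 (by norm_num) (by norm_num) (by norm_num) (by norm_num)) h13 h
    exact Or.inr <| Or.inr <| Or.inr <| Or.inr <| Or.inr <| Or.inr <| Or.inr <| Or.inr <| Or.inr <| Or.inr <| Or.inr <| Or.inr <| Or.inr <| Or.inr <| Or.inl this
  have h14 := h.le
  clear h
  rcases le_or_gt a 1.95 with h | h
  · have := num_piece (A := -0.000778) (B := 0.0531) (by norm_num) (by norm_num)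
      (num_endp nd1_8 (by norm_num) (by norm_num) (by norm_num) (by norm_num))
      (num_endp nd1_95 (by norm_num) (by norm_num) (by norm_num) (by norm_num)) h14 h
    exact Or.inr <| Or.inr <| Or.inr <| Or.inr <| Or.inr <| Or.inr <| Or.inr <| Or.inr <| Or.inr <| Or.inr <| Or.inr <| Or.inr <| Or.inr <| Or.inr <| Or.inr <| Or.inl this
  have h15 := h.le
  clear h
  rcases le_or_gt a 2.1 with h | h
  · have := num_piece (A := -0.000392) (B := 0.038) (by norm_num) (by norm_num)
      (num_endp nd1_95 (by norm_num) (by norm_num) (by norm_num) (by norm_num))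
      (num_endp nd2_1 (by norm_num) (by norm_num) (by norm_num) (by norm_num)) h15 h
    exact Or.inr <| Or.inr <| Or.inr <| Or.inr <| Or.inr <| Or.inr <| Or.inr <| Or.inr <| Or.inr <| Or.inr <| Or.inr <| Or.inr <| Or.inr <| Or.inr <| Or.inr <| Or.inr <| Or.inl this
  have h16 := h.le
  clear h
  rcases le_or_gt a 2.4 with h | h
  · have := num_piece (A := -0.000126) (B := 0.0231) (by norm_num) (by norm_num)
      (num_endp nd2_1 (by norm_num) (by norm_num) (by norm_num) (by norm_num))
      (num_endp nd2_4 (by norm_num) (by norm_num) (by norm_num) (by norm_num)) h16 h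
    exact Or.inr <| Or.inr <| Or.inr <| Or.inr <| Or.inr <| Or.inr <| Or.inr <| Or.inr <| Or.inr <| Or.inr <| Or.inr <| Or.inr <| Or.inr <| Or.inr <| Or.inr <| Or.inr <| Or.inr <| Or.inl this
  have h17 := h.le
  clear h
  have := piece_last (B := 0.0076) (by norm_num) (by norm_num)
      (num_endp nd2_4 (by norm_num) (by norm_num) (by norm_num) (by norm_num)) h17
  exact Or.inr <| Or.inr <| Or.inr <| Or.inr <| Or.inr <| Or.inr <| Or.inr <| Or.inr <| Or.inr <| Or.inr <| Or.inr <| Or.inr <| Or.inr <| Or.inr <| Or.inr <| Or.inr <| Or.inr <| Or.inr <| by simpa using this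

theorem num : NumStmt := by
  refine ⟨lines_all, ?_, ?_, ?_, ?_, ?_⟩
  · have := nd0_2; unfold psi; norm_num at this ⊢; linarith
  · have := nd0_3; unfold psi; norm_num at this ⊢; linarith
  · have := nd0_4; unfold psi; norm_num at this ⊢; linarith
  · have := nd0_45; unfold psi; norm_num at this ⊢; linarith
  · have := nd0_5; unfold psi; norm_num at this ⊢; linarith

end Crest.Agent.Prp
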