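import Crest.Agent.Prp.Defs

set_option autoImplicit false
set_option linter.unusedSectionVars false
set_option linter.unusedVariables false

open MeasureTheory ProbabilityTheory Set Filter Topology

namespace Crest.Agent.Prp

lemma phi_eq_pdf (a : ℝ) : phi a = gaussianPDFReal 0 1 a := by
  simp only [phi, gaussianPDFReal, NNReal.coe_one, mul_one, sub_zero]
  rw [div_eq_inv_mul]

lemma sqrt_two_pi_pos : 0 < Real.sqrt (2 * Real.pi) := Real.sqrt_pos.2 (by positivity)

lemma phi_pos (a : ℝ) : 0 < phi a := div_pos (Real.exp_pos _) sqrt_two_pi_pos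

lemma phi_neg (a : ℝ) : phi (-a) = phi a := by simp [phi]

lemma phi_zero : phi 0 = 1 / Real.sqrt (2 * Real.pi) := by simp [phi]

lemma phi_zero_sq : phi 0 ^ 2 = 1 / (2 * Real.pi) := by
  rw [phi_zero, div_pow, Real.sq_sqrt (by positivity), one_pow]

lemma phi_le (a : ℝ) : phi a ≤ phi 0 := by
  unfold phi
  exact div_le_div_of_nonneg_right (Real.exp_le_exp.2 (by nlinarith [sq_nonneg a]))
    sqrt_two_pi_pos.le

lemma phi_anti {a b : ℝ} (ha : 0 ≤ a) (hab : a ≤ b) : phi b ≤ phi a := by
  unfold phi
  gcongr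

@[fun_prop]
lemma continuous_phi : Continuous phi := by unfold phi; fun_prop

lemma integrable_phi : Integrable phi := by
  have : phi = gaussianPDFReal 0 1 := funext phi_eq_pdf
  rw [this]; exact integrable_gaussianPDFReal 0 1

lemma hasDerivAt_phi (a : ℝ) : HasDerivAt phi (-a * phi a) a := by
  have h1 : HasDerivAt (fun x : ℝ => -x ^ 2 / 2) (-a) a := by
    have := ((hasDerivAt_pow 2 a).fun_neg).div_const 2
    exact this.congr_deriv (by norm_num; ring)
  have := (h1.exp).div_const (Real.sqrt (2 * Real.pi))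
  exact this.congr_deriv (by unfold phi; ring)

lemma integral_gauss (f : ℝ → ℝ) : ∫ x, f x ∂(gaussianReal 0 1) = ∫ x, phi x * f x := by
  rw [integral_gaussianReal_eq_integral_smul one_ne_zero]
  simp [phi_eq_pdf]

lemma gauss_real_eq (s : Set ℝ) : (gaussianReal 0 1).real s = ∫ x in s, phi x := by
  rw [Measure.real, gaussianReal_apply_eq_integral 0 one_ne_zero, ENNReal.toReal_ofReal]
  · simp [phi_eq_pdf]
  · exact integral_nonneg fun x => gaussianPDFReal_nonneg _ _ _

lemma Qb_eq (a : ℝ) : Qb a = ∫ x in Ioi a, phi x := gauss_real_eq _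

lemma Qb_sub (a b : ℝ) : Qb a - Qb b = ∫ x in a..b, phi x := by
  rw [Qb_eq, Qb_eq]
  rcases le_total a b with h | h
  · rw [intervalIntegral.integral_of_le h, ← Ioc_union_Ioi_eq_Ioi h,
      setIntegral_union (Ioc_disjoint_Ioi le_rfl) measurableSet_Ioi integrable_phi.integrableOn
        integrable_phi.integrableOn]
    ring
  · rw [intervalIntegral.integral_of_ge h, ← Ioc_union_Ioi_eq_Ioi h,
      setIntegral_union (Ioc_disjoint_Ioi le_rfl) measurableSet_Ioi integrable_phi.integrableOn
        integrable_phi.integrableOn]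
    ring

lemma hasDerivAt_Qb (a : ℝ) : HasDerivAt Qb (-phi a) a := by
  have h : Qb = fun b => Qb 0 - ∫ x in (0:ℝ)..b, phi x := by
    funext b; rw [← Qb_sub]; ring
  rw [h]
  exact ((continuous_phi.integral_hasStrictDerivAt 0 a).hasDerivAt).const_sub _

@[fun_prop]
lemma continuous_Qb : Continuous Qb :=
  continuous_iff_continuousAt.2 fun a => (hasDerivAt_Qb a).continuousAt

lemma Qb_strictAnti : StrictAnti Qb :=
  strictAnti_of_deriv_neg fun a => by rw [(hasDerivAt_Qb a).deriv]; simpa using phi_pos a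

lemma Qb_nonneg (a : ℝ) : 0 ≤ Qb a := measureReal_nonneg

lemma Qb_le_one (a : ℝ) : Qb a ≤ 1 := measureReal_le_one

lemma Qb_pos (a : ℝ) : 0 < Qb a := (Qb_nonneg (a + 1)).trans_lt (Qb_strictAnti (by linarith))

lemma Qb_lt_one (a : ℝ) : Qb a < 1 :=
  (Qb_strictAnti (by linarith : a - 1 < a)).trans_le (Qb_le_one _)

instance : NullSingletonClass (gaussianReal 0 1) := nullSingletonClass_gaussianReal one_ne_zero

lemma real_Ici (a : ℝ) : (gaussianReal 0 1).real (Ici a) = Qb a := by
  rw [gauss_real_eq, Qb_eq, integral_Ici_eq_integral_Ioi]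

lemma real_Iic (a : ℝ) : (gaussianReal 0 1).real (Iic a) = 1 - Qb a := by
  rw [← compl_Ioi, measureReal_compl measurableSet_Ioi]; simp [Qb]

lemma real_Iio (a : ℝ) : (gaussianReal 0 1).real (Iio a) = 1 - Qb a := by
  rw [← real_Iic, gauss_real_eq, gauss_real_eq, integral_Iic_eq_integral_Iio]

lemma real_Ioc {a b : ℝ} (h : a ≤ b) : (gaussianReal 0 1).real (Ioc a b) = Qb a - Qb b := by
  rw [gauss_real_eq, Qb_sub, intervalIntegral.integral_of_le h]

lemma real_Icc {a b : ℝ} (h : a ≤ b) : (gaussianReal 0 1).real (Icc a b) = Qb a - Qb b := by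
  rw [← real_Ioc h, gauss_real_eq, gauss_real_eq, integral_Icc_eq_integral_Ioc]

lemma real_Ioo {a b : ℝ} (h : a ≤ b) : (gaussianReal 0 1).real (Ioo a b) = Qb a - Qb b := by
  rw [← real_Ioc h, gauss_real_eq, gauss_real_eq, integral_Ioc_eq_integral_Ioo]

lemma real_Ico {a b : ℝ} (h : a ≤ b) : (gaussianReal 0 1).real (Ico a b) = Qb a - Qb b := by
  rw [← real_Ioo h, gauss_real_eq, gauss_real_eq, integral_Ico_eq_integral_Ioo]

lemma Qb_neg (a : ℝ) : Qb (-a) = 1 - Qb a := by
  rw [← real_Iio, Qb_eq, gauss_real_eq, ← integral_Iic_eq_integral_Iio]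
  have := integral_comp_neg_Iic a phi
  simp only [phi_neg] at this
  exact this.symm

lemma Qb_zero : Qb 0 = 1 / 2 := by
  have := Qb_neg 0
  rw [neg_zero] at this; linarith

lemma Qb_sub_le {a b : ℝ} (h : a ≤ b) : Qb a - Qb b ≤ phi 0 * (b - a) := by
  rw [Qb_sub]
  have := intervalIntegral.integral_mono_on (μ := volume) h
    (continuous_phi.intervalIntegrable a b) (continuous_const.intervalIntegrable a b)
    (fun x _ => phi_le x)
  simpa [mul_comm] using this

lemma tendsto_Qb_atTop : Tendsto Qb atTop (𝓝 0) := by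
  have h : Qb = fun b => Qb 0 - ∫ x in (0:ℝ)..b, phi x := by
    funext b; rw [← Qb_sub]; ring
  have h2 := intervalIntegral_tendsto_integral_Ioi 0 integrable_phi.integrableOn tendsto_id
  have h3 := h2.const_sub (Qb 0)
  rw [← Qb_eq, sub_self] at h3
  rw [h]; exact h3

lemma tendsto_Qb_atBot : Tendsto Qb atBot (𝓝 1) := by
  have h : Qb = fun b => 1 - Qb (-b) := by funext b; rw [Qb_neg]; ring
  have := (tendsto_Qb_atTop.comp tendsto_neg_atBot_atTop).const_sub 1
  rw [sub_zero] at this
  rw [h]; exact this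

lemma exists_Qb_eq {p : ℝ} (h0 : 0 < p) (h1 : p < 1) : ∃ a, Qb a = p := by
  have := intermediate_value_univ₂_eventually₂ (l₁ := atTop) (l₂ := atBot) continuous_Qb
    (continuous_const (y := p))
    ((tendsto_Qb_atTop.eventually (gt_mem_nhds h0)).mono fun x hx => hx.le)
    ((tendsto_Qb_atBot.eventually (lt_mem_nhds h1)).mono fun x hx => hx.le)
  exact this

lemma tendsto_phi_atTop : Tendsto phi atTop (𝓝 0) := by
  have h1 : Tendsto (fun x : ℝ => -x ^ 2 / 2) atTop atBot := by
    have := (tendsto_pow_atTop (α := ℝ) two_ne_zero).atTop_div_const (r := 2) two_pos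
    have := tendsto_neg_atTop_atBot.comp this
    refine this.congr fun x => ?_
    simp [neg_div]
  have := (Real.tendsto_exp_atBot.comp h1).div_const (Real.sqrt (2 * Real.pi))
  rw [zero_div] at this
  exact this

lemma integrable_id_gauss : Integrable (fun x : ℝ => x) (gaussianReal 0 1) :=
  (memLp_id_gaussianReal (μ := 0) (v := 1) 1).integrable le_rfl

lemma integrable_mul_phi : Integrable (fun x : ℝ => phi x * x) := by
  have h := integrable_id_gauss
  rw [gaussianReal_of_var_ne_zero 0 one_ne_zero,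
    integrable_withDensity_iff_integrable_smul' (measurable_gaussianPDF _ _)
      (ae_of_all _ fun _ => gaussianPDF_lt_top)] at h
  simpa [phi_eq_pdf] using h

lemma integral_Ioi_mul_phi (a : ℝ) : ∫ x in Ioi a, phi x * x = phi a := by
  have := integral_Ioi_of_hasDerivAt_of_tendsto' (f := fun x => -phi x) (f' := fun x => phi x * x)
    (a := a) (m := 0) (fun x _ => (hasDerivAt_phi x).fun_neg.congr_deriv (by ring))
    integrable_mul_phi.integrableOn (by simpa using tendsto_phi_atTop.neg)
  simpa using this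

lemma hasDerivAt_psi (a : ℝ) : HasDerivAt psi (-Qb a) a := by
  have := (hasDerivAt_phi a).fun_sub ((hasDerivAt_id' a).fun_mul (hasDerivAt_Qb a))
  exact this.congr_deriv (by ring)

lemma integral_posPart (a : ℝ) : ∫ x, max (x - a) 0 ∂(gaussianReal 0 1) = psi a := by
  rw [integral_gauss]
  have h : (fun x => phi x * max (x - a) 0) =
      (Ioi a).indicator (fun x => phi x * x - a * phi x) := by
    funext x
    by_cases hx : a < x
    · rw [indicator_of_mem (by exact hx), max_eq_left (by linarith)]; ring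
    · rw [indicator_of_notMem (by exact hx), max_eq_right (by linarith)]; ring
  rw [h, integral_indicator measurableSet_Ioi, integral_sub integrable_mul_phi.integrableOn
    (integrable_phi.const_mul a).integrableOn, integral_Ioi_mul_phi, integral_const_mul, ← Qb_eq,
    psi]

lemma psi_nonneg (a : ℝ) : 0 ≤ psi a := by
  rw [← integral_posPart]; exact integral_nonneg fun x => le_max_right _ _

lemma psi_zero : psi 0 = phi 0 := by simp [psi]

end Crest.Agent.Prp
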