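import Crest.Agent.Prp.OneD

/-! Propeller conjecture: the shift and strip estimates. -/

set_option autoImplicit false
set_option linter.unusedSectionVars false

open MeasureTheory ProbabilityTheory Set
open scoped RealInnerProductSpace ENNReal

namespace Crest.Agent.Prp

universe u v

lemma gauss_lint (f : ℝ → ℝ≥0∞) (hf : Measurable f) :
    ∫⁻ x, f x ∂(gaussianReal 0 1) = ∫⁻ x, ENNReal.ofReal (phi x) * f x := by
  rw [gaussianReal_of_var_ne_zero 0 one_ne_zero,
    lintegral_withDensity_eq_lintegral_mul _ (measurable_gaussianPDF 0 1) hf]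
  simp only [Pi.mul_apply, gaussianPDF, phi_eq_pdf]

lemma gauss_le_phi_vol (S : Set ℝ) : gaussianReal 0 1 S ≤ ENNReal.ofReal (phi 0) * volume S := by
  rw [gaussianReal_apply 0 one_ne_zero, ← setLIntegral_const]
  refine lintegral_mono fun x => ?_
  rw [gaussianPDF, ← phi_eq_pdf]
  exact ENNReal.ofReal_le_ofReal (phi_le x)

lemma cm_one (f : ℝ → ℝ≥0∞) (hf : Measurable f) (h : ℝ) :
    ∫⁻ t, f (t - h) ∂(gaussianReal 0 1) =
      ∫⁻ t, f t * ENNReal.ofReal (Real.exp (-(t * h) - h ^ 2 / 2)) ∂(gaussianReal 0 1) := by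
  rw [gauss_lint _ (by fun_prop), gauss_lint _ (by fun_prop),
    ← lintegral_add_right_eq_self _ h]
  refine lintegral_congr fun t => ?_
  rw [add_sub_cancel_right, mul_comm (f t), ← mul_assoc, ← ENNReal.ofReal_mul (phi_pos _).le]
  congr 2
  unfold phi
  rw [div_mul_eq_mul_div, ← Real.exp_add]; congr 2; ring

section
variable {E : Type u} [NormedAddCommGroup E] [InnerProductSpace ℝ E] [FiniteDimensional ℝ E]
  [MeasurableSpace E] [BorelSpace E]

lemma lint_resample (n : E) (hn : ‖n‖ = 1) (f : E → ℝ≥0∞) (hf : Measurable f) :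
    ∫⁻ x, f x ∂(stdGaussian E) =
      ∫⁻ x, ∫⁻ t, f (x - ⟪x, n⟫ • n + t • n) ∂(gaussianReal 0 1) ∂(stdGaussian E) := by
  conv_lhs => rw [← SL.resample n hn]
  rw [lintegral_map hf (by fun_prop), lintegral_prod _ (by fun_prop)]

lemma cameron_martin (f : E → ℝ≥0∞) (hf : Measurable f) (u : E) :
    ∫⁻ x, f (x - u) ∂(stdGaussian E) =
      ∫⁻ x, f x * ENNReal.ofReal (Real.exp (-⟪x, u⟫ - ‖u‖ ^ 2 / 2)) ∂(stdGaussian E) := by
  by_cases hu : u = 0
  · simp [hu]
  have h0 : 0 < ‖u‖ := norm_pos_iff.2 hu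
  set n := ‖u‖⁻¹ • u with hn
  have hn1 : ‖n‖ = 1 := by rw [hn, norm_smul, norm_inv, norm_norm]; field_simp
  have hun : u = ‖u‖ • n := by rw [hn, smul_smul, mul_inv_cancel₀ h0.ne', one_smul]
  rw [lint_resample n hn1 (fun x => f (x - u)) (by fun_prop), lint_resample n hn1
    (fun x => f x * ENNReal.ofReal (Real.exp (-⟪x, u⟫ - ‖u‖ ^ 2 / 2))) (by fun_prop)]
  refine lintegral_congr fun x => ?_
  have := cm_one (fun t => f (x - ⟪x, n⟫ • n + t • n)) (by fun_prop) ‖u‖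
  have e1 : ∀ t : ℝ, x - ⟪x, n⟫ • n + t • n - u = x - ⟪x, n⟫ • n + (t - ‖u‖) • n := fun t => by
    rw [sub_smul, ← hun]; abel
  have e2 : ∀ t : ℝ, ⟪x - ⟪x, n⟫ • n + t • n, u⟫ = t * ‖u‖ := fun t => by
    conv_lhs => rw [hun]
    simp only [inner_add_left, inner_sub_left, real_inner_smul_left, real_inner_smul_right,
      real_inner_self_eq_norm_sq, hn1]
    ring
  simp only [e1, e2]
  exact this

lemma integrable_exp_inner (v : E) (t : ℝ) :
    Integrable (fun a : E => Real.exp (t * ⟪a, v⟫)) (stdGaussian E) := by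
  have hm : AEMeasurable (fun a : E => ⟪a, v⟫) (stdGaussian E) := by fun_prop
  have := integrable_exp_mul_gaussianReal (μ := 0) (v := ‖v‖₊ ^ 2) t
  rw [← SL.map_inner_std] at this
  exact (integrable_map_measure (by fun_prop) hm).mp this

end

lemma exp_neg_le_quad (u : ℝ) : Real.exp (-u) ≤ 1 - u + 2 * (u ^ 2 * Real.exp |u|) := by
  have h1 : 1 ≤ Real.exp |u| := Real.one_le_exp (abs_nonneg _)
  rcases le_or_gt |u| 1 with h | h
  · have := Real.abs_exp_sub_one_sub_id_le (x := -u) (by rwa [abs_neg])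
    have h2 := le_abs_self (Real.exp (-u) - 1 - -u)
    nlinarith [sq_nonneg u]
  · have h2 : Real.exp (-u) ≤ Real.exp |u| := Real.exp_le_exp.2 (neg_le_abs u)
    have h3 := Real.add_one_le_exp |u|
    have h4 : 1 ≤ u ^ 2 := by rw [← sq_abs]; nlinarith
    nlinarith [le_abs_self u]

theorem shift (E : Type u) [NormedAddCommGroup E] [InnerProductSpace ℝ E] [FiniteDimensional ℝ E]
    [MeasurableSpace E] [BorelSpace E] : ShiftStmt E := by
  intro C hC v
  let g : E → ℝ := fun x => 4 * (Real.exp (2 * ⟪x, v⟫) + Real.exp (-2 * ⟪x, v⟫))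
  have hg : Integrable g (stdGaussian E) :=
    ((integrable_exp_inner v 2).add (integrable_exp_inner v (-2))).const_mul 4
  refine ⟨∫ x in C, g x ∂(stdGaussian E), fun ε h0 h1 => ?_⟩
  have hid : Integrable (fun x : E => x) (stdGaussian E) := IsGaussian.integrable_id
  have hin : Integrable (fun x : E => ⟪x, v⟫) (stdGaussian E) := hid.inner_const v
  have e1 : ⟪∫ x in C, x ∂(stdGaussian E), v⟫ = ∫ x in C, ⟪x, v⟫ ∂(stdGaussian E) := by
    rw [real_inner_comm, ← integral_inner hid.integrableOn]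
    simp only [real_inner_comm]
  have hex : Integrable (fun x : E => Real.exp (-⟪x, ε • v⟫ - ‖ε • v‖ ^ 2 / 2)) (stdGaussian E) := by
    have := (integrable_exp_inner (ε • v) (-1)).mul_const (Real.exp (-(‖ε • v‖ ^ 2 / 2)))
    refine this.congr (Filter.Eventually.of_forall fun x => ?_)
    simp only [← Real.exp_add]; congr 1; ring
  have e2 : (stdGaussian E).real {x | x - ε • v ∈ C} =
      ∫ x in C, Real.exp (-⟪x, ε • v⟫ - ‖ε • v‖ ^ 2 / 2) ∂(stdGaussian E) := by
    have h2 := cameron_martin (C.indicator 1) (measurable_one.indicator hC) (ε • v)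
    have h3 : MeasurableSet {x : E | x - ε • v ∈ C} := (measurable_id.sub_const _) hC
    rw [integral_eq_lintegral_of_nonneg_ae
      (Filter.Eventually.of_forall fun x => (Real.exp_pos _).le) hex.integrableOn.1,
      ← lintegral_indicator hC, measureReal_def, ← lintegral_indicator_one h3]
    congr 1
    refine Eq.trans ?_ (h2.trans ?_)
    · rfl
    · refine lintegral_congr fun x => ?_
      by_cases hx : x ∈ C <;> simp [hx]
  have e3 : (stdGaussian E).real C = ∫ x in C, (1 : ℝ) ∂(stdGaussian E) := by simp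
  rw [e1, e2, e3, ← integral_sub (integrable_const _) hex.integrableOn, ← integral_const_mul,
    ← integral_mul_const, ← integral_sub (hin.const_mul ε).integrableOn
      (hg.mul_const _).integrableOn]
  refine integral_mono ((hin.const_mul ε).sub (hg.mul_const _)).integrableOn
    ((integrable_const _).sub hex).integrableOn fun x => ?_
  simp only [g, real_inner_smul_right]
  set s := ⟪x, v⟫
  have h2 : Real.exp (-(ε * s) - ‖ε • v‖ ^ 2 / 2) ≤ Real.exp (-(ε * s)) :=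
    Real.exp_le_exp.2 (by nlinarith [sq_nonneg ‖ε • v‖])
  have h3 := exp_neg_le_quad (ε * s)
  have h4 : Real.exp |ε * s| ≤ Real.exp |s| := by
    rw [Real.exp_le_exp, abs_mul, abs_of_nonneg h0]
    exact mul_le_of_le_one_left (abs_nonneg _) h1
  have h5 : s ^ 2 ≤ 2 * Real.exp |s| := by
    have := Real.pow_div_factorial_le_exp |s| (abs_nonneg _) 2
    rw [sq_abs] at this; norm_num at this; linarith
  have h6 : Real.exp |s| * Real.exp |s| ≤ Real.exp (2 * s) + Real.exp (-2 * s) := by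
    rw [← Real.exp_add]
    rcases abs_cases s with h | h
    · rw [h.1, ← two_mul]; linarith [Real.exp_pos (-2 * s)]
    · rw [h.1, show -s + -s = -2 * s by ring]; linarith [Real.exp_pos (2 * s)]
  have h7 : s ^ 2 * Real.exp |ε * s| ≤ 2 * (Real.exp (2 * s) + Real.exp (-2 * s)) := by
    have := mul_le_mul h5 h4 (Real.exp_pos _).le (by positivity)
    linarith
  have h8 := mul_le_mul_of_nonneg_left h7 (sq_nonneg ε)
  rw [mul_pow] at h3
  nlinarith

theorem strip (E : Type u) [NormedAddCommGroup E] [InnerProductSpace ℝ E] [FiniteDimensional ℝ E]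
    [MeasurableSpace E] [BorelSpace E] : StripStmt.{u, v} E := by
  intro ι T α β n kf kf' κ κ' t Z hκ hκ' ht hkf hkf' hn1 hn2 hdet hZm hZi hZ0 hZn hZinv
  have hβ : 0 < ‖β‖ := by
    rcases (norm_nonneg β).eq_or_lt with h | h
    · rw [← h] at hdet; nlinarith [sq_nonneg ⟪α, β⟫]
    · exact h
  set e2 := ‖β‖⁻¹ • β with he2
  have he21 : ‖e2‖ = 1 := by rw [he2, norm_smul, norm_inv, norm_norm]; field_simp
  set a' := α - (⟪α, β⟫ / ‖β‖ ^ 2) • β with ha'
  have ha'β : ⟪β, a'⟫ = 0 := by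
    rw [ha', inner_sub_right, real_inner_smul_right, real_inner_self_eq_norm_sq, real_inner_comm]
    field_simp; ring
  have ha'α : ⟪α, a'⟫ = ‖a'‖ ^ 2 := by
    have : α = a' + (⟪α, β⟫ / ‖β‖ ^ 2) • β := by rw [ha']; abel
    conv_lhs => rw [this]
    rw [inner_add_left, real_inner_smul_left, ha'β, real_inner_self_eq_norm_sq]; ring
  have hδ2 : ‖a'‖ ^ 2 * ‖β‖ ^ 2 = ‖α‖ ^ 2 * ‖β‖ ^ 2 - ⟪α, β⟫ ^ 2 := by
    rw [← ha'α, ha', inner_sub_right, real_inner_smul_right, real_inner_self_eq_norm_sq]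
    field_simp
  have hδ : 0 < ‖a'‖ := by
    rcases (norm_nonneg a').eq_or_lt with h | h
    · rw [← h] at hδ2; nlinarith
    · exact h
  have hsq : Real.sqrt (‖α‖ ^ 2 * ‖β‖ ^ 2 - ⟪α, β⟫ ^ 2) = ‖a'‖ * ‖β‖ := by
    rw [← hδ2, ← mul_pow, Real.sqrt_sq (by positivity)]
  set e1 := ‖a'‖⁻¹ • a' with he1
  have he11 : ‖e1‖ = 1 := by rw [he1, norm_smul, norm_inv, norm_norm]; field_simp
  have hαe1 : ⟪α, e1⟫ = ‖a'‖ := by rw [he1, real_inner_smul_right, ha'α]; field_simp
  have hβe1 : ⟪β, e1⟫ = 0 := by rw [he1, real_inner_smul_right, ha'β, mul_zero]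
  have hne1 : ∀ j ∈ T, ⟪n j, e1⟫ = 0 := fun j hj => by
    rw [he1, real_inner_smul_right, ha', inner_sub_right, real_inner_smul_right, hn1 j hj,
      hn2 j hj]; simp
  have hβe2 : ⟪β, e2⟫ = ‖β‖ := by
    rw [he2, real_inner_smul_right, real_inner_self_eq_norm_sq]; field_simp
  have hZe1 : ∀ x s, Z (x - ⟪x, e1⟫ • e1 + s • e1) = Z x := fun x s => by
    rw [← hZinv x ((s - ⟪x, e1⟫) * ‖a'‖⁻¹) (-((s - ⟪x, e1⟫) * ‖a'‖⁻¹ * (⟪α, β⟫ / ‖β‖ ^ 2)))]
    congr 1
    generalize ⟪x, e1⟫ = c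
    rw [he1, ha']; module
  have hZe2 : ∀ x s, Z (x - ⟪x, e2⟫ • e2 + s • e2) = Z x := fun x s => by
    rw [← hZinv x 0 ((s - ⟪x, e2⟫) * ‖β‖⁻¹)]
    congr 1
    generalize ⟪x, e2⟫ = c
    rw [he2]; module
  set S := {x : E | 0 ≤ ⟪α, x⟫ ∧ 0 ≤ ⟪β, x⟫ ∧
        (∀ j ∈ T, 0 ≤ kf j * ⟪α, x⟫ + kf' j * ⟪β, x⟫ - ⟪n j, x⟫) ∧
        ∃ j ∈ T, kf j * ⟪α, x⟫ + kf' j * ⟪β, x⟫ - ⟪n j, x⟫ < t} with hS
  have hSm : MeasurableSet S := by
    refine MeasurableSet.inter (measurableSet_le (g := fun x : E => ⟪α, x⟫) measurable_const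
      (by fun_prop)) (MeasurableSet.inter (measurableSet_le (g := fun x : E => ⟪β, x⟫)
        measurable_const (by fun_prop)) (MeasurableSet.inter ?_ ?_))
    · have : {x : E | ∀ j ∈ T, 0 ≤ kf j * ⟪α, x⟫ + kf' j * ⟪β, x⟫ - ⟪n j, x⟫} =
          ⋂ j ∈ T, {x : E | 0 ≤ kf j * ⟪α, x⟫ + kf' j * ⟪β, x⟫ - ⟪n j, x⟫} := by
        ext x; simp
      change MeasurableSet {x : E | ∀ j ∈ T, 0 ≤ kf j * ⟪α, x⟫ + kf' j * ⟪β, x⟫ - ⟪n j, x⟫}
      rw [this]
      exact T.measurableSet_biInter fun j _ => measurableSet_le measurable_const (by fun_prop)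
    · have : {x : E | ∃ j ∈ T, kf j * ⟪α, x⟫ + kf' j * ⟪β, x⟫ - ⟪n j, x⟫ < t} =
          ⋃ j ∈ T, {x : E | kf j * ⟪α, x⟫ + kf' j * ⟪β, x⟫ - ⟪n j, x⟫ < t} := by
        ext x; simp
      change MeasurableSet {x : E | ∃ j ∈ T, kf j * ⟪α, x⟫ + kf' j * ⟪β, x⟫ - ⟪n j, x⟫ < t}
      rw [this]
      exact T.measurableSet_biUnion fun j _ => measurableSet_lt (by fun_prop) measurable_const
  set S2 := {x : E | 0 ≤ ⟪β, x⟫ ∧ κ' * ⟪β, x⟫ ≤ Z x + t} with hS2
  have hS2m : MeasurableSet S2 := by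
    refine MeasurableSet.inter (measurableSet_le (g := fun x : E => ⟪β, x⟫) measurable_const
      (by fun_prop)) (measurableSet_le (f := fun x : E => κ' * ⟪β, x⟫) (g := fun x => Z x + t)
      (by fun_prop) (by fun_prop))
  have hφ := phi_pos 0
  have step1 : stdGaussian E S ≤ ENNReal.ofReal (phi 0 * (t / (κ * ‖a'‖))) * stdGaussian E S2 := by
    rw [← lintegral_indicator_one hSm, lint_resample e1 he11 _ (measurable_one.indicator hSm),
      ← setLIntegral_const, ← lintegral_indicator hS2m]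
    refine lintegral_mono fun x => ?_
    have hfm : MeasurableSet {s : ℝ | x - ⟪x, e1⟫ • e1 + s • e1 ∈ S} :=
      (show Measurable fun s : ℝ => x - ⟪x, e1⟫ • e1 + s • e1 by fun_prop) hSm
    have e : ∫⁻ s, S.indicator 1 (x - ⟪x, e1⟫ • e1 + s • e1) ∂(gaussianReal 0 1) =
        gaussianReal 0 1 {s : ℝ | x - ⟪x, e1⟫ • e1 + s • e1 ∈ S} := by
      rw [← lintegral_indicator_one hfm]; rfl
    simp only
    rw [e]
    have hA : ∀ s : ℝ, ⟪α, x - ⟪x, e1⟫ • e1 + s • e1⟫ = ⟪α, x⟫ - ⟪x, e1⟫ * ‖a'‖ + s * ‖a'‖ :=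
      fun s => by simp only [inner_add_right, inner_sub_right, real_inner_smul_right, hαe1]
    have hB : ∀ s : ℝ, ⟪β, x - ⟪x, e1⟫ • e1 + s • e1⟫ = ⟪β, x⟫ :=
      fun s => by simp [inner_add_right, inner_sub_right, real_inner_smul_right, hβe1]
    have hN : ∀ j ∈ T, ∀ s : ℝ, ⟪n j, x - ⟪x, e1⟫ • e1 + s • e1⟫ = ⟪n j, x⟫ :=
      fun j hj s => by simp [inner_add_right, inner_sub_right, real_inner_smul_right, hne1 j hj]
    by_cases hx : x ∈ S2
    · rw [indicator_of_mem hx, ENNReal.ofReal_mul hφ.le]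
      refine (gauss_le_phi_vol _).trans (mul_le_mul_right ((Real.volume_le_diam _).trans ?_) _)
      have key : ∀ s s' : ℝ, x - ⟪x, e1⟫ • e1 + s • e1 ∈ S → x - ⟪x, e1⟫ • e1 + s' • e1 ∈ S →
          s - s' ≤ t / (κ * ‖a'‖) := by
        rintro s s' ⟨-, -, -, j, hj, h1⟩ ⟨-, -, h2, -⟩
        have h3 := h2 j hj
        rw [hA, hB, hN j hj] at h1 h3
        have h4 : kf j * ((s - s') * ‖a'‖) < t := by linarith
        rw [le_div_iff₀ (by positivity)]
        rcases le_or_gt (s - s') 0 with h5 | h5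
        · nlinarith [mul_pos hκ hδ]
        · nlinarith [mul_le_mul_of_nonneg_right (hkf j hj) (mul_pos h5 hδ).le]
      refine Metric.ediam_le fun s hs s' hs' => ?_
      rw [edist_dist, Real.dist_eq]
      exact ENNReal.ofReal_le_ofReal (abs_sub_le_iff.2 ⟨key s s' hs hs', key s' s hs' hs⟩)
    · rw [indicator_of_notMem hx]
      have : {s : ℝ | x - ⟪x, e1⟫ • e1 + s • e1 ∈ S} = ∅ := by
        ext s
        simp only [mem_ofPred_eq, mem_empty_iff_false, iff_false]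
        rintro ⟨h1, h2, -, j, hj, h3⟩
        rw [hB] at h2 h3; rw [hN j hj] at h3
        refine hx ⟨h2, ?_⟩
        have h4 := mul_nonneg (hκ.le.trans (hkf j hj)) h1
        have h5 := mul_le_mul_of_nonneg_right (hkf' j hj) h2
        linarith [hZn x j hj]
      rw [this]; simp
  have step2 : stdGaussian E S2 ≤
      ENNReal.ofReal (phi 0 / (κ' * ‖β‖) * (∫ x, Z x ∂(stdGaussian E) + t)) := by
    have hi : Integrable (fun x => phi 0 / (κ' * ‖β‖) * (Z x + t)) (stdGaussian E) :=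
      (hZi.add (integrable_const t)).const_mul _
    have e : phi 0 / (κ' * ‖β‖) * (∫ x, Z x ∂(stdGaussian E) + t) =
        ∫ x, phi 0 / (κ' * ‖β‖) * (Z x + t) ∂(stdGaussian E) := by
      rw [integral_const_mul, integral_add hZi (integrable_const t)]; simp
    rw [e, ofReal_integral_eq_lintegral_ofReal hi (Filter.Eventually.of_forall fun x => by
      have := hZ0 x; positivity), ← lintegral_indicator_one hS2m,
      lint_resample e2 he21 _ (measurable_one.indicator hS2m)]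
    refine lintegral_mono fun x => ?_
    have hfm : MeasurableSet {s : ℝ | x - ⟪x, e2⟫ • e2 + s • e2 ∈ S2} :=
      (show Measurable fun s : ℝ => x - ⟪x, e2⟫ • e2 + s • e2 by fun_prop) hS2m
    have e : ∫⁻ s, S2.indicator 1 (x - ⟪x, e2⟫ • e2 + s • e2) ∂(gaussianReal 0 1) =
        gaussianReal 0 1 {s : ℝ | x - ⟪x, e2⟫ • e2 + s • e2 ∈ S2} := by
      rw [← lintegral_indicator_one hfm]; rfl
    simp only
    rw [e]
    have hB : ∀ s : ℝ, ⟪β, x - ⟪x, e2⟫ • e2 + s • e2⟫ = s * ‖β‖ := fun s => by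
      have : ⟪β, x⟫ = ⟪x, e2⟫ * ‖β‖ := by
        rw [he2, real_inner_smul_right, real_inner_comm]; field_simp
      simp only [inner_add_right, inner_sub_right, real_inner_smul_right, hβe2, this]; ring
    have hsub : {s : ℝ | x - ⟪x, e2⟫ • e2 + s • e2 ∈ S2} ⊆ Icc 0 ((Z x + t) / (κ' * ‖β‖)) := by
      rintro s ⟨h1, h2⟩
      rw [hB] at h1 h2; rw [hZe2] at h2
      exact ⟨nonneg_of_mul_nonneg_left h1 hβ, by rw [le_div_iff₀ (by positivity)]; linarith⟩
    refine (measure_mono hsub).trans ((gauss_le_phi_vol _).trans (le_of_eq ?_))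
    rw [Real.volume_Icc, ← ENNReal.ofReal_mul hφ.le]
    congr 1; ring
  have hI : 0 ≤ ∫ x, Z x ∂(stdGaussian E) := integral_nonneg hZ0
  refine ENNReal.toReal_le_of_le_ofReal (by positivity)
    (step1.trans ((mul_le_mul_right step2 _).trans (le_of_eq ?_)))
  rw [← ENNReal.ofReal_mul (by positivity), hsq]
  congr 1
  have h2 := phi_zero_sq
  have e : phi 0 * (t / (κ * ‖a'‖)) * (phi 0 / (κ' * ‖β‖) * (∫ x, Z x ∂(stdGaussian E) + t)) =
      phi 0 ^ 2 * (t * (∫ x, Z x ∂(stdGaussian E) + t) / (κ * κ' * (‖a'‖ * ‖β‖))) := by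
    field_simp
  rw [e, h2]; field_simp

end Crest.Agent.Prp
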