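import Crest.Agent.Prp.Defs

set_option autoImplicit false
set_option linter.unusedVariables false

namespace Crest.Agent.Prp

lemma Lines.mono' {y y' p : ℝ} (h : Lines y p) (hy : y' ≤ y) : Lines y' p := by
  unfold Lines at *
  rcases h with h | h
  · exact Or.inl h
  refine Or.inr ?_
  iterate 17 refine h.imp (fun h => hy.trans h) fun h => ?_
  exact hy.trans h

variable {k0 R p : ℝ}

lemma Good.lin1 (h : Good k0 R p) : Lines (0.179045 * R) p := by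
  obtain ⟨-, -, ⟨y, hy, ht⟩, -⟩ := h
  refine hy.mono' (le_trans (le_of_eq ?_) (ht 1 one_pos))
  norm_num; ring

lemma Good.lin (h : Good k0 R p) (c α β : ℝ) (hc : 0 < c) (h1 : α ≤ 0.35809 / (2 * c))
    (h2 : 0.35809 * ((1 - c) ^ 2 / (2 * c * k0)) ≤ β) : Lines (α * R - β) p := by
  obtain ⟨hR, -, ⟨y, hy, ht⟩, -⟩ := h
  refine hy.mono' (le_trans ?_ (ht c hc))
  have := mul_le_mul_of_nonneg_right h1 hR.le
  have e : 0.35809 / (2 * c) * R = 0.35809 * (R / (2 * c)) := by ring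
  rw [mul_sub]; linarith

lemma sqrt_chord (R l u : ℝ) (hl : 0 ≤ l) (hu : 0 ≤ u) (h1 : l ^ 2 ≤ R) (h2 : R ≤ u ^ 2) :
    R + l * u ≤ (l + u) * Real.sqrt R := by
  have a1 : l ≤ Real.sqrt R := Real.le_sqrt_of_sq_le h1
  have a2 : Real.sqrt R ≤ u := Real.sqrt_le_iff.2 ⟨hu, h2⟩
  have a3 := Real.sq_sqrt ((sq_nonneg l).trans h1)
  nlinarith [mul_nonneg (sub_nonneg.2 a1) (sub_nonneg.2 a2)]

lemma tanl {l s : ℝ} (h : l ^ 2 = s) (c : ℝ) : 2 * c * l ≤ s + c ^ 2 := by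
  nlinarith [sq_nonneg (l - c)]

end Crest.Agent.Prp
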