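import Crest.Agent.Prp.Tree0

set_option autoImplicit false
set_option linter.unusedVariables false

namespace Crest.Agent.Prp

lemma lin_ends {lo hi c s c' s' R p : ℝ} (h : c' + s' * R ≤ p) (h1 : lo ≤ R) (h2 : R ≤ hi)
    (e1 : c + s * lo ≤ c' + s' * lo) (e2 : c + s * hi ≤ c' + s' * hi) : c + s * R ≤ p := by
  rcases le_total s s' with h3 | h3
  · nlinarith [mul_nonneg (sub_nonneg.2 h3) (sub_nonneg.2 h1)]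
  · nlinarith [mul_nonneg (sub_nonneg.2 h3) (sub_nonneg.2 h2)]

variable {R1 R2 R3 R4 R5 tT th z2 G q : ℝ}

lemma Test4.use (T : Test4 G R2 R3 tT) (r2 r3 um D0 C K : ℝ) (a : r2 ≤ R2) (b : r3 ≤ R3)
    (c : tT ≤ um) (H : r3 ≤ r2 ∧ 2 * um ≤ r3 ∧ 0 < D0 ∧
      D0 ≤ 4 * ((r2 - um) * (r3 - um) - r3 ^ 2 / 4) ∧ 0 ≤ C ∧ C * D0 ≤ D0 - 5.7 * um ∧
      K ≤ (3.1415 / 4 * C) ^ 2 * D0 * G) : K ≤ tT := by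
  obtain ⟨a1, a2, a3, a4, a5, a6, a7⟩ := H
  exact a7.trans (T r2 r3 um D0 C a b a1 c a2 a3 a4 a5 a6)

lemma Test2.use (T : Test2 R1 R2 R3 th) (h12 : R2 ≤ R1) (h23 : R3 ≤ R2) (r1 r3 tm D0 C K : ℝ)
    (a : R1 ≤ r1) (b : r3 ≤ R3) (c : th ≤ tm) (H : tm ≤ 1 / 4 ∧ 1 + 2 * tm ≤ 6 * r3 ∧ 0 < D0 ∧
      D0 ≤ Dlo r1 r3 tm ∧ 0 ≤ C ∧ C * D0 ≤ D0 - 8 / 3 * tm * (2 - 3 * r3) ∧
      K ≤ (4 * 3.1415 / 45 * C) ^ 2 * D0) : K ≤ th := by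
  obtain ⟨a1, a2, a3, a4, a5, a6, a7⟩ := H
  exact a7.trans (T r1 r3 tm D0 C a (h12.trans a) (h23.trans (h12.trans a))
    (b.trans (h23.trans h12)) (b.trans h23) b c a1 a2 a3 a4 a5 a6)

lemma Test3.use (T : Test3 q R1 R2 R3 R4 tT) (h12 : R2 ≤ R1) (h23 : R3 ≤ R2)
    (r1 r3 tm um D0 C K : ℝ) (a : R1 ≤ r1) (b : r3 ≤ R3) (c : R4 + tT ≤ tm) (d : tT ≤ um)
    (H : tm ≤ 1 / 4 ∧ 1 + 2 * tm ≤ 6 * r3 ∧ 0 < D0 ∧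
      D0 ≤ Dlo r1 r3 tm ∧ 0 ≤ C ∧ C * D0 ≤ D0 - 3 * (2 - 3 * r3) * (um + 2 * tm / 9) ∧
      K ≤ 9 * ((q * (2 * 3.1415 / 9) * C) ^ 2 * D0)) : K ≤ 10 * tT + R4 := by
  obtain ⟨a1, a2, a3, a4, a5, a6, a7⟩ := H
  have := T r1 r3 tm um D0 C a (h12.trans a) (h23.trans (h12.trans a))
    (b.trans (h23.trans h12)) (b.trans h23) b c a1 d a2 a3 a4 a5 a6
  linarith

lemma Test1.use5 (T : Test1 5 R1 R2 R3 R5 th z2) (hz : z2 ≤ (16 * R5 + R4) / 9) (h12 : R2 ≤ R1)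
    (h23 : R3 ≤ R2) (r1 r3 tm r5 D0 δ K0 K : ℝ) (a : R1 ≤ r1) (b : r3 ≤ R3) (c : th ≤ tm)
    (d : R5 ≤ r5) (H : tm ≤ 1 / 4 ∧ 0 < D0 ∧ D0 ≤ Dlo r1 r3 tm ∧
      (2 - 3 * r3) * (r5 + tm / 3) ≤ δ * D0 ∧ δ < 1 / 3 ∧ 0 ≤ K0 ∧ K0 ≤ 1 / 9 ∧
      K0 ≤ (1 / 3 - δ) * (1 / 3 + 2 * δ) ∧ K ≤ 9 * ((3 * 3.1415 / 5 * K0) ^ 2 * D0)) :
    K ≤ 16 * R5 + R4 := by
  obtain ⟨a1, a2, a3, a4, a5, a6, a7, a8, a9⟩ := H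
  have := T r1 r3 tm r5 D0 δ K0 a (h12.trans a) (h23.trans (h12.trans a))
    (b.trans (h23.trans h12)) (b.trans h23) b c a1 d a2 a3 a4 a5 a6 a7 a8
  linarith

lemma Test1.use4 (T : Test1 4 R1 R2 R3 R4 R4 (16 / 9 * R4)) (r1 r3 tm D0 δ K0 K : ℝ)
    (a1 : R1 ≤ r1) (a2 : R2 ≤ r1) (a3 : R3 ≤ r1) (b1 : r3 ≤ R1) (b2 : r3 ≤ R2) (b3 : r3 ≤ R3)
    (c : R4 ≤ tm) (H : tm ≤ 1 / 4 ∧ 0 < D0 ∧ D0 ≤ Dlo r1 r3 tm ∧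
      (2 - 3 * r3) * (tm + tm / 3) ≤ δ * D0 ∧ δ < 1 / 3 ∧ 0 ≤ K0 ∧ K0 ≤ 1 / 9 ∧
      K0 ≤ (1 / 3 - δ) * (1 / 3 + 2 * δ) ∧ K ≤ 9 / 16 * ((3 * 3.1415 / 4 * K0) ^ 2 * D0)) :
    K ≤ R4 := by
  obtain ⟨c1, c2, c3, c4, c5, c6, c7, c8, c9⟩ := H
  have := T r1 r3 tm tm D0 δ K0 a1 a2 a3 b1 b2 b3 c c1 c c2 c3 c4 c5 c6 c7 c8
  linarith

end Crest.Agent.Prp
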