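import Crest.Agent.Prp.Tree0

set_option autoImplicit false
set_option linter.unusedVariables false
set_option linter.style.longLine false

namespace Crest.Agent.Prp

variable {R p : ℝ}

lemma b5_17 (h : Good (5 / 4) R p) (h1 : 0.04 ≤ R) (h2 : R ≤ 0.045) : 0.043568 + 1.2219 * R ≤ p := by
  have t := h.lin 0.973 0.184013 0.0001074 (by norm_num) (by norm_num) (by norm_num)
  clear h
  unfold Lines at t
  rcases t with t | t | t | t | t | t | t | t | t | t | t | t | t | t | t | t | t | t | t <;> linarith

lemma b5_18 (h : Good (5 / 4) R p) (h1 : 0.045 ≤ R) (h2 : R ≤ 0.05) : 0.043402 + 1.2256 * R ≤ p := by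
  have t := h.lin 0.97 0.184582 0.0001329 (by norm_num) (by norm_num) (by norm_num)
  clear h
  unfold Lines at t
  rcases t with t | t | t | t | t | t | t | t | t | t | t | t | t | t | t | t | t | t | t <;> linarith

lemma b5_19 (h : Good (5 / 4) R p) (h1 : 0.05 ≤ R) (h2 : R ≤ 0.06) : 0.054984 + 0.9938 * R ≤ p := by
  have t := h.lin 0.965 0.185538 0.0001819 (by norm_num) (by norm_num) (by norm_num)
  clear h
  unfold Lines at t
  rcases t with t | t | t | t | t | t | t | t | t | t | t | t | t | t | t | t | t | t | t <;> linarith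

lemma b5_20 (h : Good (5 / 4) R p) (h1 : 0.06 ≤ R) (h2 : R ≤ 0.07) : 0.055719 + 0.9816 * R ≤ p := by
  have t := h.lin 0.959 0.186699 0.0002511 (by norm_num) (by norm_num) (by norm_num)
  clear h
  unfold Lines at t
  rcases t with t | t | t | t | t | t | t | t | t | t | t | t | t | t | t | t | t | t | t <;> linarith

lemma b5_21 (h : Good (5 / 4) R p) (h1 : 0.07 ≤ R) (h2 : R ≤ 0.08) : 0.055217 + 0.9888 * R ≤ p := by
  have t := h.lin 0.952 0.188072 0.0003467 (by norm_num) (by norm_num) (by norm_num)
  clear h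
  unfold Lines at t
  rcases t with t | t | t | t | t | t | t | t | t | t | t | t | t | t | t | t | t | t | t <;> linarith

lemma b5_22 (h : Good (5 / 4) R p) (h1 : 0.08 ≤ R) (h2 : R ≤ 0.09) : 0.067719 + 0.8325 * R ≤ p := by
  have t := h.lin 0.945 0.189465 0.0004586 (by norm_num) (by norm_num) (by norm_num)
  clear h
  unfold Lines at t
  rcases t with t | t | t | t | t | t | t | t | t | t | t | t | t | t | t | t | t | t | t <;> linarith

lemma b5_23 (h : Good (5 / 4) R p) (h1 : 0.09 ≤ R) (h2 : R ≤ 0.1) : 0.069591 + 0.8117 * R ≤ p := by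
  have t := h.lin 0.939 0.190676 0.0005677 (by norm_num) (by norm_num) (by norm_num)
  clear h
  unfold Lines at t
  rcases t with t | t | t | t | t | t | t | t | t | t | t | t | t | t | t | t | t | t | t <;> linarith

lemma b5_24 (h : Good (5 / 4) R p) (h1 : 0.1 ≤ R) (h2 : R ≤ 0.12) : 0.068692 + 0.8205 * R ≤ p := by
  have t := h.lin 0.929 0.192728 0.0007773 (by norm_num) (by norm_num) (by norm_num)
  clear h
  unfold Lines at t
  rcases t with t | t | t | t | t | t | t | t | t | t | t | t | t | t | t | t | t | t | t <;> linarith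

lemma b5_25 (h : Good (5 / 4) R p) (h1 : 0.12 ≤ R) (h2 : R ≤ 0.14) : 0.080272 + 0.724 * R ≤ p := by
  have t := h.lin 0.915 0.195677 0.0011311 (by norm_num) (by norm_num) (by norm_num)
  clear h
  unfold Lines at t
  rcases t with t | t | t | t | t | t | t | t | t | t | t | t | t | t | t | t | t | t | t <;> linarith

lemma b5_26 (h : Good (5 / 4) R p) (h1 : 0.14 ≤ R) (h2 : R ≤ 0.16) : 0.083459 + 0.7012 * R ≤ p := by
  have t := h.lin 0.901 0.198718 0.0015582 (by norm_num) (by norm_num) (by norm_num)
  clear h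
  unfold Lines at t
  rcases t with t | t | t | t | t | t | t | t | t | t | t | t | t | t | t | t | t | t | t <;> linarith

lemma b5_27 (h : Good (5 / 4) R p) (h1 : 0.16 ≤ R) (h2 : R ≤ 0.18) : 0.081675 + 0.7123 * R ≤ p := by
  have t := h.lin 0.887 0.201854 0.002062 (by norm_num) (by norm_num) (by norm_num)
  clear h
  unfold Lines at t
  rcases t with t | t | t | t | t | t | t | t | t | t | t | t | t | t | t | t | t | t | t <;> linarith

lemma b5_28 (h : Good (5 / 4) R p) (h1 : 0.18 ≤ R) (h2 : R ≤ 0.195) : 0.093635 + 0.6459 * R ≤ p := by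
  have t := h.lin 0.875 0.204622 0.0025578 (by norm_num) (by norm_num) (by norm_num)
  clear h
  unfold Lines at t
  rcases t with t | t | t | t | t | t | t | t | t | t | t | t | t | t | t | t | t | t | t <;> linarith

lemma b5_29 (h : Good (5 / 4) R p) (h1 : 0.195 ≤ R) (h2 : R ≤ 0.21) : 0.095331 + 0.6372 * R ≤ p := by
  have t := h.lin 0.864 0.207228 0.0030664 (by norm_num) (by norm_num) (by norm_num)
  clear h
  unfold Lines at t
  rcases t with t | t | t | t | t | t | t | t | t | t | t | t | t | t | t | t | t | t | t <;> linarith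

lemma b5_30 (h : Good (5 / 4) R p) (h1 : 0.21 ≤ R) (h2 : R ≤ 0.22) : 0.093931 + 0.6439 * R ≤ p := by
  have t := h.lin 0.855 0.209409 0.0035223 (by norm_num) (by norm_num) (by norm_num)
  clear h
  unfold Lines at t
  rcases t with t | t | t | t | t | t | t | t | t | t | t | t | t | t | t | t | t | t | t <;> linarith

lemma b5_31 (h : Good (5 / 4) R p) (h1 : 0.22 ≤ R) (h2 : R ≤ 0.235) : 0.097046 + 0.6297 * R ≤ p := by
  have t := h.lin 0.846 0.211637 0.0040154 (by norm_num) (by norm_num) (by norm_num)
  clear h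
  unfold Lines at t
  rcases t with t | t | t | t | t | t | t | t | t | t | t | t | t | t | t | t | t | t | t <;> linarith

lemma b5_32 (h : Good (5 / 4) R p) (h1 : 0.235 ≤ R) (h2 : R ≤ 0.25) : 0.104661 + 0.5973 * R ≤ p := by
  have t := h.lin 0.835 0.214425 0.0046702 (by norm_num) (by norm_num) (by norm_num)
  clear h
  unfold Lines at t
  rcases t with t | t | t | t | t | t | t | t | t | t | t | t | t | t | t | t | t | t | t <;> linarith

lemma b5_33 (h : Good (5 / 4) R p) (h1 : 0.25 ≤ R) (h2 : R ≤ 0.27) : 0.102302 + 0.6067 * R ≤ p := by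
  have t := h.lin 0.822 0.217816 0.0055211 (by norm_num) (by norm_num) (by norm_num)
  clear h
  unfold Lines at t
  rcases t with t | t | t | t | t | t | t | t | t | t | t | t | t | t | t | t | t | t | t <;> linarith

lemma b5_34 (h : Good (5 / 4) R p) (h1 : 0.27 ≤ R) (h2 : R ≤ 0.29) : 0.103815 + 0.6011 * R ≤ p := by
  have t := h.lin 0.806 0.22214 0.0066884 (by norm_num) (by norm_num) (by norm_num)
  clear h
  unfold Lines at t
  rcases t with t | t | t | t | t | t | t | t | t | t | t | t | t | t | t | t | t | t | t <;> linarith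

lemma b5_35 (h : Good (5 / 4) R p) (h1 : 0.29 ≤ R) (h2 : R ≤ 0.31) : 0.110601 + 0.5777 * R ≤ p := by
  have t := h.lin 0.791 0.226352 0.0079099 (by norm_num) (by norm_num) (by norm_num)
  clear h
  unfold Lines at t
  rcases t with t | t | t | t | t | t | t | t | t | t | t | t | t | t | t | t | t | t | t <;> linarith

lemma b5_36 (h : Good (5 / 4) R p) (h1 : 0.31 ≤ R) (h2 : R ≤ 0.33) : 0.106886 + 0.5897 * R ≤ p := by
  have t := h.lin 0.775 0.231025 0.0093566 (by norm_num) (by norm_num) (by norm_num)
  clear h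
  unfold Lines at t
  rcases t with t | t | t | t | t | t | t | t | t | t | t | t | t | t | t | t | t | t | t <;> linarith

lemma b5_37 (h : Good (5 / 4) R p) (h1 : 0.33 ≤ R) (h2 : R ≤ 0.345) : 0.106207 + 0.5918 * R ≤ p := by
  have t := h.lin 0.76 0.235585 0.0108558 (by norm_num) (by norm_num) (by norm_num)
  clear h
  unfold Lines at t
  rcases t with t | t | t | t | t | t | t | t | t | t | t | t | t | t | t | t | t | t | t <;> linarith

lemma b5_38 (h : Good (5 / 4) R p) (h1 : 0.345 ≤ R) (h2 : R ≤ 0.36) : 0.114933 + 0.5665 * R ≤ p := by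
  have t := h.lin 0.748 0.239364 0.0121606 (by norm_num) (by norm_num) (by norm_num)
  clear h
  unfold Lines at t
  rcases t with t | t | t | t | t | t | t | t | t | t | t | t | t | t | t | t | t | t | t <;> linarith

end Crest.Agent.Prp
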