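import Crest.Agent.Prp.Tree0

set_option autoImplicit false
set_option linter.unusedVariables false
set_option linter.style.longLine false

namespace Crest.Agent.Prp

variable {R p : ℝ}

lemma b6_17 (h : Good (6 / 5) R p) (h1 : 0.04 ≤ R) (h2 : R ≤ 0.045) : 0.043595 + 1.2206 * R ≤ p := by
  have t := h.lin 0.974 0.183824 0.0001036 (by norm_num) (by norm_num) (by norm_num)
  clear h
  unfold Lines at t
  rcases t with t | t | t | t | t | t | t | t | t | t | t | t | t | t | t | t | t | t | t <;> linarith

lemma b6_18 (h : Good (6 / 5) R p) (h1 : 0.045 ≤ R) (h2 : R ≤ 0.05) : 0.043423 + 1.2244 * R ≤ p := by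
  have t := h.lin 0.971 0.184392 0.0001293 (by norm_num) (by norm_num) (by norm_num)
  clear h
  unfold Lines at t
  rcases t with t | t | t | t | t | t | t | t | t | t | t | t | t | t | t | t | t | t | t <;> linarith

lemma b6_19 (h : Good (6 / 5) R p) (h1 : 0.05 ≤ R) (h2 : R ≤ 0.06) : 0.054947 + 0.9937 * R ≤ p := by
  have t := h.lin 0.966 0.185346 0.0001786 (by norm_num) (by norm_num) (by norm_num)
  clear h
  unfold Lines at t
  rcases t with t | t | t | t | t | t | t | t | t | t | t | t | t | t | t | t | t | t | t <;> linarith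

lemma b6_20 (h : Good (6 / 5) R p) (h1 : 0.06 ≤ R) (h2 : R ≤ 0.07) : 0.05573 + 0.9806 * R ≤ p := by
  have t := h.lin 0.96 0.186505 0.0002487 (by norm_num) (by norm_num) (by norm_num)
  clear h
  unfold Lines at t
  rcases t with t | t | t | t | t | t | t | t | t | t | t | t | t | t | t | t | t | t | t <;> linarith

lemma b6_21 (h : Good (6 / 5) R p) (h1 : 0.07 ≤ R) (h2 : R ≤ 0.08) : 0.055302 + 0.9867 * R ≤ p := by
  have t := h.lin 0.954 0.187678 0.000331 (by norm_num) (by norm_num) (by norm_num)
  clear h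
  unfold Lines at t
  rcases t with t | t | t | t | t | t | t | t | t | t | t | t | t | t | t | t | t | t | t <;> linarith

lemma b6_22 (h : Good (6 / 5) R p) (h1 : 0.08 ≤ R) (h2 : R ≤ 0.09) : 0.06772 + 0.8315 * R ≤ p := by
  have t := h.lin 0.948 0.188866 0.0004256 (by norm_num) (by norm_num) (by norm_num)
  clear h
  unfold Lines at t
  rcases t with t | t | t | t | t | t | t | t | t | t | t | t | t | t | t | t | t | t | t <;> linarith

lemma b6_23 (h : Good (6 / 5) R p) (h1 : 0.09 ≤ R) (h2 : R ≤ 0.1) : 0.069655 + 0.81 * R ≤ p := by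
  have t := h.lin 0.941 0.19027 0.000552 (by norm_num) (by norm_num) (by norm_num)
  clear h
  unfold Lines at t
  rcases t with t | t | t | t | t | t | t | t | t | t | t | t | t | t | t | t | t | t | t <;> linarith

lemma b6_24 (h : Good (6 / 5) R p) (h1 : 0.1 ≤ R) (h2 : R ≤ 0.12) : 0.068856 + 0.8178 * R ≤ p := by
  have t := h.lin 0.932 0.192108 0.0007403 (by norm_num) (by norm_num) (by norm_num)
  clear h
  unfold Lines at t
  rcases t with t | t | t | t | t | t | t | t | t | t | t | t | t | t | t | t | t | t | t <;> linarith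

lemma b6_25 (h : Good (6 / 5) R p) (h1 : 0.12 ≤ R) (h2 : R ≤ 0.14) : 0.080321 + 0.7223 * R ≤ p := by
  have t := h.lin 0.919 0.194825 0.0010653 (by norm_num) (by norm_num) (by norm_num)
  clear h
  unfold Lines at t
  rcases t with t | t | t | t | t | t | t | t | t | t | t | t | t | t | t | t | t | t | t <;> linarith

lemma b6_26 (h : Good (6 / 5) R p) (h1 : 0.14 ≤ R) (h2 : R ≤ 0.16) : 0.083827 + 0.6973 * R ≤ p := by
  have t := h.lin 0.906 0.197621 0.0014552 (by norm_num) (by norm_num) (by norm_num)
  clear h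
  unfold Lines at t
  rcases t with t | t | t | t | t | t | t | t | t | t | t | t | t | t | t | t | t | t | t <;> linarith

lemma b6_27 (h : Good (6 / 5) R p) (h1 : 0.16 ≤ R) (h2 : R ≤ 0.18) : 0.082068 + 0.7083 * R ≤ p := by
  have t := h.lin 0.892 0.200723 0.0019511 (by norm_num) (by norm_num) (by norm_num)
  clear h
  unfold Lines at t
  rcases t with t | t | t | t | t | t | t | t | t | t | t | t | t | t | t | t | t | t | t <;> linarith

lemma b6_28 (h : Good (6 / 5) R p) (h1 : 0.18 ≤ R) (h2 : R ≤ 0.195) : 0.093452 + 0.6451 * R ≤ p := by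
  have t := h.lin 0.88 0.20346 0.0024416 (by norm_num) (by norm_num) (by norm_num)
  clear h
  unfold Lines at t
  rcases t with t | t | t | t | t | t | t | t | t | t | t | t | t | t | t | t | t | t | t <;> linarith

lemma b6_29 (h : Good (6 / 5) R p) (h1 : 0.195 ≤ R) (h2 : R ≤ 0.21) : 0.095848 + 0.6328 * R ≤ p := by
  have t := h.lin 0.87 0.205798 0.0028984 (by norm_num) (by norm_num) (by norm_num)
  clear h
  unfold Lines at t
  rcases t with t | t | t | t | t | t | t | t | t | t | t | t | t | t | t | t | t | t | t <;> linarith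

lemma b6_30 (h : Good (6 / 5) R p) (h1 : 0.21 ≤ R) (h2 : R ≤ 0.22) : 0.094447 + 0.6395 * R ≤ p := by
  have t := h.lin 0.861 0.20795 0.0033482 (by norm_num) (by norm_num) (by norm_num)
  clear h
  unfold Lines at t
  rcases t with t | t | t | t | t | t | t | t | t | t | t | t | t | t | t | t | t | t | t <;> linarith

lemma b6_31 (h : Good (6 / 5) R p) (h1 : 0.22 ≤ R) (h2 : R ≤ 0.235) : 0.097035 + 0.6277 * R ≤ p := by
  have t := h.lin 0.853 0.2099 0.0037798 (by norm_num) (by norm_num) (by norm_num)
  clear h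
  unfold Lines at t
  rcases t with t | t | t | t | t | t | t | t | t | t | t | t | t | t | t | t | t | t | t <;> linarith

lemma b6_32 (h : Good (6 / 5) R p) (h1 : 0.235 ≤ R) (h2 : R ≤ 0.25) : 0.105355 + 0.5923 * R ≤ p := by
  have t := h.lin 0.842 0.212642 0.0044237 (by norm_num) (by norm_num) (by norm_num)
  clear h
  unfold Lines at t
  rcases t with t | t | t | t | t | t | t | t | t | t | t | t | t | t | t | t | t | t | t <;> linarith

lemma b6_33 (h : Good (6 / 5) R p) (h1 : 0.25 ≤ R) (h2 : R ≤ 0.27) : 0.103016 + 0.6016 * R ≤ p := by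
  have t := h.lin 0.829 0.215977 0.0052629 (by norm_num) (by norm_num) (by norm_num)
  clear h
  unfold Lines at t
  rcases t with t | t | t | t | t | t | t | t | t | t | t | t | t | t | t | t | t | t | t <;> linarith

lemma b6_34 (h : Good (6 / 5) R p) (h1 : 0.27 ≤ R) (h2 : R ≤ 0.29) : 0.104093 + 0.5976 * R ≤ p := by
  have t := h.lin 0.815 0.219687 0.0062657 (by norm_num) (by norm_num) (by norm_num)
  clear h
  unfold Lines at t
  rcases t with t | t | t | t | t | t | t | t | t | t | t | t | t | t | t | t | t | t | t <;> linarith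

lemma b6_35 (h : Good (6 / 5) R p) (h1 : 0.29 ≤ R) (h2 : R ≤ 0.31) : 0.111749 + 0.5712 * R ≤ p := by
  have t := h.lin 0.8 0.223806 0.0074603 (by norm_num) (by norm_num) (by norm_num)
  clear h
  unfold Lines at t
  rcases t with t | t | t | t | t | t | t | t | t | t | t | t | t | t | t | t | t | t | t <;> linarith

lemma b6_36 (h : Good (6 / 5) R p) (h1 : 0.31 ≤ R) (h2 : R ≤ 0.33) : 0.10837 + 0.5821 * R ≤ p := by
  have t := h.lin 0.785 0.228082 0.008786 (by norm_num) (by norm_num) (by norm_num)
  clear h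
  unfold Lines at t
  rcases t with t | t | t | t | t | t | t | t | t | t | t | t | t | t | t | t | t | t | t <;> linarith

lemma b6_37 (h : Good (6 / 5) R p) (h1 : 0.33 ≤ R) (h2 : R ≤ 0.345) : 0.106172 + 0.5888 * R ≤ p := by
  have t := h.lin 0.771 0.232224 0.0101484 (by norm_num) (by norm_num) (by norm_num)
  clear h
  unfold Lines at t
  rcases t with t | t | t | t | t | t | t | t | t | t | t | t | t | t | t | t | t | t | t <;> linarith

lemma b6_38 (h : Good (6 / 5) R p) (h1 : 0.345 ≤ R) (h2 : R ≤ 0.36) : 0.116935 + 0.5576 * R ≤ p := by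
  have t := h.lin 0.76 0.235585 0.0113082 (by norm_num) (by norm_num) (by norm_num)
  clear h
  unfold Lines at t
  rcases t with t | t | t | t | t | t | t | t | t | t | t | t | t | t | t | t | t | t | t <;> linarith

end Crest.Agent.Prp
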