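import Crest.Agent.Prp.Tree0

set_option autoImplicit false
set_option linter.unusedVariables false
set_option linter.style.longLine false

namespace Crest.Agent.Prp

variable {R p : ℝ}

lemma b7_17 (h : Good 1 R p) (h1 : 0.04 ≤ R) (h2 : R ≤ 0.045) : 0.043745 + 1.2144 * R ≤ p := by
  have t := h.lin 0.979 0.182885 0.0000807 (by norm_num) (by norm_num) (by norm_num)
  clear h
  unfold Lines at t
  rcases t with t | t | t | t | t | t | t | t | t | t | t | t | t | t | t | t | t | t | t <;> linarith

lemma b7_18 (h : Good 1 R p) (h1 : 0.045 ≤ R) (h2 : R ≤ 0.05) : 0.043581 + 1.2181 * R ≤ p := by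
  have t := h.lin 0.976 0.183447 0.0001057 (by norm_num) (by norm_num) (by norm_num)
  clear h
  unfold Lines at t
  rcases t with t | t | t | t | t | t | t | t | t | t | t | t | t | t | t | t | t | t | t <;> linarith

lemma b7_19 (h : Good 1 R p) (h1 : 0.05 ≤ R) (h2 : R ≤ 0.06) : 0.054934 + 0.9909 * R ≤ p := by
  have t := h.lin 0.972 0.184202 0.0001445 (by norm_num) (by norm_num) (by norm_num)
  clear h
  unfold Lines at t
  rcases t with t | t | t | t | t | t | t | t | t | t | t | t | t | t | t | t | t | t | t <;> linarith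

lemma b7_20 (h : Good 1 R p) (h1 : 0.06 ≤ R) (h2 : R ≤ 0.07) : 0.055977 + 0.9735 * R ≤ p := by
  have t := h.lin 0.967 0.185155 0.0002017 (by norm_num) (by norm_num) (by norm_num)
  clear h
  unfold Lines at t
  rcases t with t | t | t | t | t | t | t | t | t | t | t | t | t | t | t | t | t | t | t <;> linarith

lemma b7_21 (h : Good 1 R p) (h1 : 0.07 ≤ R) (h2 : R ≤ 0.08) : 0.055629 + 0.9785 * R ≤ p := by
  have t := h.lin 0.962 0.186117 0.0002688 (by norm_num) (by norm_num) (by norm_num)
  clear h
  unfold Lines at t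
  rcases t with t | t | t | t | t | t | t | t | t | t | t | t | t | t | t | t | t | t | t <;> linarith

lemma b7_22 (h : Good 1 R p) (h1 : 0.08 ≤ R) (h2 : R ≤ 0.09) : 0.067504 + 0.8301 * R ≤ p := by
  have t := h.lin 0.957 0.187089 0.000346 (by norm_num) (by norm_num) (by norm_num)
  clear h
  unfold Lines at t
  rcases t with t | t | t | t | t | t | t | t | t | t | t | t | t | t | t | t | t | t | t <;> linarith

lemma b7_23 (h : Good 1 R p) (h1 : 0.09 ≤ R) (h2 : R ≤ 0.1) : 0.070079 + 0.8015 * R ≤ p := by
  have t := h.lin 0.951 0.18827 0.0004521 (by norm_num) (by norm_num) (by norm_num)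
  clear h
  unfold Lines at t
  rcases t with t | t | t | t | t | t | t | t | t | t | t | t | t | t | t | t | t | t | t <;> linarith

lemma b7_24 (h : Good 1 R p) (h1 : 0.1 ≤ R) (h2 : R ≤ 0.12) : 0.069377 + 0.8083 * R ≤ p := by
  have t := h.lin 0.943 0.189867 0.0006169 (by norm_num) (by norm_num) (by norm_num)
  clear h
  unfold Lines at t
  rcases t with t | t | t | t | t | t | t | t | t | t | t | t | t | t | t | t | t | t | t <;> linarith

lemma b7_25 (h : Good 1 R p) (h1 : 0.12 ≤ R) (h2 : R ≤ 0.14) : 0.080283 + 0.7174 * R ≤ p := by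
  have t := h.lin 0.933 0.191902 0.0008615 (by norm_num) (by norm_num) (by norm_num)
  clear h
  unfold Lines at t
  rcases t with t | t | t | t | t | t | t | t | t | t | t | t | t | t | t | t | t | t | t <;> linarith

lemma b7_26 (h : Good 1 R p) (h1 : 0.14 ≤ R) (h2 : R ≤ 0.16) : 0.084792 + 0.6852 * R ≤ p := by
  have t := h.lin 0.922 0.194191 0.0011815 (by norm_num) (by norm_num) (by norm_num)
  clear h
  unfold Lines at t
  rcases t with t | t | t | t | t | t | t | t | t | t | t | t | t | t | t | t | t | t | t <;> linarith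

lemma b7_27 (h : Good 1 R p) (h1 : 0.16 ≤ R) (h2 : R ≤ 0.18) : 0.083464 + 0.6935 * R ≤ p := by
  have t := h.lin 0.911 0.196536 0.0015568 (by norm_num) (by norm_num) (by norm_num)
  clear h
  unfold Lines at t
  rcases t with t | t | t | t | t | t | t | t | t | t | t | t | t | t | t | t | t | t | t <;> linarith

lemma b7_28 (h : Good 1 R p) (h1 : 0.18 ≤ R) (h2 : R ≤ 0.195) : 0.092849 + 0.6414 * R ≤ p := by
  have t := h.lin 0.901 0.198718 0.0019477 (by norm_num) (by norm_num) (by norm_num)
  clear h
  unfold Lines at t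
  rcases t with t | t | t | t | t | t | t | t | t | t | t | t | t | t | t | t | t | t | t <;> linarith

lemma b7_29 (h : Good 1 R p) (h1 : 0.195 ≤ R) (h2 : R ≤ 0.21) : 0.097702 + 0.6165 * R ≤ p := by
  have t := h.lin 0.893 0.200498 0.0022956 (by norm_num) (by norm_num) (by norm_num)
  clear h
  unfold Lines at t
  rcases t with t | t | t | t | t | t | t | t | t | t | t | t | t | t | t | t | t | t | t <;> linarith

lemma b7_30 (h : Good 1 R p) (h1 : 0.21 ≤ R) (h2 : R ≤ 0.22) : 0.096679 + 0.6214 * R ≤ p := by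
  have t := h.lin 0.886 0.202082 0.0026263 (by norm_num) (by norm_num) (by norm_num)
  clear h
  unfold Lines at t
  rcases t with t | t | t | t | t | t | t | t | t | t | t | t | t | t | t | t | t | t | t <;> linarith

lemma b7_31 (h : Good 1 R p) (h1 : 0.22 ≤ R) (h2 : R ≤ 0.235) : 0.096673 + 0.6214 * R ≤ p := by
  have t := h.lin 0.879 0.203691 0.0029823 (by norm_num) (by norm_num) (by norm_num)
  clear h
  unfold Lines at t
  rcases t with t | t | t | t | t | t | t | t | t | t | t | t | t | t | t | t | t | t | t <;> linarith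

lemma b7_32 (h : Good 1 R p) (h1 : 0.235 ≤ R) (h2 : R ≤ 0.25) : 0.107974 + 0.5733 * R ≤ p := by
  have t := h.lin 0.87 0.205798 0.0034781 (by norm_num) (by norm_num) (by norm_num)
  clear h
  unfold Lines at t
  rcases t with t | t | t | t | t | t | t | t | t | t | t | t | t | t | t | t | t | t | t <;> linarith

lemma b7_33 (h : Good 1 R p) (h1 : 0.25 ≤ R) (h2 : R ≤ 0.27) : 0.106312 + 0.5799 * R ≤ p := by
  have t := h.lin 0.86 0.208191 0.0040806 (by norm_num) (by norm_num) (by norm_num)
  clear h
  unfold Lines at t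
  rcases t with t | t | t | t | t | t | t | t | t | t | t | t | t | t | t | t | t | t | t <;> linarith

lemma b7_34 (h : Good 1 R p) (h1 : 0.27 ≤ R) (h2 : R ≤ 0.29) : 0.104694 + 0.5859 * R ≤ p := by
  have t := h.lin 0.849 0.210889 0.0048085 (by norm_num) (by norm_num) (by norm_num)
  clear h
  unfold Lines at t
  rcases t with t | t | t | t | t | t | t | t | t | t | t | t | t | t | t | t | t | t | t <;> linarith

lemma b7_35 (h : Good 1 R p) (h1 : 0.29 ≤ R) (h2 : R ≤ 0.31) : 0.116268 + 0.546 * R ≤ p := by
  have t := h.lin 0.837 0.213912 0.0056835 (by norm_num) (by norm_num) (by norm_num)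
  clear h
  unfold Lines at t
  rcases t with t | t | t | t | t | t | t | t | t | t | t | t | t | t | t | t | t | t | t <;> linarith

lemma b7_36 (h : Good 1 R p) (h1 : 0.31 ≤ R) (h2 : R ≤ 0.33) : 0.113824 + 0.5539 * R ≤ p := by
  have t := h.lin 0.825 0.217024 0.0066464 (by norm_num) (by norm_num) (by norm_num)
  clear h
  unfold Lines at t
  rcases t with t | t | t | t | t | t | t | t | t | t | t | t | t | t | t | t | t | t | t <;> linarith

lemma b7_37 (h : Good 1 R p) (h1 : 0.33 ≤ R) (h2 : R ≤ 0.345) : 0.111361 + 0.5614 * R ≤ p := by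
  have t := h.lin 0.814 0.219957 0.0076097 (by norm_num) (by norm_num) (by norm_num)
  clear h
  unfold Lines at t
  rcases t with t | t | t | t | t | t | t | t | t | t | t | t | t | t | t | t | t | t | t <;> linarith

lemma b7_38 (h : Good 1 R p) (h1 : 0.345 ≤ R) (h2 : R ≤ 0.36) : 0.117538 + 0.5435 * R ≤ p := by
  have t := h.lin 0.805 0.222416 0.0084574 (by norm_num) (by norm_num) (by norm_num)
  clear h
  unfold Lines at t
  rcases t with t | t | t | t | t | t | t | t | t | t | t | t | t | t | t | t | t | t | t <;> linarith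

end Crest.Agent.Prp
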