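import Crest.Agent.Prp.Tree0

set_option autoImplicit false
set_option linter.unusedVariables false
set_option linter.style.longLine false

namespace Crest.Agent.Prp

variable {k0 R p : ℝ}

lemma bs0 (h : Good k0 R p) (h1 : 0 ≤ R) (h2 : R ≤ 0.0005) : 0 + 18.659 * R ≤ p := by
  have t := h.lin1
  clear h
  unfold Lines at t
  rcases t with t | t | t | t | t | t | t | t | t | t | t | t | t | t | t | t | t | t | t <;> linarith

lemma bs1 (h : Good k0 R p) (h1 : 0.0005 ≤ R) (h2 : R ≤ 0.001) : 0.005454 + 7.7509 * R ≤ p := by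
  have t := h.lin1
  clear h
  unfold Lines at t
  rcases t with t | t | t | t | t | t | t | t | t | t | t | t | t | t | t | t | t | t | t <;> linarith

lemma bs2 (h : Good k0 R p) (h1 : 0.001 ≤ R) (h2 : R ≤ 0.0015) : 0.005454 + 7.7509 * R ≤ p := by
  have t := h.lin1
  clear h
  unfold Lines at t
  rcases t with t | t | t | t | t | t | t | t | t | t | t | t | t | t | t | t | t | t | t <;> linarith

lemma bs3 (h : Good k0 R p) (h1 : 0.0015 ≤ R) (h2 : R ≤ 0.002) : 0.009105 + 5.3167 * R ≤ p := by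
  have t := h.lin1
  clear h
  unfold Lines at t
  rcases t with t | t | t | t | t | t | t | t | t | t | t | t | t | t | t | t | t | t | t <;> linarith

lemma bs4 (h : Good k0 R p) (h1 : 0.002 ≤ R) (h2 : R ≤ 0.003) : 0.010315 + 4.7117 * R ≤ p := by
  have t := h.lin1
  clear h
  unfold Lines at t
  rcases t with t | t | t | t | t | t | t | t | t | t | t | t | t | t | t | t | t | t | t <;> linarith

lemma bs5 (h : Good k0 R p) (h1 : 0.003 ≤ R) (h2 : R ≤ 0.004) : 0.013386 + 3.6881 * R ≤ p := by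
  have t := h.lin1
  clear h
  unfold Lines at t
  rcases t with t | t | t | t | t | t | t | t | t | t | t | t | t | t | t | t | t | t | t <;> linarith

lemma bs6 (h : Good k0 R p) (h1 : 0.004 ≤ R) (h2 : R ≤ 0.005) : 0.014651 + 3.3718 * R ≤ p := by
  have t := h.lin1
  clear h
  unfold Lines at t
  rcases t with t | t | t | t | t | t | t | t | t | t | t | t | t | t | t | t | t | t | t <;> linarith

lemma bs7 (h : Good k0 R p) (h1 : 0.005 ≤ R) (h2 : R ≤ 0.006) : 0.014651 + 3.3718 * R ≤ p := by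
  have t := h.lin1
  clear h
  unfold Lines at t
  rcases t with t | t | t | t | t | t | t | t | t | t | t | t | t | t | t | t | t | t | t <;> linarith

lemma bs8 (h : Good k0 R p) (h1 : 0.006 ≤ R) (h2 : R ≤ 0.008) : 0.01851 + 2.7287 * R ≤ p := by
  have t := h.lin1
  clear h
  unfold Lines at t
  rcases t with t | t | t | t | t | t | t | t | t | t | t | t | t | t | t | t | t | t | t <;> linarith

lemma bs9 (h : Good k0 R p) (h1 : 0.008 ≤ R) (h2 : R ≤ 0.01) : 0.020199 + 2.5176 * R ≤ p := by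
  have t := h.lin1
  clear h
  unfold Lines at t
  rcases t with t | t | t | t | t | t | t | t | t | t | t | t | t | t | t | t | t | t | t <;> linarith

lemma bs10 (h : Good k0 R p) (h1 : 0.01 ≤ R) (h2 : R ≤ 0.013) : 0.024009 + 2.1366 * R ≤ p := by
  have t := h.lin1
  clear h
  unfold Lines at t
  rcases t with t | t | t | t | t | t | t | t | t | t | t | t | t | t | t | t | t | t | t <;> linarith

lemma bs11 (h : Good k0 R p) (h1 : 0.013 ≤ R) (h2 : R ≤ 0.016) : 0.026583 + 1.9386 * R ≤ p := by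
  have t := h.lin1
  clear h
  unfold Lines at t
  rcases t with t | t | t | t | t | t | t | t | t | t | t | t | t | t | t | t | t | t | t <;> linarith

lemma bs12 (h : Good k0 R p) (h1 : 0.016 ≤ R) (h2 : R ≤ 0.02) : 0.029349 + 1.7657 * R ≤ p := by
  have t := h.lin1
  clear h
  unfold Lines at t
  rcases t with t | t | t | t | t | t | t | t | t | t | t | t | t | t | t | t | t | t | t <;> linarith

lemma bs13 (h : Good k0 R p) (h1 : 0.02 ≤ R) (h2 : R ≤ 0.025) : 0.033767 + 1.5448 * R ≤ p := by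
  have t := h.lin1
  clear h
  unfold Lines at t
  rcases t with t | t | t | t | t | t | t | t | t | t | t | t | t | t | t | t | t | t | t <;> linarith

lemma bs14 (h : Good k0 R p) (h1 : 0.025 ≤ R) (h2 : R ≤ 0.03) : 0.035547 + 1.4736 * R ≤ p := by
  have t := h.lin1
  clear h
  unfold Lines at t
  rcases t with t | t | t | t | t | t | t | t | t | t | t | t | t | t | t | t | t | t | t <;> linarith

lemma bs15 (h : Good k0 R p) (h1 : 0.03 ≤ R) (h2 : R ≤ 0.035) : 0.04293 + 1.2275 * R ≤ p := by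
  have t := h.lin1
  clear h
  unfold Lines at t
  rcases t with t | t | t | t | t | t | t | t | t | t | t | t | t | t | t | t | t | t | t <;> linarith

lemma bs16 (h : Good k0 R p) (h1 : 0.035 ≤ R) (h2 : R ≤ 0.04) : 0.044281 + 1.1889 * R ≤ p := by
  have t := h.lin1
  clear h
  unfold Lines at t
  rcases t with t | t | t | t | t | t | t | t | t | t | t | t | t | t | t | t | t | t | t <;> linarith

lemma ba37_4 (h : Good k0 R p) (h1 : 0.33 ≤ R) (h2 : R ≤ 0.345) : (-0.048034) + 1.0301 * R ≤ p := by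
  have t := sqrt_chord R 0.5744 0.5874 (by norm_num) (by norm_num) (by linarith) (by linarith)
  have u := h.2.2.2.2.2.2.2
  linarith

lemma ba38_3 (h : Good k0 R p) (h1 : 0.345 ≤ R) (h2 : R ≤ 0.36) : (-0.080165) + 1.12 * R ≤ p := by
  have t := sqrt_chord R 0.5873 0.6 (by norm_num) (by norm_num) (by linarith) (by linarith)
  have u := h.2.2.2.2.2.2.1
  linarith

lemma ba38_4 (h : Good k0 R p) (h1 : 0.345 ≤ R) (h2 : R ≤ 0.36) : (-0.040409) + 1.008 * R ≤ p := by
  have t := sqrt_chord R 0.5873 0.6 (by norm_num) (by norm_num) (by linarith) (by linarith)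
  have u := h.2.2.2.2.2.2.2
  linarith

lemma ba39_3 (h : Good k0 R p) (h1 : 0.36 ≤ R) (h2 : R ≤ 0.37) : (-0.073182) + 1.1006 * R ≤ p := by
  have t := sqrt_chord R 0.5999 0.6083 (by norm_num) (by norm_num) (by linarith) (by linarith)
  have u := h.2.2.2.2.2.2.1
  linarith

lemma ba40_2 (h : Good k0 R p) (h1 : 0.37 ≤ R) (h2 : R ≤ 0.38) : (-0.118085) + 1.2215 * R ≤ p := by
  have t := sqrt_chord R 0.6082 0.6165 (by norm_num) (by norm_num) (by linarith) (by linarith)
  have u := h.2.2.2.2.2.1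
  linarith

lemma ba40_3 (h : Good k0 R p) (h1 : 0.37 ≤ R) (h2 : R ≤ 0.38) : (-0.067706) + 1.0858 * R ≤ p := by
  have t := sqrt_chord R 0.6082 0.6165 (by norm_num) (by norm_num) (by linarith) (by linarith)
  have u := h.2.2.2.2.2.2.1
  linarith

lemma ba41_2 (h : Good k0 R p) (h1 : 0.38 ≤ R) (h2 : R ≤ 0.39) : (-0.112004) + 1.2055 * R ≤ p := by
  have t := sqrt_chord R 0.6164 0.6245 (by norm_num) (by norm_num) (by linarith) (by linarith)
  have u := h.2.2.2.2.2.1
  linarith

lemma ba42_1 (h : Good k0 R p) (h1 : 0.39 ≤ R) (h2 : R ≤ 0.4) : (-0.26247) + 1.5869 * R ≤ p := by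
  have t := sqrt_chord R 0.6244 0.6325 (by norm_num) (by norm_num) (by linarith) (by linarith)
  have u := h.2.2.2.2.1
  linarith

lemma ba42_2 (h : Good k0 R p) (h1 : 0.39 ≤ R) (h2 : R ≤ 0.4) : (-0.106037) + 1.1902 * R ≤ p := by
  have t := sqrt_chord R 0.6244 0.6325 (by norm_num) (by norm_num) (by linarith) (by linarith)
  have u := h.2.2.2.2.2.1
  linarith

lemma ba43_1 (h : Good k0 R p) (h1 : 0.4 ≤ R) (h2 : R ≤ 0.41) : (-0.254549) + 1.5671 * R ≤ p := by
  have t := sqrt_chord R 0.6324 0.6404 (by norm_num) (by norm_num) (by linarith) (by linarith)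
  have u := h.2.2.2.2.1
  linarith

lemma ba44_0 (h : Good k0 R p) (h1 : 0.41 ≤ R) (h2 : R ≤ 0.42) : (-0.570806) + 2.3222 * R ≤ p := by
  have t := sqrt_chord R 0.6403 0.6481 (by norm_num) (by norm_num) (by linarith) (by linarith)
  have u := h.2.2.2.1
  linarith

lemma ba44_1 (h : Good k0 R p) (h1 : 0.41 ≤ R) (h2 : R ≤ 0.42) : (-0.246757) + 1.5481 * R ≤ p := by
  have t := sqrt_chord R 0.6403 0.6481 (by norm_num) (by norm_num) (by linarith) (by linarith)
  have u := h.2.2.2.2.1
  linarith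

lemma ba45_0 (h : Good k0 R p) (h1 : 0.42 ≤ R) (h2 : R ≤ 0.43) : (-0.559298) + 2.2948 * R ≤ p := by
  have t := sqrt_chord R 0.648 0.6558 (by norm_num) (by norm_num) (by linarith) (by linarith)
  have u := h.2.2.2.1
  linarith

lemma ba46_0 (h : Good k0 R p) (h1 : 0.43 ≤ R) (h2 : R ≤ (4 / 9)) : (-0.545408) + 2.2625 * R ≤ p := by
  have t := sqrt_chord R 0.6557 0.6667 (by norm_num) (by norm_num) (by linarith) (by linarith)
  have u := h.2.2.2.1
  linarith

end Crest.Agent.Prp
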