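import Crest.Agent.Prp.TreeBS
import Crest.Agent.Prp.TreeB5
import Crest.Agent.Prp.Tree1

set_option autoImplicit false
set_option linter.unusedVariables false
set_option linter.style.longLine false

namespace Crest.Agent.Prp

variable {R p : ℝ}

lemma d5_0 (h : Good (5 / 4) R p) (h1 : 0.4 ≤ R) (h2 : R ≤ (4 / 9)) : (-0.25091) + 1.558 * R ≤ p := by
  rcases le_total R 0.41 with u | l43
  · exact lin_ends (ba43_1 h h1 u) h1 u (by norm_num) (by norm_num)
  rcases le_total R 0.42 with u | l44
  · linarith only [ba44_0 h l43 u, ba44_1 h l43 u, l43, u]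
  rcases le_total R 0.43 with u | l45
  · exact lin_ends (ba45_0 h l44 u) l44 u (by norm_num) (by norm_num)
  exact lin_ends (ba46_0 h l45 h2) l45 h2 (by norm_num) (by norm_num)

lemma d5_1 (h : Good (5 / 4) R p) (h1 : 0.25 ≤ R) (h2 : R ≤ (4 / 9)) : 0.07922 + 0.668 * R ≤ p := by
  rcases le_total R 0.27 with u | l33
  · exact lin_ends (b5_33 h h1 u) h1 u (by norm_num) (by norm_num)
  rcases le_total R 0.29 with u | l34
  · exact lin_ends (b5_34 h l33 u) l33 u (by norm_num) (by norm_num)
  rcases le_total R 0.31 with u | l35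
  · exact lin_ends (b5_35 h l34 u) l34 u (by norm_num) (by norm_num)
  rcases le_total R 0.33 with u | l36
  · exact lin_ends (b5_36 h l35 u) l35 u (by norm_num) (by norm_num)
  rcases le_total R 0.345 with u | l37
  · exact lin_ends (b5_37 h l36 u) l36 u (by norm_num) (by norm_num)
  rcases le_total R 0.36 with u | l38
  · linarith only [b5_38 h l37 u, ba38_3 h l37 u, ba38_4 h l37 u, l37, u]
  rcases le_total R 0.37 with u | l39
  · exact lin_ends (ba39_3 h l38 u) l38 u (by norm_num) (by norm_num)
  rcases le_total R 0.38 with u | l40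
  · exact lin_ends (ba40_2 h l39 u) l39 u (by norm_num) (by norm_num)
  rcases le_total R 0.39 with u | l41
  · exact lin_ends (ba41_2 h l40 u) l40 u (by norm_num) (by norm_num)
  rcases le_total R 0.4 with u | l42
  · exact lin_ends (ba42_1 h l41 u) l41 u (by norm_num) (by norm_num)
  rcases le_total R 0.41 with u | l43
  · exact lin_ends (ba43_1 h l42 u) l42 u (by norm_num) (by norm_num)
  rcases le_total R 0.42 with u | l44
  · exact lin_ends (ba44_0 h l43 u) l43 u (by norm_num) (by norm_num)
  rcases le_total R 0.43 with u | l45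
  · exact lin_ends (ba45_0 h l44 u) l44 u (by norm_num) (by norm_num)
  exact lin_ends (ba46_0 h l45 h2) l45 h2 (by norm_num) (by norm_num)

lemma d5_2 (h : Good (5 / 4) R p) (h1 : 0.09 ≤ R) (h2 : R ≤ 0.31) : 0.08252 + 0.668 * R ≤ p := by
  rcases le_total R 0.1 with u | l23
  · exact lin_ends (b5_23 h h1 u) h1 u (by norm_num) (by norm_num)
  rcases le_total R 0.12 with u | l24
  · exact lin_ends (b5_24 h l23 u) l23 u (by norm_num) (by norm_num)
  rcases le_total R 0.14 with u | l25
  · exact lin_ends (b5_25 h l24 u) l24 u (by norm_num) (by norm_num)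
  rcases le_total R 0.16 with u | l26
  · exact lin_ends (b5_26 h l25 u) l25 u (by norm_num) (by norm_num)
  rcases le_total R 0.18 with u | l27
  · exact lin_ends (b5_27 h l26 u) l26 u (by norm_num) (by norm_num)
  rcases le_total R 0.195 with u | l28
  · exact lin_ends (b5_28 h l27 u) l27 u (by norm_num) (by norm_num)
  rcases le_total R 0.21 with u | l29
  · exact lin_ends (b5_29 h l28 u) l28 u (by norm_num) (by norm_num)
  rcases le_total R 0.22 with u | l30
  · exact lin_ends (b5_30 h l29 u) l29 u (by norm_num) (by norm_num)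
  rcases le_total R 0.235 with u | l31
  · exact lin_ends (b5_31 h l30 u) l30 u (by norm_num) (by norm_num)
  rcases le_total R 0.25 with u | l32
  · exact lin_ends (b5_32 h l31 u) l31 u (by norm_num) (by norm_num)
  rcases le_total R 0.27 with u | l33
  · exact lin_ends (b5_33 h l32 u) l32 u (by norm_num) (by norm_num)
  rcases le_total R 0.29 with u | l34
  · exact lin_ends (b5_34 h l33 u) l33 u (by norm_num) (by norm_num)
  exact lin_ends (b5_35 h l34 h2) l34 h2 (by norm_num) (by norm_num)

lemma d5_3 (h : Good (5 / 4) R p) (h1 : 0 ≤ R) (h2 : R ≤ 0.008) : 0 + 5.042 * R ≤ p := by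
  rcases le_total R 0.0005 with u | l0
  · exact lin_ends (bs0 h h1 u) h1 u (by norm_num) (by norm_num)
  rcases le_total R 0.001 with u | l1
  · exact lin_ends (bs1 h l0 u) l0 u (by norm_num) (by norm_num)
  rcases le_total R 0.0015 with u | l2
  · exact lin_ends (bs2 h l1 u) l1 u (by norm_num) (by norm_num)
  rcases le_total R 0.002 with u | l3
  · exact lin_ends (bs3 h l2 u) l2 u (by norm_num) (by norm_num)
  rcases le_total R 0.003 with u | l4
  · exact lin_ends (bs4 h l3 u) l3 u (by norm_num) (by norm_num)
  rcases le_total R 0.004 with u | l5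
  · exact lin_ends (bs5 h l4 u) l4 u (by norm_num) (by norm_num)
  rcases le_total R 0.005 with u | l6
  · exact lin_ends (bs6 h l5 u) l5 u (by norm_num) (by norm_num)
  rcases le_total R 0.006 with u | l7
  · exact lin_ends (bs7 h l6 u) l6 u (by norm_num) (by norm_num)
  exact lin_ends (bs8 h l7 h2) l7 h2 (by norm_num) (by norm_num)

lemma d5_4 (h : Good (5 / 4) R p) (h1 : 0.25 ≤ R) (h2 : R ≤ (4 / 9)) : (-0.04538) + 1.022 * R ≤ p := by
  rcases le_total R 0.27 with u | l33
  · exact lin_ends (b5_33 h h1 u) h1 u (by norm_num) (by norm_num)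
  rcases le_total R 0.29 with u | l34
  · exact lin_ends (b5_34 h l33 u) l33 u (by norm_num) (by norm_num)
  rcases le_total R 0.31 with u | l35
  · exact lin_ends (b5_35 h l34 u) l34 u (by norm_num) (by norm_num)
  rcases le_total R 0.33 with u | l36
  · exact lin_ends (b5_36 h l35 u) l35 u (by norm_num) (by norm_num)
  rcases le_total R 0.345 with u | l37
  · exact lin_ends (b5_37 h l36 u) l36 u (by norm_num) (by norm_num)
  rcases le_total R 0.36 with u | l38
  · linarith only [b5_38 h l37 u, ba38_3 h l37 u, ba38_4 h l37 u, l37, u]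
  rcases le_total R 0.37 with u | l39
  · exact lin_ends (ba39_3 h l38 u) l38 u (by norm_num) (by norm_num)
  rcases le_total R 0.38 with u | l40
  · exact lin_ends (ba40_2 h l39 u) l39 u (by norm_num) (by norm_num)
  rcases le_total R 0.39 with u | l41
  · exact lin_ends (ba41_2 h l40 u) l40 u (by norm_num) (by norm_num)
  rcases le_total R 0.4 with u | l42
  · exact lin_ends (ba42_1 h l41 u) l41 u (by norm_num) (by norm_num)
  rcases le_total R 0.41 with u | l43
  · exact lin_ends (ba43_1 h l42 u) l42 u (by norm_num) (by norm_num)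
  rcases le_total R 0.42 with u | l44
  · exact lin_ends (ba44_0 h l43 u) l43 u (by norm_num) (by norm_num)
  rcases le_total R 0.43 with u | l45
  · exact lin_ends (ba45_0 h l44 u) l44 u (by norm_num) (by norm_num)
  exact lin_ends (ba46_0 h l45 h2) l45 h2 (by norm_num) (by norm_num)

lemma d5_5 (h : Good (5 / 4) R p) (h1 : 0.12 ≤ R) (h2 : R ≤ (4 / 9)) : (-0.04538) + 1.022 * R ≤ p := by
  rcases le_total R 0.14 with u | l25
  · exact lin_ends (b5_25 h h1 u) h1 u (by norm_num) (by norm_num)
  rcases le_total R 0.16 with u | l26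
  · exact lin_ends (b5_26 h l25 u) l25 u (by norm_num) (by norm_num)
  rcases le_total R 0.18 with u | l27
  · exact lin_ends (b5_27 h l26 u) l26 u (by norm_num) (by norm_num)
  rcases le_total R 0.195 with u | l28
  · exact lin_ends (b5_28 h l27 u) l27 u (by norm_num) (by norm_num)
  rcases le_total R 0.21 with u | l29
  · exact lin_ends (b5_29 h l28 u) l28 u (by norm_num) (by norm_num)
  rcases le_total R 0.22 with u | l30
  · exact lin_ends (b5_30 h l29 u) l29 u (by norm_num) (by norm_num)
  rcases le_total R 0.235 with u | l31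
  · exact lin_ends (b5_31 h l30 u) l30 u (by norm_num) (by norm_num)
  rcases le_total R 0.25 with u | l32
  · exact lin_ends (b5_32 h l31 u) l31 u (by norm_num) (by norm_num)
  rcases le_total R 0.27 with u | l33
  · exact lin_ends (b5_33 h l32 u) l32 u (by norm_num) (by norm_num)
  rcases le_total R 0.29 with u | l34
  · exact lin_ends (b5_34 h l33 u) l33 u (by norm_num) (by norm_num)
  rcases le_total R 0.31 with u | l35
  · exact lin_ends (b5_35 h l34 u) l34 u (by norm_num) (by norm_num)
  rcases le_total R 0.33 with u | l36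
  · exact lin_ends (b5_36 h l35 u) l35 u (by norm_num) (by norm_num)
  rcases le_total R 0.345 with u | l37
  · exact lin_ends (b5_37 h l36 u) l36 u (by norm_num) (by norm_num)
  rcases le_total R 0.36 with u | l38
  · linarith only [b5_38 h l37 u, ba38_3 h l37 u, ba38_4 h l37 u, l37, u]
  rcases le_total R 0.37 with u | l39
  · exact lin_ends (ba39_3 h l38 u) l38 u (by norm_num) (by norm_num)
  rcases le_total R 0.38 with u | l40
  · exact lin_ends (ba40_2 h l39 u) l39 u (by norm_num) (by norm_num)
  rcases le_total R 0.39 with u | l41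
  · exact lin_ends (ba41_2 h l40 u) l40 u (by norm_num) (by norm_num)
  rcases le_total R 0.4 with u | l42
  · exact lin_ends (ba42_1 h l41 u) l41 u (by norm_num) (by norm_num)
  rcases le_total R 0.41 with u | l43
  · exact lin_ends (ba43_1 h l42 u) l42 u (by norm_num) (by norm_num)
  rcases le_total R 0.42 with u | l44
  · exact lin_ends (ba44_0 h l43 u) l43 u (by norm_num) (by norm_num)
  rcases le_total R 0.43 with u | l45
  · exact lin_ends (ba45_0 h l44 u) l44 u (by norm_num) (by norm_num)
  exact lin_ends (ba46_0 h l45 h2) l45 h2 (by norm_num) (by norm_num)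

lemma d5_6 (h : Good (5 / 4) R p) (h1 : 0.035 ≤ R) (h2 : R ≤ 0.16) : 0.05516 + 0.878 * R ≤ p := by
  rcases le_total R 0.04 with u | l16
  · exact lin_ends (bs16 h h1 u) h1 u (by norm_num) (by norm_num)
  rcases le_total R 0.045 with u | l17
  · exact lin_ends (b5_17 h l16 u) l16 u (by norm_num) (by norm_num)
  rcases le_total R 0.05 with u | l18
  · exact lin_ends (b5_18 h l17 u) l17 u (by norm_num) (by norm_num)
  rcases le_total R 0.06 with u | l19
  · exact lin_ends (b5_19 h l18 u) l18 u (by norm_num) (by norm_num)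
  rcases le_total R 0.07 with u | l20
  · exact lin_ends (b5_20 h l19 u) l19 u (by norm_num) (by norm_num)
  rcases le_total R 0.08 with u | l21
  · exact lin_ends (b5_21 h l20 u) l20 u (by norm_num) (by norm_num)
  rcases le_total R 0.09 with u | l22
  · exact lin_ends (b5_22 h l21 u) l21 u (by norm_num) (by norm_num)
  rcases le_total R 0.1 with u | l23
  · exact lin_ends (b5_23 h l22 u) l22 u (by norm_num) (by norm_num)
  rcases le_total R 0.12 with u | l24
  · exact lin_ends (b5_24 h l23 u) l23 u (by norm_num) (by norm_num)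
  rcases le_total R 0.14 with u | l25
  · exact lin_ends (b5_25 h l24 u) l24 u (by norm_num) (by norm_num)
  exact lin_ends (b5_26 h l25 h2) l25 h2 (by norm_num) (by norm_num)

lemma d5_7 (h : Good (5 / 4) R p) (h1 : 0.008 ≤ R) (h2 : R ≤ 0.16) : 0.03213 + 1.022 * R ≤ p := by
  rcases le_total R 0.01 with u | l9
  · exact lin_ends (bs9 h h1 u) h1 u (by norm_num) (by norm_num)
  rcases le_total R 0.013 with u | l10
  · exact lin_ends (bs10 h l9 u) l9 u (by norm_num) (by norm_num)
  rcases le_total R 0.016 with u | l11
  · exact lin_ends (bs11 h l10 u) l10 u (by norm_num) (by norm_num)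
  rcases le_total R 0.02 with u | l12
  · exact lin_ends (bs12 h l11 u) l11 u (by norm_num) (by norm_num)
  rcases le_total R 0.025 with u | l13
  · exact lin_ends (bs13 h l12 u) l12 u (by norm_num) (by norm_num)
  rcases le_total R 0.03 with u | l14
  · exact lin_ends (bs14 h l13 u) l13 u (by norm_num) (by norm_num)
  rcases le_total R 0.035 with u | l15
  · exact lin_ends (bs15 h l14 u) l14 u (by norm_num) (by norm_num)
  rcases le_total R 0.04 with u | l16
  · exact lin_ends (bs16 h l15 u) l15 u (by norm_num) (by norm_num)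
  rcases le_total R 0.045 with u | l17
  · exact lin_ends (b5_17 h l16 u) l16 u (by norm_num) (by norm_num)
  rcases le_total R 0.05 with u | l18
  · exact lin_ends (b5_18 h l17 u) l17 u (by norm_num) (by norm_num)
  rcases le_total R 0.06 with u | l19
  · exact lin_ends (b5_19 h l18 u) l18 u (by norm_num) (by norm_num)
  rcases le_total R 0.07 with u | l20
  · exact lin_ends (b5_20 h l19 u) l19 u (by norm_num) (by norm_num)
  rcases le_total R 0.08 with u | l21
  · exact lin_ends (b5_21 h l20 u) l20 u (by norm_num) (by norm_num)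
  rcases le_total R 0.09 with u | l22
  · exact lin_ends (b5_22 h l21 u) l21 u (by norm_num) (by norm_num)
  rcases le_total R 0.1 with u | l23
  · exact lin_ends (b5_23 h l22 u) l22 u (by norm_num) (by norm_num)
  rcases le_total R 0.12 with u | l24
  · exact lin_ends (b5_24 h l23 u) l23 u (by norm_num) (by norm_num)
  rcases le_total R 0.14 with u | l25
  · exact lin_ends (b5_25 h l24 u) l24 u (by norm_num) (by norm_num)
  exact lin_ends (b5_26 h l25 h2) l25 h2 (by norm_num) (by norm_num)

lemma d5_8 (h : Good (5 / 4) R p) (h1 : 0.0005 ≤ R) (h2 : R ≤ 0.16) : 0.00874 + 1.168 * R ≤ p := by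
  rcases le_total R 0.001 with u | l1
  · exact lin_ends (bs1 h h1 u) h1 u (by norm_num) (by norm_num)
  rcases le_total R 0.0015 with u | l2
  · exact lin_ends (bs2 h l1 u) l1 u (by norm_num) (by norm_num)
  rcases le_total R 0.002 with u | l3
  · exact lin_ends (bs3 h l2 u) l2 u (by norm_num) (by norm_num)
  rcases le_total R 0.003 with u | l4
  · exact lin_ends (bs4 h l3 u) l3 u (by norm_num) (by norm_num)
  rcases le_total R 0.004 with u | l5
  · exact lin_ends (bs5 h l4 u) l4 u (by norm_num) (by norm_num)
  rcases le_total R 0.005 with u | l6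
  · exact lin_ends (bs6 h l5 u) l5 u (by norm_num) (by norm_num)
  rcases le_total R 0.006 with u | l7
  · exact lin_ends (bs7 h l6 u) l6 u (by norm_num) (by norm_num)
  rcases le_total R 0.008 with u | l8
  · exact lin_ends (bs8 h l7 u) l7 u (by norm_num) (by norm_num)
  rcases le_total R 0.01 with u | l9
  · exact lin_ends (bs9 h l8 u) l8 u (by norm_num) (by norm_num)
  rcases le_total R 0.013 with u | l10
  · exact lin_ends (bs10 h l9 u) l9 u (by norm_num) (by norm_num)
  rcases le_total R 0.016 with u | l11
  · exact lin_ends (bs11 h l10 u) l10 u (by norm_num) (by norm_num)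
  rcases le_total R 0.02 with u | l12
  · exact lin_ends (bs12 h l11 u) l11 u (by norm_num) (by norm_num)
  rcases le_total R 0.025 with u | l13
  · exact lin_ends (bs13 h l12 u) l12 u (by norm_num) (by norm_num)
  rcases le_total R 0.03 with u | l14
  · exact lin_ends (bs14 h l13 u) l13 u (by norm_num) (by norm_num)
  rcases le_total R 0.035 with u | l15
  · exact lin_ends (bs15 h l14 u) l14 u (by norm_num) (by norm_num)
  rcases le_total R 0.04 with u | l16
  · exact lin_ends (bs16 h l15 u) l15 u (by norm_num) (by norm_num)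
  rcases le_total R 0.045 with u | l17
  · exact lin_ends (b5_17 h l16 u) l16 u (by norm_num) (by norm_num)
  rcases le_total R 0.05 with u | l18
  · exact lin_ends (b5_18 h l17 u) l17 u (by norm_num) (by norm_num)
  rcases le_total R 0.06 with u | l19
  · exact lin_ends (b5_19 h l18 u) l18 u (by norm_num) (by norm_num)
  rcases le_total R 0.07 with u | l20
  · exact lin_ends (b5_20 h l19 u) l19 u (by norm_num) (by norm_num)
  rcases le_total R 0.08 with u | l21
  · exact lin_ends (b5_21 h l20 u) l20 u (by norm_num) (by norm_num)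
  rcases le_total R 0.09 with u | l22
  · exact lin_ends (b5_22 h l21 u) l21 u (by norm_num) (by norm_num)
  rcases le_total R 0.1 with u | l23
  · exact lin_ends (b5_23 h l22 u) l22 u (by norm_num) (by norm_num)
  rcases le_total R 0.12 with u | l24
  · exact lin_ends (b5_24 h l23 u) l23 u (by norm_num) (by norm_num)
  rcases le_total R 0.14 with u | l25
  · exact lin_ends (b5_25 h l24 u) l24 u (by norm_num) (by norm_num)
  exact lin_ends (b5_26 h l25 h2) l25 h2 (by norm_num) (by norm_num)

lemma d5_9 (h : Good (5 / 4) R p) (h1 : 0.38 ≤ R) (h2 : R ≤ (4 / 9)) : (-0.1103) + 1.201 * R ≤ p := by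
  rcases le_total R 0.39 with u | l41
  · exact lin_ends (ba41_2 h h1 u) h1 u (by norm_num) (by norm_num)
  rcases le_total R 0.4 with u | l42
  · linarith only [ba42_1 h l41 u, ba42_2 h l41 u, l41, u]
  rcases le_total R 0.41 with u | l43
  · exact lin_ends (ba43_1 h l42 u) l42 u (by norm_num) (by norm_num)
  rcases le_total R 0.42 with u | l44
  · exact lin_ends (ba44_1 h l43 u) l43 u (by norm_num) (by norm_num)
  rcases le_total R 0.43 with u | l45
  · exact lin_ends (ba45_0 h l44 u) l44 u (by norm_num) (by norm_num)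
  exact lin_ends (ba46_0 h l45 h2) l45 h2 (by norm_num) (by norm_num)

lemma d5_10 (h : Good (5 / 4) R p) (h1 : 0.25 ≤ R) (h2 : R ≤ 0.42) : 0.09364 + 0.627 * R ≤ p := by
  rcases le_total R 0.27 with u | l33
  · exact lin_ends (b5_33 h h1 u) h1 u (by norm_num) (by norm_num)
  rcases le_total R 0.29 with u | l34
  · exact lin_ends (b5_34 h l33 u) l33 u (by norm_num) (by norm_num)
  rcases le_total R 0.31 with u | l35
  · exact lin_ends (b5_35 h l34 u) l34 u (by norm_num) (by norm_num)
  rcases le_total R 0.33 with u | l36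
  · exact lin_ends (b5_36 h l35 u) l35 u (by norm_num) (by norm_num)
  rcases le_total R 0.345 with u | l37
  · exact lin_ends (b5_37 h l36 u) l36 u (by norm_num) (by norm_num)
  rcases le_total R 0.36 with u | l38
  · linarith only [b5_38 h l37 u, ba38_3 h l37 u, ba38_4 h l37 u, l37, u]
  rcases le_total R 0.37 with u | l39
  · exact lin_ends (ba39_3 h l38 u) l38 u (by norm_num) (by norm_num)
  rcases le_total R 0.38 with u | l40
  · exact lin_ends (ba40_2 h l39 u) l39 u (by norm_num) (by norm_num)
  rcases le_total R 0.39 with u | l41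
  · exact lin_ends (ba41_2 h l40 u) l40 u (by norm_num) (by norm_num)
  rcases le_total R 0.4 with u | l42
  · exact lin_ends (ba42_1 h l41 u) l41 u (by norm_num) (by norm_num)
  rcases le_total R 0.41 with u | l43
  · exact lin_ends (ba43_1 h l42 u) l42 u (by norm_num) (by norm_num)
  exact lin_ends (ba44_0 h l43 h2) l43 h2 (by norm_num) (by norm_num)

lemma d5_11 (h : Good (5 / 4) R p) (h1 : 0.16 ≤ R) (h2 : R ≤ 0.31) : 0.09531 + 0.627 * R ≤ p := by
  rcases le_total R 0.18 with u | l27
  · exact lin_ends (b5_27 h h1 u) h1 u (by norm_num) (by norm_num)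
  rcases le_total R 0.195 with u | l28
  · exact lin_ends (b5_28 h l27 u) l27 u (by norm_num) (by norm_num)
  rcases le_total R 0.21 with u | l29
  · exact lin_ends (b5_29 h l28 u) l28 u (by norm_num) (by norm_num)
  rcases le_total R 0.22 with u | l30
  · exact lin_ends (b5_30 h l29 u) l29 u (by norm_num) (by norm_num)
  rcases le_total R 0.235 with u | l31
  · exact lin_ends (b5_31 h l30 u) l30 u (by norm_num) (by norm_num)
  rcases le_total R 0.25 with u | l32
  · exact lin_ends (b5_32 h l31 u) l31 u (by norm_num) (by norm_num)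
  rcases le_total R 0.27 with u | l33
  · exact lin_ends (b5_33 h l32 u) l32 u (by norm_num) (by norm_num)
  rcases le_total R 0.29 with u | l34
  · exact lin_ends (b5_34 h l33 u) l33 u (by norm_num) (by norm_num)
  exact lin_ends (b5_35 h l34 h2) l34 h2 (by norm_num) (by norm_num)

lemma d5_12 (h : Good (5 / 4) R p) (h1 : 0.008 ≤ R) (h2 : R ≤ 0.01) : 0.02019 + 2.518 * R ≤ p := by
  exact lin_ends (bs9 h h1 h2) h1 h2 (by norm_num) (by norm_num)

lemma d5_13 (h : Good (5 / 4) R p) (h1 : 0.002 ≤ R) (h2 : R ≤ 0.01) : 0.01332 + 3.205 * R ≤ p := by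
  rcases le_total R 0.003 with u | l4
  · exact lin_ends (bs4 h h1 u) h1 u (by norm_num) (by norm_num)
  rcases le_total R 0.004 with u | l5
  · exact lin_ends (bs5 h l4 u) l4 u (by norm_num) (by norm_num)
  rcases le_total R 0.005 with u | l6
  · exact lin_ends (bs6 h l5 u) l5 u (by norm_num) (by norm_num)
  rcases le_total R 0.006 with u | l7
  · exact lin_ends (bs7 h l6 u) l6 u (by norm_num) (by norm_num)
  rcases le_total R 0.008 with u | l8
  · exact lin_ends (bs8 h l7 u) l7 u (by norm_num) (by norm_num)
  exact lin_ends (bs9 h l8 h2) l8 h2 (by norm_num) (by norm_num)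

lemma d5_14 (h : Good (5 / 4) R p) (h1 : 0.002 ≤ R) (h2 : R ≤ 0.013) : 0.01391 + 2.913 * R ≤ p := by
  rcases le_total R 0.003 with u | l4
  · exact lin_ends (bs4 h h1 u) h1 u (by norm_num) (by norm_num)
  rcases le_total R 0.004 with u | l5
  · exact lin_ends (bs5 h l4 u) l4 u (by norm_num) (by norm_num)
  rcases le_total R 0.005 with u | l6
  · exact lin_ends (bs6 h l5 u) l5 u (by norm_num) (by norm_num)
  rcases le_total R 0.006 with u | l7
  · exact lin_ends (bs7 h l6 u) l6 u (by norm_num) (by norm_num)
  rcases le_total R 0.008 with u | l8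
  · exact lin_ends (bs8 h l7 u) l7 u (by norm_num) (by norm_num)
  rcases le_total R 0.01 with u | l9
  · exact lin_ends (bs9 h l8 u) l8 u (by norm_num) (by norm_num)
  exact lin_ends (bs10 h l9 h2) l9 h2 (by norm_num) (by norm_num)

lemma d5_15 (h : Good (5 / 4) R p) (h1 : 0.22 ≤ R) (h2 : R ≤ 0.33) : 0.1038 + 0.599 * R ≤ p := by
  rcases le_total R 0.235 with u | l31
  · exact lin_ends (b5_31 h h1 u) h1 u (by norm_num) (by norm_num)
  rcases le_total R 0.25 with u | l32
  · exact lin_ends (b5_32 h l31 u) l31 u (by norm_num) (by norm_num)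
  rcases le_total R 0.27 with u | l33
  · exact lin_ends (b5_33 h l32 u) l32 u (by norm_num) (by norm_num)
  rcases le_total R 0.29 with u | l34
  · exact lin_ends (b5_34 h l33 u) l33 u (by norm_num) (by norm_num)
  rcases le_total R 0.31 with u | l35
  · exact lin_ends (b5_35 h l34 u) l34 u (by norm_num) (by norm_num)
  exact lin_ends (b5_36 h l35 h2) l35 h2 (by norm_num) (by norm_num)

lemma d5_16 (h : Good (5 / 4) R p) (h1 : 0.013 ≤ R) (h2 : R ≤ 0.016) : 0.02657 + 1.939 * R ≤ p := by
  exact lin_ends (bs11 h h1 h2) h1 h2 (by norm_num) (by norm_num)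

lemma d5_17 (h : Good (5 / 4) R p) (h1 : 0.002 ≤ R) (h2 : R ≤ 0.016) : 0.01433 + 2.704 * R ≤ p := by
  rcases le_total R 0.003 with u | l4
  · exact lin_ends (bs4 h h1 u) h1 u (by norm_num) (by norm_num)
  rcases le_total R 0.004 with u | l5
  · exact lin_ends (bs5 h l4 u) l4 u (by norm_num) (by norm_num)
  rcases le_total R 0.005 with u | l6
  · exact lin_ends (bs6 h l5 u) l5 u (by norm_num) (by norm_num)
  rcases le_total R 0.006 with u | l7
  · exact lin_ends (bs7 h l6 u) l6 u (by norm_num) (by norm_num)
  rcases le_total R 0.008 with u | l8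
  · exact lin_ends (bs8 h l7 u) l7 u (by norm_num) (by norm_num)
  rcases le_total R 0.01 with u | l9
  · exact lin_ends (bs9 h l8 u) l8 u (by norm_num) (by norm_num)
  rcases le_total R 0.013 with u | l10
  · exact lin_ends (bs10 h l9 u) l9 u (by norm_num) (by norm_num)
  exact lin_ends (bs11 h l10 h2) l10 h2 (by norm_num) (by norm_num)

lemma d5_18 (h : Good (5 / 4) R p) (h1 : 0.195 ≤ R) (h2 : R ≤ 0.33) : 0.10117 + 0.607 * R ≤ p := by
  rcases le_total R 0.21 with u | l29
  · exact lin_ends (b5_29 h h1 u) h1 u (by norm_num) (by norm_num)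
  rcases le_total R 0.22 with u | l30
  · exact lin_ends (b5_30 h l29 u) l29 u (by norm_num) (by norm_num)
  rcases le_total R 0.235 with u | l31
  · exact lin_ends (b5_31 h l30 u) l30 u (by norm_num) (by norm_num)
  rcases le_total R 0.25 with u | l32
  · exact lin_ends (b5_32 h l31 u) l31 u (by norm_num) (by norm_num)
  rcases le_total R 0.27 with u | l33
  · exact lin_ends (b5_33 h l32 u) l32 u (by norm_num) (by norm_num)
  rcases le_total R 0.29 with u | l34
  · exact lin_ends (b5_34 h l33 u) l33 u (by norm_num) (by norm_num)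
  rcases le_total R 0.31 with u | l35
  · exact lin_ends (b5_35 h l34 u) l34 u (by norm_num) (by norm_num)
  exact lin_ends (b5_36 h l35 h2) l35 h2 (by norm_num) (by norm_num)

lemma d5_19 (h : Good (5 / 4) R p) (h1 : 0.016 ≤ R) (h2 : R ≤ 0.02) : 0.02934 + 1.766 * R ≤ p := by
  exact lin_ends (bs12 h h1 h2) h1 h2 (by norm_num) (by norm_num)

lemma d5_20 (h : Good (5 / 4) R p) (h1 : 0.013 ≤ R) (h2 : R ≤ 0.02) : 0.02786 + 1.84 * R ≤ p := by
  rcases le_total R 0.016 with u | l11
  · exact lin_ends (bs11 h h1 u) h1 u (by norm_num) (by norm_num)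
  exact lin_ends (bs12 h l11 h2) l11 h2 (by norm_num) (by norm_num)

lemma d5_21 (h : Good (5 / 4) R p) (h1 : 0.002 ≤ R) (h2 : R ≤ 0.02) : 0.01474 + 2.496 * R ≤ p := by
  rcases le_total R 0.003 with u | l4
  · exact lin_ends (bs4 h h1 u) h1 u (by norm_num) (by norm_num)
  rcases le_total R 0.004 with u | l5
  · exact lin_ends (bs5 h l4 u) l4 u (by norm_num) (by norm_num)
  rcases le_total R 0.005 with u | l6
  · exact lin_ends (bs6 h l5 u) l5 u (by norm_num) (by norm_num)
  rcases le_total R 0.006 with u | l7
  · exact lin_ends (bs7 h l6 u) l6 u (by norm_num) (by norm_num)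
  rcases le_total R 0.008 with u | l8
  · exact lin_ends (bs8 h l7 u) l7 u (by norm_num) (by norm_num)
  rcases le_total R 0.01 with u | l9
  · exact lin_ends (bs9 h l8 u) l8 u (by norm_num) (by norm_num)
  rcases le_total R 0.013 with u | l10
  · exact lin_ends (bs10 h l9 u) l9 u (by norm_num) (by norm_num)
  rcases le_total R 0.016 with u | l11
  · exact lin_ends (bs11 h l10 u) l10 u (by norm_num) (by norm_num)
  exact lin_ends (bs12 h l11 h2) l11 h2 (by norm_num) (by norm_num)

lemma d5_22 (h : Good (5 / 4) R p) (h1 : 0.002 ≤ R) (h2 : R ≤ 0.21) : 0.01767 + 1.007 * R ≤ p := by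
  rcases le_total R 0.003 with u | l4
  · exact lin_ends (bs4 h h1 u) h1 u (by norm_num) (by norm_num)
  rcases le_total R 0.004 with u | l5
  · exact lin_ends (bs5 h l4 u) l4 u (by norm_num) (by norm_num)
  rcases le_total R 0.005 with u | l6
  · exact lin_ends (bs6 h l5 u) l5 u (by norm_num) (by norm_num)
  rcases le_total R 0.006 with u | l7
  · exact lin_ends (bs7 h l6 u) l6 u (by norm_num) (by norm_num)
  rcases le_total R 0.008 with u | l8
  · exact lin_ends (bs8 h l7 u) l7 u (by norm_num) (by norm_num)
  rcases le_total R 0.01 with u | l9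
  · exact lin_ends (bs9 h l8 u) l8 u (by norm_num) (by norm_num)
  rcases le_total R 0.013 with u | l10
  · exact lin_ends (bs10 h l9 u) l9 u (by norm_num) (by norm_num)
  rcases le_total R 0.016 with u | l11
  · exact lin_ends (bs11 h l10 u) l10 u (by norm_num) (by norm_num)
  rcases le_total R 0.02 with u | l12
  · exact lin_ends (bs12 h l11 u) l11 u (by norm_num) (by norm_num)
  rcases le_total R 0.025 with u | l13
  · exact lin_ends (bs13 h l12 u) l12 u (by norm_num) (by norm_num)
  rcases le_total R 0.03 with u | l14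
  · exact lin_ends (bs14 h l13 u) l13 u (by norm_num) (by norm_num)
  rcases le_total R 0.035 with u | l15
  · exact lin_ends (bs15 h l14 u) l14 u (by norm_num) (by norm_num)
  rcases le_total R 0.04 with u | l16
  · exact lin_ends (bs16 h l15 u) l15 u (by norm_num) (by norm_num)
  rcases le_total R 0.045 with u | l17
  · exact lin_ends (b5_17 h l16 u) l16 u (by norm_num) (by norm_num)
  rcases le_total R 0.05 with u | l18
  · exact lin_ends (b5_18 h l17 u) l17 u (by norm_num) (by norm_num)
  rcases le_total R 0.06 with u | l19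
  · exact lin_ends (b5_19 h l18 u) l18 u (by norm_num) (by norm_num)
  rcases le_total R 0.07 with u | l20
  · exact lin_ends (b5_20 h l19 u) l19 u (by norm_num) (by norm_num)
  rcases le_total R 0.08 with u | l21
  · exact lin_ends (b5_21 h l20 u) l20 u (by norm_num) (by norm_num)
  rcases le_total R 0.09 with u | l22
  · exact lin_ends (b5_22 h l21 u) l21 u (by norm_num) (by norm_num)
  rcases le_total R 0.1 with u | l23
  · exact lin_ends (b5_23 h l22 u) l22 u (by norm_num) (by norm_num)
  rcases le_total R 0.12 with u | l24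
  · exact lin_ends (b5_24 h l23 u) l23 u (by norm_num) (by norm_num)
  rcases le_total R 0.14 with u | l25
  · exact lin_ends (b5_25 h l24 u) l24 u (by norm_num) (by norm_num)
  rcases le_total R 0.16 with u | l26
  · exact lin_ends (b5_26 h l25 u) l25 u (by norm_num) (by norm_num)
  rcases le_total R 0.18 with u | l27
  · exact lin_ends (b5_27 h l26 u) l26 u (by norm_num) (by norm_num)
  rcases le_total R 0.195 with u | l28
  · exact lin_ends (b5_28 h l27 u) l27 u (by norm_num) (by norm_num)
  exact lin_ends (b5_29 h l28 h2) l28 h2 (by norm_num) (by norm_num)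

lemma d5_23 (h : Good (5 / 4) R p) (h1 : 0.02 ≤ R) (h2 : R ≤ 0.025) : 0.03376 + 1.545 * R ≤ p := by
  exact lin_ends (bs13 h h1 h2) h1 h2 (by norm_num) (by norm_num)

lemma d5_24 (h : Good (5 / 4) R p) (h1 : 0.01 ≤ R) (h2 : R ≤ 0.025) : 0.02736 + 1.801 * R ≤ p := by
  rcases le_total R 0.013 with u | l10
  · exact lin_ends (bs10 h h1 u) h1 u (by norm_num) (by norm_num)
  rcases le_total R 0.016 with u | l11
  · exact lin_ends (bs11 h l10 u) l10 u (by norm_num) (by norm_num)
  rcases le_total R 0.02 with u | l12
  · exact lin_ends (bs12 h l11 u) l11 u (by norm_num) (by norm_num)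
  exact lin_ends (bs13 h l12 h2) l12 h2 (by norm_num) (by norm_num)

lemma d5_25 (h : Good (5 / 4) R p) (h1 : 0.16 ≤ R) (h2 : R ≤ 0.33) : 0.09589 + 0.623 * R ≤ p := by
  rcases le_total R 0.18 with u | l27
  · exact lin_ends (b5_27 h h1 u) h1 u (by norm_num) (by norm_num)
  rcases le_total R 0.195 with u | l28
  · exact lin_ends (b5_28 h l27 u) l27 u (by norm_num) (by norm_num)
  rcases le_total R 0.21 with u | l29
  · exact lin_ends (b5_29 h l28 u) l28 u (by norm_num) (by norm_num)
  rcases le_total R 0.22 with u | l30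
  · exact lin_ends (b5_30 h l29 u) l29 u (by norm_num) (by norm_num)
  rcases le_total R 0.235 with u | l31
  · exact lin_ends (b5_31 h l30 u) l30 u (by norm_num) (by norm_num)
  rcases le_total R 0.25 with u | l32
  · exact lin_ends (b5_32 h l31 u) l31 u (by norm_num) (by norm_num)
  rcases le_total R 0.27 with u | l33
  · exact lin_ends (b5_33 h l32 u) l32 u (by norm_num) (by norm_num)
  rcases le_total R 0.29 with u | l34
  · exact lin_ends (b5_34 h l33 u) l33 u (by norm_num) (by norm_num)
  rcases le_total R 0.31 with u | l35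
  · exact lin_ends (b5_35 h l34 u) l34 u (by norm_num) (by norm_num)
  exact lin_ends (b5_36 h l35 h2) l35 h2 (by norm_num) (by norm_num)

lemma d5_26 (h : Good (5 / 4) R p) (h1 : 0.025 ≤ R) (h2 : R ≤ 0.03) : 0.03553 + 1.474 * R ≤ p := by
  exact lin_ends (bs14 h h1 h2) h1 h2 (by norm_num) (by norm_num)

lemma d5_27 (h : Good (5 / 4) R p) (h1 : 0.16 ≤ R) (h2 : R ≤ 0.345) : 0.09644 + 0.62 * R ≤ p := by
  rcases le_total R 0.18 with u | l27
  · exact lin_ends (b5_27 h h1 u) h1 u (by norm_num) (by norm_num)
  rcases le_total R 0.195 with u | l28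
  · exact lin_ends (b5_28 h l27 u) l27 u (by norm_num) (by norm_num)
  rcases le_total R 0.21 with u | l29
  · exact lin_ends (b5_29 h l28 u) l28 u (by norm_num) (by norm_num)
  rcases le_total R 0.22 with u | l30
  · exact lin_ends (b5_30 h l29 u) l29 u (by norm_num) (by norm_num)
  rcases le_total R 0.235 with u | l31
  · exact lin_ends (b5_31 h l30 u) l30 u (by norm_num) (by norm_num)
  rcases le_total R 0.25 with u | l32
  · exact lin_ends (b5_32 h l31 u) l31 u (by norm_num) (by norm_num)
  rcases le_total R 0.27 with u | l33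
  · exact lin_ends (b5_33 h l32 u) l32 u (by norm_num) (by norm_num)
  rcases le_total R 0.29 with u | l34
  · exact lin_ends (b5_34 h l33 u) l33 u (by norm_num) (by norm_num)
  rcases le_total R 0.31 with u | l35
  · exact lin_ends (b5_35 h l34 u) l34 u (by norm_num) (by norm_num)
  rcases le_total R 0.33 with u | l36
  · exact lin_ends (b5_36 h l35 u) l35 u (by norm_num) (by norm_num)
  exact lin_ends (b5_37 h l36 h2) l36 h2 (by norm_num) (by norm_num)

lemma d5_28 (h : Good (5 / 4) R p) (h1 : 0.16 ≤ R) (h2 : R ≤ 0.22) : 0.08906 + 0.666 * R ≤ p := by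
  rcases le_total R 0.18 with u | l27
  · exact lin_ends (b5_27 h h1 u) h1 u (by norm_num) (by norm_num)
  rcases le_total R 0.195 with u | l28
  · exact lin_ends (b5_28 h l27 u) l27 u (by norm_num) (by norm_num)
  rcases le_total R 0.21 with u | l29
  · exact lin_ends (b5_29 h l28 u) l28 u (by norm_num) (by norm_num)
  exact lin_ends (b5_30 h l29 h2) l29 h2 (by norm_num) (by norm_num)

lemma d5_29 (h : Good (5 / 4) R p) (h1 : 0.03 ≤ R) (h2 : R ≤ 0.22) : 0.05515 + 0.82 * R ≤ p := by
  rcases le_total R 0.035 with u | l15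
  · exact lin_ends (bs15 h h1 u) h1 u (by norm_num) (by norm_num)
  rcases le_total R 0.04 with u | l16
  · exact lin_ends (bs16 h l15 u) l15 u (by norm_num) (by norm_num)
  rcases le_total R 0.045 with u | l17
  · exact lin_ends (b5_17 h l16 u) l16 u (by norm_num) (by norm_num)
  rcases le_total R 0.05 with u | l18
  · exact lin_ends (b5_18 h l17 u) l17 u (by norm_num) (by norm_num)
  rcases le_total R 0.06 with u | l19
  · exact lin_ends (b5_19 h l18 u) l18 u (by norm_num) (by norm_num)
  rcases le_total R 0.07 with u | l20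
  · exact lin_ends (b5_20 h l19 u) l19 u (by norm_num) (by norm_num)
  rcases le_total R 0.08 with u | l21
  · exact lin_ends (b5_21 h l20 u) l20 u (by norm_num) (by norm_num)
  rcases le_total R 0.09 with u | l22
  · exact lin_ends (b5_22 h l21 u) l21 u (by norm_num) (by norm_num)
  rcases le_total R 0.1 with u | l23
  · exact lin_ends (b5_23 h l22 u) l22 u (by norm_num) (by norm_num)
  rcases le_total R 0.12 with u | l24
  · exact lin_ends (b5_24 h l23 u) l23 u (by norm_num) (by norm_num)
  rcases le_total R 0.14 with u | l25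
  · exact lin_ends (b5_25 h l24 u) l24 u (by norm_num) (by norm_num)
  rcases le_total R 0.16 with u | l26
  · exact lin_ends (b5_26 h l25 u) l25 u (by norm_num) (by norm_num)
  rcases le_total R 0.18 with u | l27
  · exact lin_ends (b5_27 h l26 u) l26 u (by norm_num) (by norm_num)
  rcases le_total R 0.195 with u | l28
  · exact lin_ends (b5_28 h l27 u) l27 u (by norm_num) (by norm_num)
  rcases le_total R 0.21 with u | l29
  · exact lin_ends (b5_29 h l28 u) l28 u (by norm_num) (by norm_num)
  exact lin_ends (b5_30 h l29 h2) l29 h2 (by norm_num) (by norm_num)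

lemma d5_30 (h : Good (5 / 4) R p) (h1 : 0.03 ≤ R) (h2 : R ≤ 0.16) : 0.05293 + 0.892 * R ≤ p := by
  rcases le_total R 0.035 with u | l15
  · exact lin_ends (bs15 h h1 u) h1 u (by norm_num) (by norm_num)
  rcases le_total R 0.04 with u | l16
  · exact lin_ends (bs16 h l15 u) l15 u (by norm_num) (by norm_num)
  rcases le_total R 0.045 with u | l17
  · exact lin_ends (b5_17 h l16 u) l16 u (by norm_num) (by norm_num)
  rcases le_total R 0.05 with u | l18
  · exact lin_ends (b5_18 h l17 u) l17 u (by norm_num) (by norm_num)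
  rcases le_total R 0.06 with u | l19
  · exact lin_ends (b5_19 h l18 u) l18 u (by norm_num) (by norm_num)
  rcases le_total R 0.07 with u | l20
  · exact lin_ends (b5_20 h l19 u) l19 u (by norm_num) (by norm_num)
  rcases le_total R 0.08 with u | l21
  · exact lin_ends (b5_21 h l20 u) l20 u (by norm_num) (by norm_num)
  rcases le_total R 0.09 with u | l22
  · exact lin_ends (b5_22 h l21 u) l21 u (by norm_num) (by norm_num)
  rcases le_total R 0.1 with u | l23
  · exact lin_ends (b5_23 h l22 u) l22 u (by norm_num) (by norm_num)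
  rcases le_total R 0.12 with u | l24
  · exact lin_ends (b5_24 h l23 u) l23 u (by norm_num) (by norm_num)
  rcases le_total R 0.14 with u | l25
  · exact lin_ends (b5_25 h l24 u) l24 u (by norm_num) (by norm_num)
  exact lin_ends (b5_26 h l25 h2) l25 h2 (by norm_num) (by norm_num)

lemma d5_31 (h : Good (5 / 4) R p) (h1 : 0.25 ≤ R) (h2 : R ≤ 0.38) : 0.10596 + 0.592 * R ≤ p := by
  rcases le_total R 0.27 with u | l33
  · exact lin_ends (b5_33 h h1 u) h1 u (by norm_num) (by norm_num)
  rcases le_total R 0.29 with u | l34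
  · exact lin_ends (b5_34 h l33 u) l33 u (by norm_num) (by norm_num)
  rcases le_total R 0.31 with u | l35
  · exact lin_ends (b5_35 h l34 u) l34 u (by norm_num) (by norm_num)
  rcases le_total R 0.33 with u | l36
  · exact lin_ends (b5_36 h l35 u) l35 u (by norm_num) (by norm_num)
  rcases le_total R 0.345 with u | l37
  · exact lin_ends (b5_37 h l36 u) l36 u (by norm_num) (by norm_num)
  rcases le_total R 0.36 with u | l38
  · linarith only [b5_38 h l37 u, ba38_3 h l37 u, ba38_4 h l37 u, l37, u]
  rcases le_total R 0.37 with u | l39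
  · exact lin_ends (ba39_3 h l38 u) l38 u (by norm_num) (by norm_num)
  exact lin_ends (ba40_2 h l39 h2) l39 h2 (by norm_num) (by norm_num)

lemma d5_32 (h : Good (5 / 4) R p) (h1 : 0.003 ≤ R) (h2 : R ≤ 0.035) : 0.01869 + 1.92 * R ≤ p := by
  rcases le_total R 0.004 with u | l5
  · exact lin_ends (bs5 h h1 u) h1 u (by norm_num) (by norm_num)
  rcases le_total R 0.005 with u | l6
  · exact lin_ends (bs6 h l5 u) l5 u (by norm_num) (by norm_num)
  rcases le_total R 0.006 with u | l7
  · exact lin_ends (bs7 h l6 u) l6 u (by norm_num) (by norm_num)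
  rcases le_total R 0.008 with u | l8
  · exact lin_ends (bs8 h l7 u) l7 u (by norm_num) (by norm_num)
  rcases le_total R 0.01 with u | l9
  · exact lin_ends (bs9 h l8 u) l8 u (by norm_num) (by norm_num)
  rcases le_total R 0.013 with u | l10
  · exact lin_ends (bs10 h l9 u) l9 u (by norm_num) (by norm_num)
  rcases le_total R 0.016 with u | l11
  · exact lin_ends (bs11 h l10 u) l10 u (by norm_num) (by norm_num)
  rcases le_total R 0.02 with u | l12
  · exact lin_ends (bs12 h l11 u) l11 u (by norm_num) (by norm_num)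
  rcases le_total R 0.025 with u | l13
  · exact lin_ends (bs13 h l12 u) l12 u (by norm_num) (by norm_num)
  rcases le_total R 0.03 with u | l14
  · exact lin_ends (bs14 h l13 u) l13 u (by norm_num) (by norm_num)
  exact lin_ends (bs15 h l14 h2) l14 h2 (by norm_num) (by norm_num)

lemma d5_33 (h : Good (5 / 4) R p) (h1 : 0.003 ≤ R) (h2 : R ≤ 0.04) : 0.01898 + 1.821 * R ≤ p := by
  rcases le_total R 0.004 with u | l5
  · exact lin_ends (bs5 h h1 u) h1 u (by norm_num) (by norm_num)
  rcases le_total R 0.005 with u | l6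
  · exact lin_ends (bs6 h l5 u) l5 u (by norm_num) (by norm_num)
  rcases le_total R 0.006 with u | l7
  · exact lin_ends (bs7 h l6 u) l6 u (by norm_num) (by norm_num)
  rcases le_total R 0.008 with u | l8
  · exact lin_ends (bs8 h l7 u) l7 u (by norm_num) (by norm_num)
  rcases le_total R 0.01 with u | l9
  · exact lin_ends (bs9 h l8 u) l8 u (by norm_num) (by norm_num)
  rcases le_total R 0.013 with u | l10
  · exact lin_ends (bs10 h l9 u) l9 u (by norm_num) (by norm_num)
  rcases le_total R 0.016 with u | l11
  · exact lin_ends (bs11 h l10 u) l10 u (by norm_num) (by norm_num)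
  rcases le_total R 0.02 with u | l12
  · exact lin_ends (bs12 h l11 u) l11 u (by norm_num) (by norm_num)
  rcases le_total R 0.025 with u | l13
  · exact lin_ends (bs13 h l12 u) l12 u (by norm_num) (by norm_num)
  rcases le_total R 0.03 with u | l14
  · exact lin_ends (bs14 h l13 u) l13 u (by norm_num) (by norm_num)
  rcases le_total R 0.035 with u | l15
  · exact lin_ends (bs15 h l14 u) l14 u (by norm_num) (by norm_num)
  exact lin_ends (bs16 h l15 h2) l15 h2 (by norm_num) (by norm_num)

lemma d5_34 (h : Good (5 / 4) R p) (h1 : 0.27 ≤ R) (h2 : R ≤ 0.4) : 0.10349 + 0.599 * R ≤ p := by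
  rcases le_total R 0.29 with u | l34
  · exact lin_ends (b5_34 h h1 u) h1 u (by norm_num) (by norm_num)
  rcases le_total R 0.31 with u | l35
  · exact lin_ends (b5_35 h l34 u) l34 u (by norm_num) (by norm_num)
  rcases le_total R 0.33 with u | l36
  · exact lin_ends (b5_36 h l35 u) l35 u (by norm_num) (by norm_num)
  rcases le_total R 0.345 with u | l37
  · exact lin_ends (b5_37 h l36 u) l36 u (by norm_num) (by norm_num)
  rcases le_total R 0.36 with u | l38
  · linarith only [b5_38 h l37 u, ba38_3 h l37 u, ba38_4 h l37 u, l37, u]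
  rcases le_total R 0.37 with u | l39
  · exact lin_ends (ba39_3 h l38 u) l38 u (by norm_num) (by norm_num)
  rcases le_total R 0.38 with u | l40
  · exact lin_ends (ba40_2 h l39 u) l39 u (by norm_num) (by norm_num)
  rcases le_total R 0.39 with u | l41
  · exact lin_ends (ba41_2 h l40 u) l40 u (by norm_num) (by norm_num)
  exact lin_ends (ba42_1 h l41 h2) l41 h2 (by norm_num) (by norm_num)

lemma d5_35 (h : Good (5 / 4) R p) (h1 : 0.22 ≤ R) (h2 : R ≤ 0.37) : 0.10349 + 0.599 * R ≤ p := by
  rcases le_total R 0.235 with u | l31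
  · exact lin_ends (b5_31 h h1 u) h1 u (by norm_num) (by norm_num)
  rcases le_total R 0.25 with u | l32
  · exact lin_ends (b5_32 h l31 u) l31 u (by norm_num) (by norm_num)
  rcases le_total R 0.27 with u | l33
  · exact lin_ends (b5_33 h l32 u) l32 u (by norm_num) (by norm_num)
  rcases le_total R 0.29 with u | l34
  · exact lin_ends (b5_34 h l33 u) l33 u (by norm_num) (by norm_num)
  rcases le_total R 0.31 with u | l35
  · exact lin_ends (b5_35 h l34 u) l34 u (by norm_num) (by norm_num)
  rcases le_total R 0.33 with u | l36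
  · exact lin_ends (b5_36 h l35 u) l35 u (by norm_num) (by norm_num)
  rcases le_total R 0.345 with u | l37
  · exact lin_ends (b5_37 h l36 u) l36 u (by norm_num) (by norm_num)
  rcases le_total R 0.36 with u | l38
  · linarith only [b5_38 h l37 u, ba38_3 h l37 u, ba38_4 h l37 u, l37, u]
  exact lin_ends (ba39_3 h l38 h2) l38 h2 (by norm_num) (by norm_num)

lemma d5_36 (h : Good (5 / 4) R p) (h1 : 0.04 ≤ R) (h2 : R ≤ 0.25) : 0.06168 + 0.769 * R ≤ p := by
  rcases le_total R 0.045 with u | l17
  · exact lin_ends (b5_17 h h1 u) h1 u (by norm_num) (by norm_num)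
  rcases le_total R 0.05 with u | l18
  · exact lin_ends (b5_18 h l17 u) l17 u (by norm_num) (by norm_num)
  rcases le_total R 0.06 with u | l19
  · exact lin_ends (b5_19 h l18 u) l18 u (by norm_num) (by norm_num)
  rcases le_total R 0.07 with u | l20
  · exact lin_ends (b5_20 h l19 u) l19 u (by norm_num) (by norm_num)
  rcases le_total R 0.08 with u | l21
  · exact lin_ends (b5_21 h l20 u) l20 u (by norm_num) (by norm_num)
  rcases le_total R 0.09 with u | l22
  · exact lin_ends (b5_22 h l21 u) l21 u (by norm_num) (by norm_num)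
  rcases le_total R 0.1 with u | l23
  · exact lin_ends (b5_23 h l22 u) l22 u (by norm_num) (by norm_num)
  rcases le_total R 0.12 with u | l24
  · exact lin_ends (b5_24 h l23 u) l23 u (by norm_num) (by norm_num)
  rcases le_total R 0.14 with u | l25
  · exact lin_ends (b5_25 h l24 u) l24 u (by norm_num) (by norm_num)
  rcases le_total R 0.16 with u | l26
  · exact lin_ends (b5_26 h l25 u) l25 u (by norm_num) (by norm_num)
  rcases le_total R 0.18 with u | l27
  · exact lin_ends (b5_27 h l26 u) l26 u (by norm_num) (by norm_num)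
  rcases le_total R 0.195 with u | l28
  · exact lin_ends (b5_28 h l27 u) l27 u (by norm_num) (by norm_num)
  rcases le_total R 0.21 with u | l29
  · exact lin_ends (b5_29 h l28 u) l28 u (by norm_num) (by norm_num)
  rcases le_total R 0.22 with u | l30
  · exact lin_ends (b5_30 h l29 u) l29 u (by norm_num) (by norm_num)
  rcases le_total R 0.235 with u | l31
  · exact lin_ends (b5_31 h l30 u) l30 u (by norm_num) (by norm_num)
  exact lin_ends (b5_32 h l31 h2) l31 h2 (by norm_num) (by norm_num)

lemma d5_37 (h : Good (5 / 4) R p) (h1 : 0.003 ≤ R) (h2 : R ≤ 0.16) : 0.02118 + 1.09 * R ≤ p := by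
  rcases le_total R 0.004 with u | l5
  · exact lin_ends (bs5 h h1 u) h1 u (by norm_num) (by norm_num)
  rcases le_total R 0.005 with u | l6
  · exact lin_ends (bs6 h l5 u) l5 u (by norm_num) (by norm_num)
  rcases le_total R 0.006 with u | l7
  · exact lin_ends (bs7 h l6 u) l6 u (by norm_num) (by norm_num)
  rcases le_total R 0.008 with u | l8
  · exact lin_ends (bs8 h l7 u) l7 u (by norm_num) (by norm_num)
  rcases le_total R 0.01 with u | l9
  · exact lin_ends (bs9 h l8 u) l8 u (by norm_num) (by norm_num)
  rcases le_total R 0.013 with u | l10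
  · exact lin_ends (bs10 h l9 u) l9 u (by norm_num) (by norm_num)
  rcases le_total R 0.016 with u | l11
  · exact lin_ends (bs11 h l10 u) l10 u (by norm_num) (by norm_num)
  rcases le_total R 0.02 with u | l12
  · exact lin_ends (bs12 h l11 u) l11 u (by norm_num) (by norm_num)
  rcases le_total R 0.025 with u | l13
  · exact lin_ends (bs13 h l12 u) l12 u (by norm_num) (by norm_num)
  rcases le_total R 0.03 with u | l14
  · exact lin_ends (bs14 h l13 u) l13 u (by norm_num) (by norm_num)
  rcases le_total R 0.035 with u | l15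
  · exact lin_ends (bs15 h l14 u) l14 u (by norm_num) (by norm_num)
  rcases le_total R 0.04 with u | l16
  · exact lin_ends (bs16 h l15 u) l15 u (by norm_num) (by norm_num)
  rcases le_total R 0.045 with u | l17
  · exact lin_ends (b5_17 h l16 u) l16 u (by norm_num) (by norm_num)
  rcases le_total R 0.05 with u | l18
  · exact lin_ends (b5_18 h l17 u) l17 u (by norm_num) (by norm_num)
  rcases le_total R 0.06 with u | l19
  · exact lin_ends (b5_19 h l18 u) l18 u (by norm_num) (by norm_num)
  rcases le_total R 0.07 with u | l20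
  · exact lin_ends (b5_20 h l19 u) l19 u (by norm_num) (by norm_num)
  rcases le_total R 0.08 with u | l21
  · exact lin_ends (b5_21 h l20 u) l20 u (by norm_num) (by norm_num)
  rcases le_total R 0.09 with u | l22
  · exact lin_ends (b5_22 h l21 u) l21 u (by norm_num) (by norm_num)
  rcases le_total R 0.1 with u | l23
  · exact lin_ends (b5_23 h l22 u) l22 u (by norm_num) (by norm_num)
  rcases le_total R 0.12 with u | l24
  · exact lin_ends (b5_24 h l23 u) l23 u (by norm_num) (by norm_num)
  rcases le_total R 0.14 with u | l25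
  · exact lin_ends (b5_25 h l24 u) l24 u (by norm_num) (by norm_num)
  exact lin_ends (b5_26 h l25 h2) l25 h2 (by norm_num) (by norm_num)

lemma d5_38 (h : Good (5 / 4) R p) (h1 : 0.16 ≤ R) (h2 : R ≤ 0.41) : 0.09083 + 0.635 * R ≤ p := by
  rcases le_total R 0.18 with u | l27
  · exact lin_ends (b5_27 h h1 u) h1 u (by norm_num) (by norm_num)
  rcases le_total R 0.195 with u | l28
  · exact lin_ends (b5_28 h l27 u) l27 u (by norm_num) (by norm_num)
  rcases le_total R 0.21 with u | l29
  · exact lin_ends (b5_29 h l28 u) l28 u (by norm_num) (by norm_num)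
  rcases le_total R 0.22 with u | l30
  · exact lin_ends (b5_30 h l29 u) l29 u (by norm_num) (by norm_num)
  rcases le_total R 0.235 with u | l31
  · exact lin_ends (b5_31 h l30 u) l30 u (by norm_num) (by norm_num)
  rcases le_total R 0.25 with u | l32
  · exact lin_ends (b5_32 h l31 u) l31 u (by norm_num) (by norm_num)
  rcases le_total R 0.27 with u | l33
  · exact lin_ends (b5_33 h l32 u) l32 u (by norm_num) (by norm_num)
  rcases le_total R 0.29 with u | l34
  · exact lin_ends (b5_34 h l33 u) l33 u (by norm_num) (by norm_num)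
  rcases le_total R 0.31 with u | l35
  · exact lin_ends (b5_35 h l34 u) l34 u (by norm_num) (by norm_num)
  rcases le_total R 0.33 with u | l36
  · exact lin_ends (b5_36 h l35 u) l35 u (by norm_num) (by norm_num)
  rcases le_total R 0.345 with u | l37
  · exact lin_ends (b5_37 h l36 u) l36 u (by norm_num) (by norm_num)
  rcases le_total R 0.36 with u | l38
  · linarith only [b5_38 h l37 u, ba38_3 h l37 u, ba38_4 h l37 u, l37, u]
  rcases le_total R 0.37 with u | l39
  · exact lin_ends (ba39_3 h l38 u) l38 u (by norm_num) (by norm_num)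
  rcases le_total R 0.38 with u | l40
  · exact lin_ends (ba40_2 h l39 u) l39 u (by norm_num) (by norm_num)
  rcases le_total R 0.39 with u | l41
  · exact lin_ends (ba41_2 h l40 u) l40 u (by norm_num) (by norm_num)
  rcases le_total R 0.4 with u | l42
  · exact lin_ends (ba42_1 h l41 u) l41 u (by norm_num) (by norm_num)
  exact lin_ends (ba43_1 h l42 h2) l42 h2 (by norm_num) (by norm_num)

lemma d5_39 (h : Good (5 / 4) R p) (h1 : 0.02 ≤ R) (h2 : R ≤ 0.21) : 0.04728 + 0.866 * R ≤ p := by
  rcases le_total R 0.025 with u | l13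
  · exact lin_ends (bs13 h h1 u) h1 u (by norm_num) (by norm_num)
  rcases le_total R 0.03 with u | l14
  · exact lin_ends (bs14 h l13 u) l13 u (by norm_num) (by norm_num)
  rcases le_total R 0.035 with u | l15
  · exact lin_ends (bs15 h l14 u) l14 u (by norm_num) (by norm_num)
  rcases le_total R 0.04 with u | l16
  · exact lin_ends (bs16 h l15 u) l15 u (by norm_num) (by norm_num)
  rcases le_total R 0.045 with u | l17
  · exact lin_ends (b5_17 h l16 u) l16 u (by norm_num) (by norm_num)
  rcases le_total R 0.05 with u | l18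
  · exact lin_ends (b5_18 h l17 u) l17 u (by norm_num) (by norm_num)
  rcases le_total R 0.06 with u | l19
  · exact lin_ends (b5_19 h l18 u) l18 u (by norm_num) (by norm_num)
  rcases le_total R 0.07 with u | l20
  · exact lin_ends (b5_20 h l19 u) l19 u (by norm_num) (by norm_num)
  rcases le_total R 0.08 with u | l21
  · exact lin_ends (b5_21 h l20 u) l20 u (by norm_num) (by norm_num)
  rcases le_total R 0.09 with u | l22
  · exact lin_ends (b5_22 h l21 u) l21 u (by norm_num) (by norm_num)
  rcases le_total R 0.1 with u | l23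
  · exact lin_ends (b5_23 h l22 u) l22 u (by norm_num) (by norm_num)
  rcases le_total R 0.12 with u | l24
  · exact lin_ends (b5_24 h l23 u) l23 u (by norm_num) (by norm_num)
  rcases le_total R 0.14 with u | l25
  · exact lin_ends (b5_25 h l24 u) l24 u (by norm_num) (by norm_num)
  rcases le_total R 0.16 with u | l26
  · exact lin_ends (b5_26 h l25 u) l25 u (by norm_num) (by norm_num)
  rcases le_total R 0.18 with u | l27
  · exact lin_ends (b5_27 h l26 u) l26 u (by norm_num) (by norm_num)
  rcases le_total R 0.195 with u | l28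
  · exact lin_ends (b5_28 h l27 u) l27 u (by norm_num) (by norm_num)
  exact lin_ends (b5_29 h l28 h2) l28 h2 (by norm_num) (by norm_num)

lemma g5_9 (h : Good (5 / 4) R p) (h2 : R ≤ 0.008) : 5.042 * R ≤ p := by
  have h1 : (0:ℝ) ≤ R := h.1.le
  suffices H : 0 + 5.042 * R ≤ p by rwa [zero_add] at H
  rcases le_total R 0.0005 with u | l0
  · exact lin_ends (bs0 h h1 u) h1 u (by norm_num) (by norm_num)
  rcases le_total R 0.001 with u | l1
  · exact lin_ends (bs1 h l0 u) l0 u (by norm_num) (by norm_num)
  rcases le_total R 0.0015 with u | l2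
  · exact lin_ends (bs2 h l1 u) l1 u (by norm_num) (by norm_num)
  rcases le_total R 0.002 with u | l3
  · exact lin_ends (bs3 h l2 u) l2 u (by norm_num) (by norm_num)
  rcases le_total R 0.003 with u | l4
  · exact lin_ends (bs4 h l3 u) l3 u (by norm_num) (by norm_num)
  rcases le_total R 0.004 with u | l5
  · exact lin_ends (bs5 h l4 u) l4 u (by norm_num) (by norm_num)
  rcases le_total R 0.005 with u | l6
  · exact lin_ends (bs6 h l5 u) l5 u (by norm_num) (by norm_num)
  rcases le_total R 0.006 with u | l7
  · exact lin_ends (bs7 h l6 u) l6 u (by norm_num) (by norm_num)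
  exact lin_ends (bs8 h l7 h2) l7 h2 (by norm_num) (by norm_num)

lemma g5_27 (h : Good (5 / 4) R p) (h2 : R ≤ 0.16) : 1.222 * R ≤ p := by
  have h1 : (0:ℝ) ≤ R := h.1.le
  suffices H : 0 + 1.222 * R ≤ p by rwa [zero_add] at H
  rcases le_total R 0.0005 with u | l0
  · exact lin_ends (bs0 h h1 u) h1 u (by norm_num) (by norm_num)
  rcases le_total R 0.001 with u | l1
  · exact lin_ends (bs1 h l0 u) l0 u (by norm_num) (by norm_num)
  rcases le_total R 0.0015 with u | l2
  · exact lin_ends (bs2 h l1 u) l1 u (by norm_num) (by norm_num)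
  rcases le_total R 0.002 with u | l3
  · exact lin_ends (bs3 h l2 u) l2 u (by norm_num) (by norm_num)
  rcases le_total R 0.003 with u | l4
  · exact lin_ends (bs4 h l3 u) l3 u (by norm_num) (by norm_num)
  rcases le_total R 0.004 with u | l5
  · exact lin_ends (bs5 h l4 u) l4 u (by norm_num) (by norm_num)
  rcases le_total R 0.005 with u | l6
  · exact lin_ends (bs6 h l5 u) l5 u (by norm_num) (by norm_num)
  rcases le_total R 0.006 with u | l7
  · exact lin_ends (bs7 h l6 u) l6 u (by norm_num) (by norm_num)
  rcases le_total R 0.008 with u | l8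
  · exact lin_ends (bs8 h l7 u) l7 u (by norm_num) (by norm_num)
  rcases le_total R 0.01 with u | l9
  · exact lin_ends (bs9 h l8 u) l8 u (by norm_num) (by norm_num)
  rcases le_total R 0.013 with u | l10
  · exact lin_ends (bs10 h l9 u) l9 u (by norm_num) (by norm_num)
  rcases le_total R 0.016 with u | l11
  · exact lin_ends (bs11 h l10 u) l10 u (by norm_num) (by norm_num)
  rcases le_total R 0.02 with u | l12
  · exact lin_ends (bs12 h l11 u) l11 u (by norm_num) (by norm_num)
  rcases le_total R 0.025 with u | l13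
  · exact lin_ends (bs13 h l12 u) l12 u (by norm_num) (by norm_num)
  rcases le_total R 0.03 with u | l14
  · exact lin_ends (bs14 h l13 u) l13 u (by norm_num) (by norm_num)
  rcases le_total R 0.035 with u | l15
  · exact lin_ends (bs15 h l14 u) l14 u (by norm_num) (by norm_num)
  rcases le_total R 0.04 with u | l16
  · exact lin_ends (bs16 h l15 u) l15 u (by norm_num) (by norm_num)
  rcases le_total R 0.045 with u | l17
  · exact lin_ends (b5_17 h l16 u) l16 u (by norm_num) (by norm_num)
  rcases le_total R 0.05 with u | l18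
  · exact lin_ends (b5_18 h l17 u) l17 u (by norm_num) (by norm_num)
  rcases le_total R 0.06 with u | l19
  · exact lin_ends (b5_19 h l18 u) l18 u (by norm_num) (by norm_num)
  rcases le_total R 0.07 with u | l20
  · exact lin_ends (b5_20 h l19 u) l19 u (by norm_num) (by norm_num)
  rcases le_total R 0.08 with u | l21
  · exact lin_ends (b5_21 h l20 u) l20 u (by norm_num) (by norm_num)
  rcases le_total R 0.09 with u | l22
  · exact lin_ends (b5_22 h l21 u) l21 u (by norm_num) (by norm_num)
  rcases le_total R 0.1 with u | l23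
  · exact lin_ends (b5_23 h l22 u) l22 u (by norm_num) (by norm_num)
  rcases le_total R 0.12 with u | l24
  · exact lin_ends (b5_24 h l23 u) l23 u (by norm_num) (by norm_num)
  rcases le_total R 0.14 with u | l25
  · exact lin_ends (b5_25 h l24 u) l24 u (by norm_num) (by norm_num)
  exact lin_ends (b5_26 h l25 h2) l25 h2 (by norm_num) (by norm_num)

lemma g5_10 (h : Good (5 / 4) R p) (h2 : R ≤ 0.01) : 4.537 * R ≤ p := by
  have h1 : (0:ℝ) ≤ R := h.1.le
  suffices H : 0 + 4.537 * R ≤ p by rwa [zero_add] at H
  rcases le_total R 0.0005 with u | l0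
  · exact lin_ends (bs0 h h1 u) h1 u (by norm_num) (by norm_num)
  rcases le_total R 0.001 with u | l1
  · exact lin_ends (bs1 h l0 u) l0 u (by norm_num) (by norm_num)
  rcases le_total R 0.0015 with u | l2
  · exact lin_ends (bs2 h l1 u) l1 u (by norm_num) (by norm_num)
  rcases le_total R 0.002 with u | l3
  · exact lin_ends (bs3 h l2 u) l2 u (by norm_num) (by norm_num)
  rcases le_total R 0.003 with u | l4
  · exact lin_ends (bs4 h l3 u) l3 u (by norm_num) (by norm_num)
  rcases le_total R 0.004 with u | l5
  · exact lin_ends (bs5 h l4 u) l4 u (by norm_num) (by norm_num)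
  rcases le_total R 0.005 with u | l6
  · exact lin_ends (bs6 h l5 u) l5 u (by norm_num) (by norm_num)
  rcases le_total R 0.006 with u | l7
  · exact lin_ends (bs7 h l6 u) l6 u (by norm_num) (by norm_num)
  rcases le_total R 0.008 with u | l8
  · exact lin_ends (bs8 h l7 u) l7 u (by norm_num) (by norm_num)
  exact lin_ends (bs9 h l8 h2) l8 h2 (by norm_num) (by norm_num)

lemma g5_11 (h : Good (5 / 4) R p) (h2 : R ≤ 0.013) : 3.983 * R ≤ p := by
  have h1 : (0:ℝ) ≤ R := h.1.le
  suffices H : 0 + 3.983 * R ≤ p by rwa [zero_add] at H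
  rcases le_total R 0.0005 with u | l0
  · exact lin_ends (bs0 h h1 u) h1 u (by norm_num) (by norm_num)
  rcases le_total R 0.001 with u | l1
  · exact lin_ends (bs1 h l0 u) l0 u (by norm_num) (by norm_num)
  rcases le_total R 0.0015 with u | l2
  · exact lin_ends (bs2 h l1 u) l1 u (by norm_num) (by norm_num)
  rcases le_total R 0.002 with u | l3
  · exact lin_ends (bs3 h l2 u) l2 u (by norm_num) (by norm_num)
  rcases le_total R 0.003 with u | l4
  · exact lin_ends (bs4 h l3 u) l3 u (by norm_num) (by norm_num)
  rcases le_total R 0.004 with u | l5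
  · exact lin_ends (bs5 h l4 u) l4 u (by norm_num) (by norm_num)
  rcases le_total R 0.005 with u | l6
  · exact lin_ends (bs6 h l5 u) l5 u (by norm_num) (by norm_num)
  rcases le_total R 0.006 with u | l7
  · exact lin_ends (bs7 h l6 u) l6 u (by norm_num) (by norm_num)
  rcases le_total R 0.008 with u | l8
  · exact lin_ends (bs8 h l7 u) l7 u (by norm_num) (by norm_num)
  rcases le_total R 0.01 with u | l9
  · exact lin_ends (bs9 h l8 u) l8 u (by norm_num) (by norm_num)
  exact lin_ends (bs10 h l9 h2) l9 h2 (by norm_num) (by norm_num)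

lemma g5_12 (h : Good (5 / 4) R p) (h2 : R ≤ 0.016) : 3.6 * R ≤ p := by
  have h1 : (0:ℝ) ≤ R := h.1.le
  suffices H : 0 + 3.6 * R ≤ p by rwa [zero_add] at H
  rcases le_total R 0.0005 with u | l0
  · exact lin_ends (bs0 h h1 u) h1 u (by norm_num) (by norm_num)
  rcases le_total R 0.001 with u | l1
  · exact lin_ends (bs1 h l0 u) l0 u (by norm_num) (by norm_num)
  rcases le_total R 0.0015 with u | l2
  · exact lin_ends (bs2 h l1 u) l1 u (by norm_num) (by norm_num)
  rcases le_total R 0.002 with u | l3
  · exact lin_ends (bs3 h l2 u) l2 u (by norm_num) (by norm_num)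
  rcases le_total R 0.003 with u | l4
  · exact lin_ends (bs4 h l3 u) l3 u (by norm_num) (by norm_num)
  rcases le_total R 0.004 with u | l5
  · exact lin_ends (bs5 h l4 u) l4 u (by norm_num) (by norm_num)
  rcases le_total R 0.005 with u | l6
  · exact lin_ends (bs6 h l5 u) l5 u (by norm_num) (by norm_num)
  rcases le_total R 0.006 with u | l7
  · exact lin_ends (bs7 h l6 u) l6 u (by norm_num) (by norm_num)
  rcases le_total R 0.008 with u | l8
  · exact lin_ends (bs8 h l7 u) l7 u (by norm_num) (by norm_num)
  rcases le_total R 0.01 with u | l9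
  · exact lin_ends (bs9 h l8 u) l8 u (by norm_num) (by norm_num)
  rcases le_total R 0.013 with u | l10
  · exact lin_ends (bs10 h l9 u) l9 u (by norm_num) (by norm_num)
  exact lin_ends (bs11 h l10 h2) l10 h2 (by norm_num) (by norm_num)

lemma g5_13 (h : Good (5 / 4) R p) (h2 : R ≤ 0.02) : 3.233 * R ≤ p := by
  have h1 : (0:ℝ) ≤ R := h.1.le
  suffices H : 0 + 3.233 * R ≤ p by rwa [zero_add] at H
  rcases le_total R 0.0005 with u | l0
  · exact lin_ends (bs0 h h1 u) h1 u (by norm_num) (by norm_num)
  rcases le_total R 0.001 with u | l1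
  · exact lin_ends (bs1 h l0 u) l0 u (by norm_num) (by norm_num)
  rcases le_total R 0.0015 with u | l2
  · exact lin_ends (bs2 h l1 u) l1 u (by norm_num) (by norm_num)
  rcases le_total R 0.002 with u | l3
  · exact lin_ends (bs3 h l2 u) l2 u (by norm_num) (by norm_num)
  rcases le_total R 0.003 with u | l4
  · exact lin_ends (bs4 h l3 u) l3 u (by norm_num) (by norm_num)
  rcases le_total R 0.004 with u | l5
  · exact lin_ends (bs5 h l4 u) l4 u (by norm_num) (by norm_num)
  rcases le_total R 0.005 with u | l6
  · exact lin_ends (bs6 h l5 u) l5 u (by norm_num) (by norm_num)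
  rcases le_total R 0.006 with u | l7
  · exact lin_ends (bs7 h l6 u) l6 u (by norm_num) (by norm_num)
  rcases le_total R 0.008 with u | l8
  · exact lin_ends (bs8 h l7 u) l7 u (by norm_num) (by norm_num)
  rcases le_total R 0.01 with u | l9
  · exact lin_ends (bs9 h l8 u) l8 u (by norm_num) (by norm_num)
  rcases le_total R 0.013 with u | l10
  · exact lin_ends (bs10 h l9 u) l9 u (by norm_num) (by norm_num)
  rcases le_total R 0.016 with u | l11
  · exact lin_ends (bs11 h l10 u) l10 u (by norm_num) (by norm_num)
  exact lin_ends (bs12 h l11 h2) l11 h2 (by norm_num) (by norm_num)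

lemma g5_30 (h : Good (5 / 4) R p) (h2 : R ≤ 0.21) : 1.091 * R ≤ p := by
  have h1 : (0:ℝ) ≤ R := h.1.le
  suffices H : 0 + 1.091 * R ≤ p by rwa [zero_add] at H
  rcases le_total R 0.0005 with u | l0
  · exact lin_ends (bs0 h h1 u) h1 u (by norm_num) (by norm_num)
  rcases le_total R 0.001 with u | l1
  · exact lin_ends (bs1 h l0 u) l0 u (by norm_num) (by norm_num)
  rcases le_total R 0.0015 with u | l2
  · exact lin_ends (bs2 h l1 u) l1 u (by norm_num) (by norm_num)
  rcases le_total R 0.002 with u | l3
  · exact lin_ends (bs3 h l2 u) l2 u (by norm_num) (by norm_num)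
  rcases le_total R 0.003 with u | l4
  · exact lin_ends (bs4 h l3 u) l3 u (by norm_num) (by norm_num)
  rcases le_total R 0.004 with u | l5
  · exact lin_ends (bs5 h l4 u) l4 u (by norm_num) (by norm_num)
  rcases le_total R 0.005 with u | l6
  · exact lin_ends (bs6 h l5 u) l5 u (by norm_num) (by norm_num)
  rcases le_total R 0.006 with u | l7
  · exact lin_ends (bs7 h l6 u) l6 u (by norm_num) (by norm_num)
  rcases le_total R 0.008 with u | l8
  · exact lin_ends (bs8 h l7 u) l7 u (by norm_num) (by norm_num)
  rcases le_total R 0.01 with u | l9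
  · exact lin_ends (bs9 h l8 u) l8 u (by norm_num) (by norm_num)
  rcases le_total R 0.013 with u | l10
  · exact lin_ends (bs10 h l9 u) l9 u (by norm_num) (by norm_num)
  rcases le_total R 0.016 with u | l11
  · exact lin_ends (bs11 h l10 u) l10 u (by norm_num) (by norm_num)
  rcases le_total R 0.02 with u | l12
  · exact lin_ends (bs12 h l11 u) l11 u (by norm_num) (by norm_num)
  rcases le_total R 0.025 with u | l13
  · exact lin_ends (bs13 h l12 u) l12 u (by norm_num) (by norm_num)
  rcases le_total R 0.03 with u | l14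
  · exact lin_ends (bs14 h l13 u) l13 u (by norm_num) (by norm_num)
  rcases le_total R 0.035 with u | l15
  · exact lin_ends (bs15 h l14 u) l14 u (by norm_num) (by norm_num)
  rcases le_total R 0.04 with u | l16
  · exact lin_ends (bs16 h l15 u) l15 u (by norm_num) (by norm_num)
  rcases le_total R 0.045 with u | l17
  · exact lin_ends (b5_17 h l16 u) l16 u (by norm_num) (by norm_num)
  rcases le_total R 0.05 with u | l18
  · exact lin_ends (b5_18 h l17 u) l17 u (by norm_num) (by norm_num)
  rcases le_total R 0.06 with u | l19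
  · exact lin_ends (b5_19 h l18 u) l18 u (by norm_num) (by norm_num)
  rcases le_total R 0.07 with u | l20
  · exact lin_ends (b5_20 h l19 u) l19 u (by norm_num) (by norm_num)
  rcases le_total R 0.08 with u | l21
  · exact lin_ends (b5_21 h l20 u) l20 u (by norm_num) (by norm_num)
  rcases le_total R 0.09 with u | l22
  · exact lin_ends (b5_22 h l21 u) l21 u (by norm_num) (by norm_num)
  rcases le_total R 0.1 with u | l23
  · exact lin_ends (b5_23 h l22 u) l22 u (by norm_num) (by norm_num)
  rcases le_total R 0.12 with u | l24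
  · exact lin_ends (b5_24 h l23 u) l23 u (by norm_num) (by norm_num)
  rcases le_total R 0.14 with u | l25
  · exact lin_ends (b5_25 h l24 u) l24 u (by norm_num) (by norm_num)
  rcases le_total R 0.16 with u | l26
  · exact lin_ends (b5_26 h l25 u) l25 u (by norm_num) (by norm_num)
  rcases le_total R 0.18 with u | l27
  · exact lin_ends (b5_27 h l26 u) l26 u (by norm_num) (by norm_num)
  rcases le_total R 0.195 with u | l28
  · exact lin_ends (b5_28 h l27 u) l27 u (by norm_num) (by norm_num)
  exact lin_ends (b5_29 h l28 h2) l28 h2 (by norm_num) (by norm_num)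

lemma g5_14 (h : Good (5 / 4) R p) (h2 : R ≤ 0.025) : 2.895 * R ≤ p := by
  have h1 : (0:ℝ) ≤ R := h.1.le
  suffices H : 0 + 2.895 * R ≤ p by rwa [zero_add] at H
  rcases le_total R 0.0005 with u | l0
  · exact lin_ends (bs0 h h1 u) h1 u (by norm_num) (by norm_num)
  rcases le_total R 0.001 with u | l1
  · exact lin_ends (bs1 h l0 u) l0 u (by norm_num) (by norm_num)
  rcases le_total R 0.0015 with u | l2
  · exact lin_ends (bs2 h l1 u) l1 u (by norm_num) (by norm_num)
  rcases le_total R 0.002 with u | l3
  · exact lin_ends (bs3 h l2 u) l2 u (by norm_num) (by norm_num)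
  rcases le_total R 0.003 with u | l4
  · exact lin_ends (bs4 h l3 u) l3 u (by norm_num) (by norm_num)
  rcases le_total R 0.004 with u | l5
  · exact lin_ends (bs5 h l4 u) l4 u (by norm_num) (by norm_num)
  rcases le_total R 0.005 with u | l6
  · exact lin_ends (bs6 h l5 u) l5 u (by norm_num) (by norm_num)
  rcases le_total R 0.006 with u | l7
  · exact lin_ends (bs7 h l6 u) l6 u (by norm_num) (by norm_num)
  rcases le_total R 0.008 with u | l8
  · exact lin_ends (bs8 h l7 u) l7 u (by norm_num) (by norm_num)
  rcases le_total R 0.01 with u | l9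
  · exact lin_ends (bs9 h l8 u) l8 u (by norm_num) (by norm_num)
  rcases le_total R 0.013 with u | l10
  · exact lin_ends (bs10 h l9 u) l9 u (by norm_num) (by norm_num)
  rcases le_total R 0.016 with u | l11
  · exact lin_ends (bs11 h l10 u) l10 u (by norm_num) (by norm_num)
  rcases le_total R 0.02 with u | l12
  · exact lin_ends (bs12 h l11 u) l11 u (by norm_num) (by norm_num)
  exact lin_ends (bs13 h l12 h2) l12 h2 (by norm_num) (by norm_num)

lemma g5_15 (h : Good (5 / 4) R p) (h2 : R ≤ 0.03) : 2.658 * R ≤ p := by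
  have h1 : (0:ℝ) ≤ R := h.1.le
  suffices H : 0 + 2.658 * R ≤ p by rwa [zero_add] at H
  rcases le_total R 0.0005 with u | l0
  · exact lin_ends (bs0 h h1 u) h1 u (by norm_num) (by norm_num)
  rcases le_total R 0.001 with u | l1
  · exact lin_ends (bs1 h l0 u) l0 u (by norm_num) (by norm_num)
  rcases le_total R 0.0015 with u | l2
  · exact lin_ends (bs2 h l1 u) l1 u (by norm_num) (by norm_num)
  rcases le_total R 0.002 with u | l3
  · exact lin_ends (bs3 h l2 u) l2 u (by norm_num) (by norm_num)
  rcases le_total R 0.003 with u | l4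
  · exact lin_ends (bs4 h l3 u) l3 u (by norm_num) (by norm_num)
  rcases le_total R 0.004 with u | l5
  · exact lin_ends (bs5 h l4 u) l4 u (by norm_num) (by norm_num)
  rcases le_total R 0.005 with u | l6
  · exact lin_ends (bs6 h l5 u) l5 u (by norm_num) (by norm_num)
  rcases le_total R 0.006 with u | l7
  · exact lin_ends (bs7 h l6 u) l6 u (by norm_num) (by norm_num)
  rcases le_total R 0.008 with u | l8
  · exact lin_ends (bs8 h l7 u) l7 u (by norm_num) (by norm_num)
  rcases le_total R 0.01 with u | l9
  · exact lin_ends (bs9 h l8 u) l8 u (by norm_num) (by norm_num)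
  rcases le_total R 0.013 with u | l10
  · exact lin_ends (bs10 h l9 u) l9 u (by norm_num) (by norm_num)
  rcases le_total R 0.016 with u | l11
  · exact lin_ends (bs11 h l10 u) l10 u (by norm_num) (by norm_num)
  rcases le_total R 0.02 with u | l12
  · exact lin_ends (bs12 h l11 u) l11 u (by norm_num) (by norm_num)
  rcases le_total R 0.025 with u | l13
  · exact lin_ends (bs13 h l12 u) l12 u (by norm_num) (by norm_num)
  exact lin_ends (bs14 h l13 h2) l13 h2 (by norm_num) (by norm_num)

lemma g5_29 (h : Good (5 / 4) R p) (h2 : R ≤ 0.195) : 1.126 * R ≤ p := by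
  have h1 : (0:ℝ) ≤ R := h.1.le
  suffices H : 0 + 1.126 * R ≤ p by rwa [zero_add] at H
  rcases le_total R 0.0005 with u | l0
  · exact lin_ends (bs0 h h1 u) h1 u (by norm_num) (by norm_num)
  rcases le_total R 0.001 with u | l1
  · exact lin_ends (bs1 h l0 u) l0 u (by norm_num) (by norm_num)
  rcases le_total R 0.0015 with u | l2
  · exact lin_ends (bs2 h l1 u) l1 u (by norm_num) (by norm_num)
  rcases le_total R 0.002 with u | l3
  · exact lin_ends (bs3 h l2 u) l2 u (by norm_num) (by norm_num)
  rcases le_total R 0.003 with u | l4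
  · exact lin_ends (bs4 h l3 u) l3 u (by norm_num) (by norm_num)
  rcases le_total R 0.004 with u | l5
  · exact lin_ends (bs5 h l4 u) l4 u (by norm_num) (by norm_num)
  rcases le_total R 0.005 with u | l6
  · exact lin_ends (bs6 h l5 u) l5 u (by norm_num) (by norm_num)
  rcases le_total R 0.006 with u | l7
  · exact lin_ends (bs7 h l6 u) l6 u (by norm_num) (by norm_num)
  rcases le_total R 0.008 with u | l8
  · exact lin_ends (bs8 h l7 u) l7 u (by norm_num) (by norm_num)
  rcases le_total R 0.01 with u | l9
  · exact lin_ends (bs9 h l8 u) l8 u (by norm_num) (by norm_num)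
  rcases le_total R 0.013 with u | l10
  · exact lin_ends (bs10 h l9 u) l9 u (by norm_num) (by norm_num)
  rcases le_total R 0.016 with u | l11
  · exact lin_ends (bs11 h l10 u) l10 u (by norm_num) (by norm_num)
  rcases le_total R 0.02 with u | l12
  · exact lin_ends (bs12 h l11 u) l11 u (by norm_num) (by norm_num)
  rcases le_total R 0.025 with u | l13
  · exact lin_ends (bs13 h l12 u) l12 u (by norm_num) (by norm_num)
  rcases le_total R 0.03 with u | l14
  · exact lin_ends (bs14 h l13 u) l13 u (by norm_num) (by norm_num)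
  rcases le_total R 0.035 with u | l15
  · exact lin_ends (bs15 h l14 u) l14 u (by norm_num) (by norm_num)
  rcases le_total R 0.04 with u | l16
  · exact lin_ends (bs16 h l15 u) l15 u (by norm_num) (by norm_num)
  rcases le_total R 0.045 with u | l17
  · exact lin_ends (b5_17 h l16 u) l16 u (by norm_num) (by norm_num)
  rcases le_total R 0.05 with u | l18
  · exact lin_ends (b5_18 h l17 u) l17 u (by norm_num) (by norm_num)
  rcases le_total R 0.06 with u | l19
  · exact lin_ends (b5_19 h l18 u) l18 u (by norm_num) (by norm_num)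
  rcases le_total R 0.07 with u | l20
  · exact lin_ends (b5_20 h l19 u) l19 u (by norm_num) (by norm_num)
  rcases le_total R 0.08 with u | l21
  · exact lin_ends (b5_21 h l20 u) l20 u (by norm_num) (by norm_num)
  rcases le_total R 0.09 with u | l22
  · exact lin_ends (b5_22 h l21 u) l21 u (by norm_num) (by norm_num)
  rcases le_total R 0.1 with u | l23
  · exact lin_ends (b5_23 h l22 u) l22 u (by norm_num) (by norm_num)
  rcases le_total R 0.12 with u | l24
  · exact lin_ends (b5_24 h l23 u) l23 u (by norm_num) (by norm_num)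
  rcases le_total R 0.14 with u | l25
  · exact lin_ends (b5_25 h l24 u) l24 u (by norm_num) (by norm_num)
  rcases le_total R 0.16 with u | l26
  · exact lin_ends (b5_26 h l25 u) l25 u (by norm_num) (by norm_num)
  rcases le_total R 0.18 with u | l27
  · exact lin_ends (b5_27 h l26 u) l26 u (by norm_num) (by norm_num)
  exact lin_ends (b5_28 h l27 h2) l27 h2 (by norm_num) (by norm_num)

lemma g5_22 (h : Good (5 / 4) R p) (h2 : R ≤ 0.08) : 1.679 * R ≤ p := by
  have h1 : (0:ℝ) ≤ R := h.1.le
  suffices H : 0 + 1.679 * R ≤ p by rwa [zero_add] at H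
  rcases le_total R 0.0005 with u | l0
  · exact lin_ends (bs0 h h1 u) h1 u (by norm_num) (by norm_num)
  rcases le_total R 0.001 with u | l1
  · exact lin_ends (bs1 h l0 u) l0 u (by norm_num) (by norm_num)
  rcases le_total R 0.0015 with u | l2
  · exact lin_ends (bs2 h l1 u) l1 u (by norm_num) (by norm_num)
  rcases le_total R 0.002 with u | l3
  · exact lin_ends (bs3 h l2 u) l2 u (by norm_num) (by norm_num)
  rcases le_total R 0.003 with u | l4
  · exact lin_ends (bs4 h l3 u) l3 u (by norm_num) (by norm_num)
  rcases le_total R 0.004 with u | l5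
  · exact lin_ends (bs5 h l4 u) l4 u (by norm_num) (by norm_num)
  rcases le_total R 0.005 with u | l6
  · exact lin_ends (bs6 h l5 u) l5 u (by norm_num) (by norm_num)
  rcases le_total R 0.006 with u | l7
  · exact lin_ends (bs7 h l6 u) l6 u (by norm_num) (by norm_num)
  rcases le_total R 0.008 with u | l8
  · exact lin_ends (bs8 h l7 u) l7 u (by norm_num) (by norm_num)
  rcases le_total R 0.01 with u | l9
  · exact lin_ends (bs9 h l8 u) l8 u (by norm_num) (by norm_num)
  rcases le_total R 0.013 with u | l10
  · exact lin_ends (bs10 h l9 u) l9 u (by norm_num) (by norm_num)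
  rcases le_total R 0.016 with u | l11
  · exact lin_ends (bs11 h l10 u) l10 u (by norm_num) (by norm_num)
  rcases le_total R 0.02 with u | l12
  · exact lin_ends (bs12 h l11 u) l11 u (by norm_num) (by norm_num)
  rcases le_total R 0.025 with u | l13
  · exact lin_ends (bs13 h l12 u) l12 u (by norm_num) (by norm_num)
  rcases le_total R 0.03 with u | l14
  · exact lin_ends (bs14 h l13 u) l13 u (by norm_num) (by norm_num)
  rcases le_total R 0.035 with u | l15
  · exact lin_ends (bs15 h l14 u) l14 u (by norm_num) (by norm_num)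
  rcases le_total R 0.04 with u | l16
  · exact lin_ends (bs16 h l15 u) l15 u (by norm_num) (by norm_num)
  rcases le_total R 0.045 with u | l17
  · exact lin_ends (b5_17 h l16 u) l16 u (by norm_num) (by norm_num)
  rcases le_total R 0.05 with u | l18
  · exact lin_ends (b5_18 h l17 u) l17 u (by norm_num) (by norm_num)
  rcases le_total R 0.06 with u | l19
  · exact lin_ends (b5_19 h l18 u) l18 u (by norm_num) (by norm_num)
  rcases le_total R 0.07 with u | l20
  · exact lin_ends (b5_20 h l19 u) l19 u (by norm_num) (by norm_num)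
  exact lin_ends (b5_21 h l20 h2) l20 h2 (by norm_num) (by norm_num)

lemma g5_16 (h : Good (5 / 4) R p) (h2 : R ≤ 0.035) : 2.454 * R ≤ p := by
  have h1 : (0:ℝ) ≤ R := h.1.le
  suffices H : 0 + 2.454 * R ≤ p by rwa [zero_add] at H
  rcases le_total R 0.0005 with u | l0
  · exact lin_ends (bs0 h h1 u) h1 u (by norm_num) (by norm_num)
  rcases le_total R 0.001 with u | l1
  · exact lin_ends (bs1 h l0 u) l0 u (by norm_num) (by norm_num)
  rcases le_total R 0.0015 with u | l2
  · exact lin_ends (bs2 h l1 u) l1 u (by norm_num) (by norm_num)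
  rcases le_total R 0.002 with u | l3
  · exact lin_ends (bs3 h l2 u) l2 u (by norm_num) (by norm_num)
  rcases le_total R 0.003 with u | l4
  · exact lin_ends (bs4 h l3 u) l3 u (by norm_num) (by norm_num)
  rcases le_total R 0.004 with u | l5
  · exact lin_ends (bs5 h l4 u) l4 u (by norm_num) (by norm_num)
  rcases le_total R 0.005 with u | l6
  · exact lin_ends (bs6 h l5 u) l5 u (by norm_num) (by norm_num)
  rcases le_total R 0.006 with u | l7
  · exact lin_ends (bs7 h l6 u) l6 u (by norm_num) (by norm_num)
  rcases le_total R 0.008 with u | l8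
  · exact lin_ends (bs8 h l7 u) l7 u (by norm_num) (by norm_num)
  rcases le_total R 0.01 with u | l9
  · exact lin_ends (bs9 h l8 u) l8 u (by norm_num) (by norm_num)
  rcases le_total R 0.013 with u | l10
  · exact lin_ends (bs10 h l9 u) l9 u (by norm_num) (by norm_num)
  rcases le_total R 0.016 with u | l11
  · exact lin_ends (bs11 h l10 u) l10 u (by norm_num) (by norm_num)
  rcases le_total R 0.02 with u | l12
  · exact lin_ends (bs12 h l11 u) l11 u (by norm_num) (by norm_num)
  rcases le_total R 0.025 with u | l13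
  · exact lin_ends (bs13 h l12 u) l12 u (by norm_num) (by norm_num)
  rcases le_total R 0.03 with u | l14
  · exact lin_ends (bs14 h l13 u) l13 u (by norm_num) (by norm_num)
  exact lin_ends (bs15 h l14 h2) l14 h2 (by norm_num) (by norm_num)

lemma g5_17 (h : Good (5 / 4) R p) (h2 : R ≤ 0.04) : 2.295 * R ≤ p := by
  have h1 : (0:ℝ) ≤ R := h.1.le
  suffices H : 0 + 2.295 * R ≤ p by rwa [zero_add] at H
  rcases le_total R 0.0005 with u | l0
  · exact lin_ends (bs0 h h1 u) h1 u (by norm_num) (by norm_num)
  rcases le_total R 0.001 with u | l1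
  · exact lin_ends (bs1 h l0 u) l0 u (by norm_num) (by norm_num)
  rcases le_total R 0.0015 with u | l2
  · exact lin_ends (bs2 h l1 u) l1 u (by norm_num) (by norm_num)
  rcases le_total R 0.002 with u | l3
  · exact lin_ends (bs3 h l2 u) l2 u (by norm_num) (by norm_num)
  rcases le_total R 0.003 with u | l4
  · exact lin_ends (bs4 h l3 u) l3 u (by norm_num) (by norm_num)
  rcases le_total R 0.004 with u | l5
  · exact lin_ends (bs5 h l4 u) l4 u (by norm_num) (by norm_num)
  rcases le_total R 0.005 with u | l6
  · exact lin_ends (bs6 h l5 u) l5 u (by norm_num) (by norm_num)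
  rcases le_total R 0.006 with u | l7
  · exact lin_ends (bs7 h l6 u) l6 u (by norm_num) (by norm_num)
  rcases le_total R 0.008 with u | l8
  · exact lin_ends (bs8 h l7 u) l7 u (by norm_num) (by norm_num)
  rcases le_total R 0.01 with u | l9
  · exact lin_ends (bs9 h l8 u) l8 u (by norm_num) (by norm_num)
  rcases le_total R 0.013 with u | l10
  · exact lin_ends (bs10 h l9 u) l9 u (by norm_num) (by norm_num)
  rcases le_total R 0.016 with u | l11
  · exact lin_ends (bs11 h l10 u) l10 u (by norm_num) (by norm_num)
  rcases le_total R 0.02 with u | l12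
  · exact lin_ends (bs12 h l11 u) l11 u (by norm_num) (by norm_num)
  rcases le_total R 0.025 with u | l13
  · exact lin_ends (bs13 h l12 u) l12 u (by norm_num) (by norm_num)
  rcases le_total R 0.03 with u | l14
  · exact lin_ends (bs14 h l13 u) l13 u (by norm_num) (by norm_num)
  rcases le_total R 0.035 with u | l15
  · exact lin_ends (bs15 h l14 u) l14 u (by norm_num) (by norm_num)
  exact lin_ends (bs16 h l15 h2) l15 h2 (by norm_num) (by norm_num)

lemma g5_26 (h : Good (5 / 4) R p) (h2 : R ≤ 0.14) : 1.297 * R ≤ p := by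
  have h1 : (0:ℝ) ≤ R := h.1.le
  suffices H : 0 + 1.297 * R ≤ p by rwa [zero_add] at H
  rcases le_total R 0.0005 with u | l0
  · exact lin_ends (bs0 h h1 u) h1 u (by norm_num) (by norm_num)
  rcases le_total R 0.001 with u | l1
  · exact lin_ends (bs1 h l0 u) l0 u (by norm_num) (by norm_num)
  rcases le_total R 0.0015 with u | l2
  · exact lin_ends (bs2 h l1 u) l1 u (by norm_num) (by norm_num)
  rcases le_total R 0.002 with u | l3
  · exact lin_ends (bs3 h l2 u) l2 u (by norm_num) (by norm_num)
  rcases le_total R 0.003 with u | l4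
  · exact lin_ends (bs4 h l3 u) l3 u (by norm_num) (by norm_num)
  rcases le_total R 0.004 with u | l5
  · exact lin_ends (bs5 h l4 u) l4 u (by norm_num) (by norm_num)
  rcases le_total R 0.005 with u | l6
  · exact lin_ends (bs6 h l5 u) l5 u (by norm_num) (by norm_num)
  rcases le_total R 0.006 with u | l7
  · exact lin_ends (bs7 h l6 u) l6 u (by norm_num) (by norm_num)
  rcases le_total R 0.008 with u | l8
  · exact lin_ends (bs8 h l7 u) l7 u (by norm_num) (by norm_num)
  rcases le_total R 0.01 with u | l9
  · exact lin_ends (bs9 h l8 u) l8 u (by norm_num) (by norm_num)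
  rcases le_total R 0.013 with u | l10
  · exact lin_ends (bs10 h l9 u) l9 u (by norm_num) (by norm_num)
  rcases le_total R 0.016 with u | l11
  · exact lin_ends (bs11 h l10 u) l10 u (by norm_num) (by norm_num)
  rcases le_total R 0.02 with u | l12
  · exact lin_ends (bs12 h l11 u) l11 u (by norm_num) (by norm_num)
  rcases le_total R 0.025 with u | l13
  · exact lin_ends (bs13 h l12 u) l12 u (by norm_num) (by norm_num)
  rcases le_total R 0.03 with u | l14
  · exact lin_ends (bs14 h l13 u) l13 u (by norm_num) (by norm_num)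
  rcases le_total R 0.035 with u | l15
  · exact lin_ends (bs15 h l14 u) l14 u (by norm_num) (by norm_num)
  rcases le_total R 0.04 with u | l16
  · exact lin_ends (bs16 h l15 u) l15 u (by norm_num) (by norm_num)
  rcases le_total R 0.045 with u | l17
  · exact lin_ends (b5_17 h l16 u) l16 u (by norm_num) (by norm_num)
  rcases le_total R 0.05 with u | l18
  · exact lin_ends (b5_18 h l17 u) l17 u (by norm_num) (by norm_num)
  rcases le_total R 0.06 with u | l19
  · exact lin_ends (b5_19 h l18 u) l18 u (by norm_num) (by norm_num)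
  rcases le_total R 0.07 with u | l20
  · exact lin_ends (b5_20 h l19 u) l19 u (by norm_num) (by norm_num)
  rcases le_total R 0.08 with u | l21
  · exact lin_ends (b5_21 h l20 u) l20 u (by norm_num) (by norm_num)
  rcases le_total R 0.09 with u | l22
  · exact lin_ends (b5_22 h l21 u) l21 u (by norm_num) (by norm_num)
  rcases le_total R 0.1 with u | l23
  · exact lin_ends (b5_23 h l22 u) l22 u (by norm_num) (by norm_num)
  rcases le_total R 0.12 with u | l24
  · exact lin_ends (b5_24 h l23 u) l23 u (by norm_num) (by norm_num)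
  exact lin_ends (b5_25 h l24 h2) l24 h2 (by norm_num) (by norm_num)

end Crest.Agent.Prp
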