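import Crest.Agent.Prp.TreeBS
import Crest.Agent.Prp.TreeB7
import Crest.Agent.Prp.Tree1

set_option autoImplicit false
set_option linter.unusedVariables false
set_option linter.style.longLine false

namespace Crest.Agent.Prp

variable {R p : ℝ}

lemma d7_0 (h : Good 1 R p) (h1 : 0 ≤ R) (h2 : R ≤ (4 / 9)) : (-0.47319) + 2.089 * R ≤ p := by
  rcases le_total R 0.0005 with u | l0
  · exact lin_ends (bs0 h h1 u) h1 u (by norm_num) (by norm_num)
  rcases le_total R 0.001 with u | l1
  · exact lin_ends (bs1 h l0 u) l0 u (by norm_num) (by norm_num)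
  rcases le_total R 0.0015 with u | l2
  · exact lin_ends (bs2 h l1 u) l1 u (by norm_num) (by norm_num)
  rcases le_total R 0.002 with u | l3
  · exact lin_ends (bs3 h l2 u) l2 u (by norm_num) (by norm_num)
  rcases le_total R 0.003 with u | l4
  · exact lin_ends (bs4 h l3 u) l3 u (by norm_num) (by norm_num)
  rcases le_total R 0.004 with u | l5
  · exact lin_ends (bs5 h l4 u) l4 u (by norm_num) (by norm_num)
  rcases le_total R 0.005 with u | l6
  · exact lin_ends (bs6 h l5 u) l5 u (by norm_num) (by norm_num)
  rcases le_total R 0.006 with u | l7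
  · exact lin_ends (bs7 h l6 u) l6 u (by norm_num) (by norm_num)
  rcases le_total R 0.008 with u | l8
  · exact lin_ends (bs8 h l7 u) l7 u (by norm_num) (by norm_num)
  rcases le_total R 0.01 with u | l9
  · exact lin_ends (bs9 h l8 u) l8 u (by norm_num) (by norm_num)
  rcases le_total R 0.013 with u | l10
  · exact lin_ends (bs10 h l9 u) l9 u (by norm_num) (by norm_num)
  rcases le_total R 0.016 with u | l11
  · exact lin_ends (bs11 h l10 u) l10 u (by norm_num) (by norm_num)
  rcases le_total R 0.02 with u | l12
  · exact lin_ends (bs12 h l11 u) l11 u (by norm_num) (by norm_num)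
  rcases le_total R 0.025 with u | l13
  · exact lin_ends (bs13 h l12 u) l12 u (by norm_num) (by norm_num)
  rcases le_total R 0.03 with u | l14
  · exact lin_ends (bs14 h l13 u) l13 u (by norm_num) (by norm_num)
  rcases le_total R 0.035 with u | l15
  · exact lin_ends (bs15 h l14 u) l14 u (by norm_num) (by norm_num)
  rcases le_total R 0.04 with u | l16
  · exact lin_ends (bs16 h l15 u) l15 u (by norm_num) (by norm_num)
  rcases le_total R 0.045 with u | l17
  · exact lin_ends (b7_17 h l16 u) l16 u (by norm_num) (by norm_num)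
  rcases le_total R 0.05 with u | l18
  · exact lin_ends (b7_18 h l17 u) l17 u (by norm_num) (by norm_num)
  rcases le_total R 0.06 with u | l19
  · exact lin_ends (b7_19 h l18 u) l18 u (by norm_num) (by norm_num)
  rcases le_total R 0.07 with u | l20
  · exact lin_ends (b7_20 h l19 u) l19 u (by norm_num) (by norm_num)
  rcases le_total R 0.08 with u | l21
  · exact lin_ends (b7_21 h l20 u) l20 u (by norm_num) (by norm_num)
  rcases le_total R 0.09 with u | l22
  · exact lin_ends (b7_22 h l21 u) l21 u (by norm_num) (by norm_num)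
  rcases le_total R 0.1 with u | l23
  · exact lin_ends (b7_23 h l22 u) l22 u (by norm_num) (by norm_num)
  rcases le_total R 0.12 with u | l24
  · exact lin_ends (b7_24 h l23 u) l23 u (by norm_num) (by norm_num)
  rcases le_total R 0.14 with u | l25
  · exact lin_ends (b7_25 h l24 u) l24 u (by norm_num) (by norm_num)
  rcases le_total R 0.16 with u | l26
  · exact lin_ends (b7_26 h l25 u) l25 u (by norm_num) (by norm_num)
  rcases le_total R 0.18 with u | l27
  · exact lin_ends (b7_27 h l26 u) l26 u (by norm_num) (by norm_num)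
  rcases le_total R 0.195 with u | l28
  · exact lin_ends (b7_28 h l27 u) l27 u (by norm_num) (by norm_num)
  rcases le_total R 0.21 with u | l29
  · exact lin_ends (b7_29 h l28 u) l28 u (by norm_num) (by norm_num)
  rcases le_total R 0.22 with u | l30
  · exact lin_ends (b7_30 h l29 u) l29 u (by norm_num) (by norm_num)
  rcases le_total R 0.235 with u | l31
  · exact lin_ends (b7_31 h l30 u) l30 u (by norm_num) (by norm_num)
  rcases le_total R 0.25 with u | l32
  · exact lin_ends (b7_32 h l31 u) l31 u (by norm_num) (by norm_num)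
  rcases le_total R 0.27 with u | l33
  · exact lin_ends (b7_33 h l32 u) l32 u (by norm_num) (by norm_num)
  rcases le_total R 0.29 with u | l34
  · exact lin_ends (b7_34 h l33 u) l33 u (by norm_num) (by norm_num)
  rcases le_total R 0.31 with u | l35
  · exact lin_ends (b7_35 h l34 u) l34 u (by norm_num) (by norm_num)
  rcases le_total R 0.33 with u | l36
  · exact lin_ends (b7_36 h l35 u) l35 u (by norm_num) (by norm_num)
  rcases le_total R 0.345 with u | l37
  · exact lin_ends (b7_37 h l36 u) l36 u (by norm_num) (by norm_num)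
  rcases le_total R 0.36 with u | l38
  · exact lin_ends (b7_38 h l37 u) l37 u (by norm_num) (by norm_num)
  rcases le_total R 0.37 with u | l39
  · exact lin_ends (ba39_3 h l38 u) l38 u (by norm_num) (by norm_num)
  rcases le_total R 0.38 with u | l40
  · exact lin_ends (ba40_2 h l39 u) l39 u (by norm_num) (by norm_num)
  rcases le_total R 0.39 with u | l41
  · exact lin_ends (ba41_2 h l40 u) l40 u (by norm_num) (by norm_num)
  rcases le_total R 0.4 with u | l42
  · exact lin_ends (ba42_1 h l41 u) l41 u (by norm_num) (by norm_num)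
  rcases le_total R 0.41 with u | l43
  · exact lin_ends (ba43_1 h l42 u) l42 u (by norm_num) (by norm_num)
  rcases le_total R 0.42 with u | l44
  · linarith only [ba44_0 h l43 u, ba44_1 h l43 u, l43, u]
  rcases le_total R 0.43 with u | l45
  · exact lin_ends (ba45_0 h l44 u) l44 u (by norm_num) (by norm_num)
  exact lin_ends (ba46_0 h l45 h2) l45 h2 (by norm_num) (by norm_num)

lemma d7_1 (h : Good 1 R p) (h1 : 0 ≤ R) (h2 : R ≤ 0.05) : (-0.00002) + 2.09 * R ≤ p := by
  rcases le_total R 0.0005 with u | l0
  · exact lin_ends (bs0 h h1 u) h1 u (by norm_num) (by norm_num)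
  rcases le_total R 0.001 with u | l1
  · exact lin_ends (bs1 h l0 u) l0 u (by norm_num) (by norm_num)
  rcases le_total R 0.0015 with u | l2
  · exact lin_ends (bs2 h l1 u) l1 u (by norm_num) (by norm_num)
  rcases le_total R 0.002 with u | l3
  · exact lin_ends (bs3 h l2 u) l2 u (by norm_num) (by norm_num)
  rcases le_total R 0.003 with u | l4
  · exact lin_ends (bs4 h l3 u) l3 u (by norm_num) (by norm_num)
  rcases le_total R 0.004 with u | l5
  · exact lin_ends (bs5 h l4 u) l4 u (by norm_num) (by norm_num)
  rcases le_total R 0.005 with u | l6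
  · exact lin_ends (bs6 h l5 u) l5 u (by norm_num) (by norm_num)
  rcases le_total R 0.006 with u | l7
  · exact lin_ends (bs7 h l6 u) l6 u (by norm_num) (by norm_num)
  rcases le_total R 0.008 with u | l8
  · exact lin_ends (bs8 h l7 u) l7 u (by norm_num) (by norm_num)
  rcases le_total R 0.01 with u | l9
  · exact lin_ends (bs9 h l8 u) l8 u (by norm_num) (by norm_num)
  rcases le_total R 0.013 with u | l10
  · exact lin_ends (bs10 h l9 u) l9 u (by norm_num) (by norm_num)
  rcases le_total R 0.016 with u | l11
  · exact lin_ends (bs11 h l10 u) l10 u (by norm_num) (by norm_num)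
  rcases le_total R 0.02 with u | l12
  · exact lin_ends (bs12 h l11 u) l11 u (by norm_num) (by norm_num)
  rcases le_total R 0.025 with u | l13
  · exact lin_ends (bs13 h l12 u) l12 u (by norm_num) (by norm_num)
  rcases le_total R 0.03 with u | l14
  · exact lin_ends (bs14 h l13 u) l13 u (by norm_num) (by norm_num)
  rcases le_total R 0.035 with u | l15
  · exact lin_ends (bs15 h l14 u) l14 u (by norm_num) (by norm_num)
  rcases le_total R 0.04 with u | l16
  · exact lin_ends (bs16 h l15 u) l15 u (by norm_num) (by norm_num)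
  rcases le_total R 0.045 with u | l17
  · exact lin_ends (b7_17 h l16 u) l16 u (by norm_num) (by norm_num)
  exact lin_ends (b7_18 h l17 h2) l17 h2 (by norm_num) (by norm_num)

lemma d7_2 (h : Good 1 R p) (h1 : 0.25 ≤ R) (h2 : R ≤ 0.31) : 0.10851 + 0.571 * R ≤ p := by
  rcases le_total R 0.27 with u | l33
  · exact lin_ends (b7_33 h h1 u) h1 u (by norm_num) (by norm_num)
  rcases le_total R 0.29 with u | l34
  · exact lin_ends (b7_34 h l33 u) l33 u (by norm_num) (by norm_num)
  exact lin_ends (b7_35 h l34 h2) l34 h2 (by norm_num) (by norm_num)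

lemma d7_3 (h : Good 1 R p) (h1 : 0.235 ≤ R) (h2 : R ≤ 0.31) : 0.10851 + 0.571 * R ≤ p := by
  rcases le_total R 0.25 with u | l32
  · exact lin_ends (b7_32 h h1 u) h1 u (by norm_num) (by norm_num)
  rcases le_total R 0.27 with u | l33
  · exact lin_ends (b7_33 h l32 u) l32 u (by norm_num) (by norm_num)
  rcases le_total R 0.29 with u | l34
  · exact lin_ends (b7_34 h l33 u) l33 u (by norm_num) (by norm_num)
  exact lin_ends (b7_35 h l34 h2) l34 h2 (by norm_num) (by norm_num)

lemma d7_4 (h : Good 1 R p) (h1 : 0.16 ≤ R) (h2 : R ≤ 0.31) : 0.0973 + 0.607 * R ≤ p := by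
  rcases le_total R 0.18 with u | l27
  · exact lin_ends (b7_27 h h1 u) h1 u (by norm_num) (by norm_num)
  rcases le_total R 0.195 with u | l28
  · exact lin_ends (b7_28 h l27 u) l27 u (by norm_num) (by norm_num)
  rcases le_total R 0.21 with u | l29
  · exact lin_ends (b7_29 h l28 u) l28 u (by norm_num) (by norm_num)
  rcases le_total R 0.22 with u | l30
  · exact lin_ends (b7_30 h l29 u) l29 u (by norm_num) (by norm_num)
  rcases le_total R 0.235 with u | l31
  · exact lin_ends (b7_31 h l30 u) l30 u (by norm_num) (by norm_num)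
  rcases le_total R 0.25 with u | l32
  · exact lin_ends (b7_32 h l31 u) l31 u (by norm_num) (by norm_num)
  rcases le_total R 0.27 with u | l33
  · exact lin_ends (b7_33 h l32 u) l32 u (by norm_num) (by norm_num)
  rcases le_total R 0.29 with u | l34
  · exact lin_ends (b7_34 h l33 u) l33 u (by norm_num) (by norm_num)
  exact lin_ends (b7_35 h l34 h2) l34 h2 (by norm_num) (by norm_num)

lemma d7_5 (h : Good 1 R p) (h1 : 0 ≤ R) (h2 : R ≤ 0.07) : 0 + 1.773 * R ≤ p := by
  rcases le_total R 0.0005 with u | l0
  · exact lin_ends (bs0 h h1 u) h1 u (by norm_num) (by norm_num)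
  rcases le_total R 0.001 with u | l1
  · exact lin_ends (bs1 h l0 u) l0 u (by norm_num) (by norm_num)
  rcases le_total R 0.0015 with u | l2
  · exact lin_ends (bs2 h l1 u) l1 u (by norm_num) (by norm_num)
  rcases le_total R 0.002 with u | l3
  · exact lin_ends (bs3 h l2 u) l2 u (by norm_num) (by norm_num)
  rcases le_total R 0.003 with u | l4
  · exact lin_ends (bs4 h l3 u) l3 u (by norm_num) (by norm_num)
  rcases le_total R 0.004 with u | l5
  · exact lin_ends (bs5 h l4 u) l4 u (by norm_num) (by norm_num)
  rcases le_total R 0.005 with u | l6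
  · exact lin_ends (bs6 h l5 u) l5 u (by norm_num) (by norm_num)
  rcases le_total R 0.006 with u | l7
  · exact lin_ends (bs7 h l6 u) l6 u (by norm_num) (by norm_num)
  rcases le_total R 0.008 with u | l8
  · exact lin_ends (bs8 h l7 u) l7 u (by norm_num) (by norm_num)
  rcases le_total R 0.01 with u | l9
  · exact lin_ends (bs9 h l8 u) l8 u (by norm_num) (by norm_num)
  rcases le_total R 0.013 with u | l10
  · exact lin_ends (bs10 h l9 u) l9 u (by norm_num) (by norm_num)
  rcases le_total R 0.016 with u | l11
  · exact lin_ends (bs11 h l10 u) l10 u (by norm_num) (by norm_num)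
  rcases le_total R 0.02 with u | l12
  · exact lin_ends (bs12 h l11 u) l11 u (by norm_num) (by norm_num)
  rcases le_total R 0.025 with u | l13
  · exact lin_ends (bs13 h l12 u) l12 u (by norm_num) (by norm_num)
  rcases le_total R 0.03 with u | l14
  · exact lin_ends (bs14 h l13 u) l13 u (by norm_num) (by norm_num)
  rcases le_total R 0.035 with u | l15
  · exact lin_ends (bs15 h l14 u) l14 u (by norm_num) (by norm_num)
  rcases le_total R 0.04 with u | l16
  · exact lin_ends (bs16 h l15 u) l15 u (by norm_num) (by norm_num)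
  rcases le_total R 0.045 with u | l17
  · exact lin_ends (b7_17 h l16 u) l16 u (by norm_num) (by norm_num)
  rcases le_total R 0.05 with u | l18
  · exact lin_ends (b7_18 h l17 u) l17 u (by norm_num) (by norm_num)
  rcases le_total R 0.06 with u | l19
  · exact lin_ends (b7_19 h l18 u) l18 u (by norm_num) (by norm_num)
  exact lin_ends (b7_20 h l19 h2) l19 h2 (by norm_num) (by norm_num)

lemma d7_6 (h : Good 1 R p) (h1 : 0.09 ≤ R) (h2 : R ≤ 0.25) : 0.08079 + 0.682 * R ≤ p := by
  rcases le_total R 0.1 with u | l23
  · exact lin_ends (b7_23 h h1 u) h1 u (by norm_num) (by norm_num)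
  rcases le_total R 0.12 with u | l24
  · exact lin_ends (b7_24 h l23 u) l23 u (by norm_num) (by norm_num)
  rcases le_total R 0.14 with u | l25
  · exact lin_ends (b7_25 h l24 u) l24 u (by norm_num) (by norm_num)
  rcases le_total R 0.16 with u | l26
  · exact lin_ends (b7_26 h l25 u) l25 u (by norm_num) (by norm_num)
  rcases le_total R 0.18 with u | l27
  · exact lin_ends (b7_27 h l26 u) l26 u (by norm_num) (by norm_num)
  rcases le_total R 0.195 with u | l28
  · exact lin_ends (b7_28 h l27 u) l27 u (by norm_num) (by norm_num)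
  rcases le_total R 0.21 with u | l29
  · exact lin_ends (b7_29 h l28 u) l28 u (by norm_num) (by norm_num)
  rcases le_total R 0.22 with u | l30
  · exact lin_ends (b7_30 h l29 u) l29 u (by norm_num) (by norm_num)
  rcases le_total R 0.235 with u | l31
  · exact lin_ends (b7_31 h l30 u) l30 u (by norm_num) (by norm_num)
  exact lin_ends (b7_32 h l31 h2) l31 h2 (by norm_num) (by norm_num)

lemma d7_7 (h : Good 1 R p) (h1 : 0.25 ≤ R) (h2 : R ≤ (4 / 9)) : (-0.25384) + 1.565 * R ≤ p := by
  rcases le_total R 0.27 with u | l33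
  · exact lin_ends (b7_33 h h1 u) h1 u (by norm_num) (by norm_num)
  rcases le_total R 0.29 with u | l34
  · exact lin_ends (b7_34 h l33 u) l33 u (by norm_num) (by norm_num)
  rcases le_total R 0.31 with u | l35
  · exact lin_ends (b7_35 h l34 u) l34 u (by norm_num) (by norm_num)
  rcases le_total R 0.33 with u | l36
  · exact lin_ends (b7_36 h l35 u) l35 u (by norm_num) (by norm_num)
  rcases le_total R 0.345 with u | l37
  · exact lin_ends (b7_37 h l36 u) l36 u (by norm_num) (by norm_num)
  rcases le_total R 0.36 with u | l38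
  · exact lin_ends (b7_38 h l37 u) l37 u (by norm_num) (by norm_num)
  rcases le_total R 0.37 with u | l39
  · exact lin_ends (ba39_3 h l38 u) l38 u (by norm_num) (by norm_num)
  rcases le_total R 0.38 with u | l40
  · exact lin_ends (ba40_2 h l39 u) l39 u (by norm_num) (by norm_num)
  rcases le_total R 0.39 with u | l41
  · exact lin_ends (ba41_2 h l40 u) l40 u (by norm_num) (by norm_num)
  rcases le_total R 0.4 with u | l42
  · linarith only [ba42_1 h l41 u, ba42_2 h l41 u, l41, u]
  rcases le_total R 0.41 with u | l43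
  · exact lin_ends (ba43_1 h l42 u) l42 u (by norm_num) (by norm_num)
  rcases le_total R 0.42 with u | l44
  · linarith only [ba44_0 h l43 u, ba44_1 h l43 u, l43, u]
  rcases le_total R 0.43 with u | l45
  · exact lin_ends (ba45_0 h l44 u) l44 u (by norm_num) (by norm_num)
  exact lin_ends (ba46_0 h l45 h2) l45 h2 (by norm_num) (by norm_num)

lemma d7_8 (h : Good 1 R p) (h1 : 0.05 ≤ R) (h2 : R ≤ 0.18) : 0.06447 + 0.799 * R ≤ p := by
  rcases le_total R 0.06 with u | l19
  · exact lin_ends (b7_19 h h1 u) h1 u (by norm_num) (by norm_num)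
  rcases le_total R 0.07 with u | l20
  · exact lin_ends (b7_20 h l19 u) l19 u (by norm_num) (by norm_num)
  rcases le_total R 0.08 with u | l21
  · exact lin_ends (b7_21 h l20 u) l20 u (by norm_num) (by norm_num)
  rcases le_total R 0.09 with u | l22
  · exact lin_ends (b7_22 h l21 u) l21 u (by norm_num) (by norm_num)
  rcases le_total R 0.1 with u | l23
  · exact lin_ends (b7_23 h l22 u) l22 u (by norm_num) (by norm_num)
  rcases le_total R 0.12 with u | l24
  · exact lin_ends (b7_24 h l23 u) l23 u (by norm_num) (by norm_num)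
  rcases le_total R 0.14 with u | l25
  · exact lin_ends (b7_25 h l24 u) l24 u (by norm_num) (by norm_num)
  rcases le_total R 0.16 with u | l26
  · exact lin_ends (b7_26 h l25 u) l25 u (by norm_num) (by norm_num)
  exact lin_ends (b7_27 h l26 h2) l26 h2 (by norm_num) (by norm_num)

lemma d7_9 (h : Good 1 R p) (h1 : 0.25 ≤ R) (h2 : R ≤ 0.41) : (-0.11346) + 1.209 * R ≤ p := by
  rcases le_total R 0.27 with u | l33
  · exact lin_ends (b7_33 h h1 u) h1 u (by norm_num) (by norm_num)
  rcases le_total R 0.29 with u | l34
  · exact lin_ends (b7_34 h l33 u) l33 u (by norm_num) (by norm_num)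
  rcases le_total R 0.31 with u | l35
  · exact lin_ends (b7_35 h l34 u) l34 u (by norm_num) (by norm_num)
  rcases le_total R 0.33 with u | l36
  · exact lin_ends (b7_36 h l35 u) l35 u (by norm_num) (by norm_num)
  rcases le_total R 0.345 with u | l37
  · exact lin_ends (b7_37 h l36 u) l36 u (by norm_num) (by norm_num)
  rcases le_total R 0.36 with u | l38
  · exact lin_ends (ba38_3 h l37 u) l37 u (by norm_num) (by norm_num)
  rcases le_total R 0.37 with u | l39
  · exact lin_ends (ba39_3 h l38 u) l38 u (by norm_num) (by norm_num)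
  rcases le_total R 0.38 with u | l40
  · exact lin_ends (ba40_2 h l39 u) l39 u (by norm_num) (by norm_num)
  rcases le_total R 0.39 with u | l41
  · exact lin_ends (ba41_2 h l40 u) l40 u (by norm_num) (by norm_num)
  rcases le_total R 0.4 with u | l42
  · linarith only [ba42_1 h l41 u, ba42_2 h l41 u, l41, u]
  exact lin_ends (ba43_1 h l42 h2) l42 h2 (by norm_num) (by norm_num)

lemma d7_10 (h : Good 1 R p) (h1 : 0.21 ≤ R) (h2 : R ≤ (4 / 9)) : 0.05504 + 0.727 * R ≤ p := by
  rcases le_total R 0.22 with u | l30
  · exact lin_ends (b7_30 h h1 u) h1 u (by norm_num) (by norm_num)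
  rcases le_total R 0.235 with u | l31
  · exact lin_ends (b7_31 h l30 u) l30 u (by norm_num) (by norm_num)
  rcases le_total R 0.25 with u | l32
  · exact lin_ends (b7_32 h l31 u) l31 u (by norm_num) (by norm_num)
  rcases le_total R 0.27 with u | l33
  · exact lin_ends (b7_33 h l32 u) l32 u (by norm_num) (by norm_num)
  rcases le_total R 0.29 with u | l34
  · exact lin_ends (b7_34 h l33 u) l33 u (by norm_num) (by norm_num)
  rcases le_total R 0.31 with u | l35
  · exact lin_ends (b7_35 h l34 u) l34 u (by norm_num) (by norm_num)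
  rcases le_total R 0.33 with u | l36
  · exact lin_ends (b7_36 h l35 u) l35 u (by norm_num) (by norm_num)
  rcases le_total R 0.345 with u | l37
  · linarith only [b7_37 h l36 u, ba37_4 h l36 u, l36, u]
  rcases le_total R 0.36 with u | l38
  · exact lin_ends (ba38_3 h l37 u) l37 u (by norm_num) (by norm_num)
  rcases le_total R 0.37 with u | l39
  · exact lin_ends (ba39_3 h l38 u) l38 u (by norm_num) (by norm_num)
  rcases le_total R 0.38 with u | l40
  · exact lin_ends (ba40_2 h l39 u) l39 u (by norm_num) (by norm_num)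
  rcases le_total R 0.39 with u | l41
  · exact lin_ends (ba41_2 h l40 u) l40 u (by norm_num) (by norm_num)
  rcases le_total R 0.4 with u | l42
  · exact lin_ends (ba42_1 h l41 u) l41 u (by norm_num) (by norm_num)
  rcases le_total R 0.41 with u | l43
  · exact lin_ends (ba43_1 h l42 u) l42 u (by norm_num) (by norm_num)
  rcases le_total R 0.42 with u | l44
  · exact lin_ends (ba44_0 h l43 u) l43 u (by norm_num) (by norm_num)
  rcases le_total R 0.43 with u | l45
  · exact lin_ends (ba45_0 h l44 u) l44 u (by norm_num) (by norm_num)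
  exact lin_ends (ba46_0 h l45 h2) l45 h2 (by norm_num) (by norm_num)

lemma d7_11 (h : Good 1 R p) (h1 : 0.12 ≤ R) (h2 : R ≤ 0.43) : 0.09211 + 0.618 * R ≤ p := by
  rcases le_total R 0.14 with u | l25
  · exact lin_ends (b7_25 h h1 u) h1 u (by norm_num) (by norm_num)
  rcases le_total R 0.16 with u | l26
  · exact lin_ends (b7_26 h l25 u) l25 u (by norm_num) (by norm_num)
  rcases le_total R 0.18 with u | l27
  · exact lin_ends (b7_27 h l26 u) l26 u (by norm_num) (by norm_num)
  rcases le_total R 0.195 with u | l28
  · exact lin_ends (b7_28 h l27 u) l27 u (by norm_num) (by norm_num)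
  rcases le_total R 0.21 with u | l29
  · exact lin_ends (b7_29 h l28 u) l28 u (by norm_num) (by norm_num)
  rcases le_total R 0.22 with u | l30
  · exact lin_ends (b7_30 h l29 u) l29 u (by norm_num) (by norm_num)
  rcases le_total R 0.235 with u | l31
  · exact lin_ends (b7_31 h l30 u) l30 u (by norm_num) (by norm_num)
  rcases le_total R 0.25 with u | l32
  · exact lin_ends (b7_32 h l31 u) l31 u (by norm_num) (by norm_num)
  rcases le_total R 0.27 with u | l33
  · exact lin_ends (b7_33 h l32 u) l32 u (by norm_num) (by norm_num)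
  rcases le_total R 0.29 with u | l34
  · exact lin_ends (b7_34 h l33 u) l33 u (by norm_num) (by norm_num)
  rcases le_total R 0.31 with u | l35
  · exact lin_ends (b7_35 h l34 u) l34 u (by norm_num) (by norm_num)
  rcases le_total R 0.33 with u | l36
  · exact lin_ends (b7_36 h l35 u) l35 u (by norm_num) (by norm_num)
  rcases le_total R 0.345 with u | l37
  · linarith only [b7_37 h l36 u, ba37_4 h l36 u, l36, u]
  rcases le_total R 0.36 with u | l38
  · exact lin_ends (ba38_3 h l37 u) l37 u (by norm_num) (by norm_num)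
  rcases le_total R 0.37 with u | l39
  · exact lin_ends (ba39_3 h l38 u) l38 u (by norm_num) (by norm_num)
  rcases le_total R 0.38 with u | l40
  · exact lin_ends (ba40_2 h l39 u) l39 u (by norm_num) (by norm_num)
  rcases le_total R 0.39 with u | l41
  · exact lin_ends (ba41_2 h l40 u) l40 u (by norm_num) (by norm_num)
  rcases le_total R 0.4 with u | l42
  · exact lin_ends (ba42_1 h l41 u) l41 u (by norm_num) (by norm_num)
  rcases le_total R 0.41 with u | l43
  · exact lin_ends (ba43_1 h l42 u) l42 u (by norm_num) (by norm_num)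
  rcases le_total R 0.42 with u | l44
  · exact lin_ends (ba44_0 h l43 u) l43 u (by norm_num) (by norm_num)
  exact lin_ends (ba45_0 h l44 h2) l44 h2 (by norm_num) (by norm_num)

lemma d7_12 (h : Good 1 R p) (h1 : 0.07 ≤ R) (h2 : R ≤ 0.31) : 0.07689 + 0.673 * R ≤ p := by
  rcases le_total R 0.08 with u | l21
  · exact lin_ends (b7_21 h h1 u) h1 u (by norm_num) (by norm_num)
  rcases le_total R 0.09 with u | l22
  · exact lin_ends (b7_22 h l21 u) l21 u (by norm_num) (by norm_num)
  rcases le_total R 0.1 with u | l23
  · exact lin_ends (b7_23 h l22 u) l22 u (by norm_num) (by norm_num)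
  rcases le_total R 0.12 with u | l24
  · exact lin_ends (b7_24 h l23 u) l23 u (by norm_num) (by norm_num)
  rcases le_total R 0.14 with u | l25
  · exact lin_ends (b7_25 h l24 u) l24 u (by norm_num) (by norm_num)
  rcases le_total R 0.16 with u | l26
  · exact lin_ends (b7_26 h l25 u) l25 u (by norm_num) (by norm_num)
  rcases le_total R 0.18 with u | l27
  · exact lin_ends (b7_27 h l26 u) l26 u (by norm_num) (by norm_num)
  rcases le_total R 0.195 with u | l28
  · exact lin_ends (b7_28 h l27 u) l27 u (by norm_num) (by norm_num)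
  rcases le_total R 0.21 with u | l29
  · exact lin_ends (b7_29 h l28 u) l28 u (by norm_num) (by norm_num)
  rcases le_total R 0.22 with u | l30
  · exact lin_ends (b7_30 h l29 u) l29 u (by norm_num) (by norm_num)
  rcases le_total R 0.235 with u | l31
  · exact lin_ends (b7_31 h l30 u) l30 u (by norm_num) (by norm_num)
  rcases le_total R 0.25 with u | l32
  · exact lin_ends (b7_32 h l31 u) l31 u (by norm_num) (by norm_num)
  rcases le_total R 0.27 with u | l33
  · exact lin_ends (b7_33 h l32 u) l32 u (by norm_num) (by norm_num)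
  rcases le_total R 0.29 with u | l34
  · exact lin_ends (b7_34 h l33 u) l33 u (by norm_num) (by norm_num)
  exact lin_ends (b7_35 h l34 h2) l34 h2 (by norm_num) (by norm_num)

lemma d7_13 (h : Good 1 R p) (h1 : 0.07 ≤ R) (h2 : R ≤ 0.25) : 0.07454 + 0.707 * R ≤ p := by
  rcases le_total R 0.08 with u | l21
  · exact lin_ends (b7_21 h h1 u) h1 u (by norm_num) (by norm_num)
  rcases le_total R 0.09 with u | l22
  · exact lin_ends (b7_22 h l21 u) l21 u (by norm_num) (by norm_num)
  rcases le_total R 0.1 with u | l23
  · exact lin_ends (b7_23 h l22 u) l22 u (by norm_num) (by norm_num)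
  rcases le_total R 0.12 with u | l24
  · exact lin_ends (b7_24 h l23 u) l23 u (by norm_num) (by norm_num)
  rcases le_total R 0.14 with u | l25
  · exact lin_ends (b7_25 h l24 u) l24 u (by norm_num) (by norm_num)
  rcases le_total R 0.16 with u | l26
  · exact lin_ends (b7_26 h l25 u) l25 u (by norm_num) (by norm_num)
  rcases le_total R 0.18 with u | l27
  · exact lin_ends (b7_27 h l26 u) l26 u (by norm_num) (by norm_num)
  rcases le_total R 0.195 with u | l28
  · exact lin_ends (b7_28 h l27 u) l27 u (by norm_num) (by norm_num)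
  rcases le_total R 0.21 with u | l29
  · exact lin_ends (b7_29 h l28 u) l28 u (by norm_num) (by norm_num)
  rcases le_total R 0.22 with u | l30
  · exact lin_ends (b7_30 h l29 u) l29 u (by norm_num) (by norm_num)
  rcases le_total R 0.235 with u | l31
  · exact lin_ends (b7_31 h l30 u) l30 u (by norm_num) (by norm_num)
  exact lin_ends (b7_32 h l31 h2) l31 h2 (by norm_num) (by norm_num)

lemma d7_14 (h : Good 1 R p) (h1 : 0 ≤ R) (h2 : R ≤ 0.0005) : 0 + 18.659 * R ≤ p := by
  exact lin_ends (bs0 h h1 h2) h1 h2 (by norm_num) (by norm_num)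

lemma d7_15 (h : Good 1 R p) (h1 : 0.05 ≤ R) (h2 : R ≤ 0.25) : 0.06777 + 0.734 * R ≤ p := by
  rcases le_total R 0.06 with u | l19
  · exact lin_ends (b7_19 h h1 u) h1 u (by norm_num) (by norm_num)
  rcases le_total R 0.07 with u | l20
  · exact lin_ends (b7_20 h l19 u) l19 u (by norm_num) (by norm_num)
  rcases le_total R 0.08 with u | l21
  · exact lin_ends (b7_21 h l20 u) l20 u (by norm_num) (by norm_num)
  rcases le_total R 0.09 with u | l22
  · exact lin_ends (b7_22 h l21 u) l21 u (by norm_num) (by norm_num)
  rcases le_total R 0.1 with u | l23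
  · exact lin_ends (b7_23 h l22 u) l22 u (by norm_num) (by norm_num)
  rcases le_total R 0.12 with u | l24
  · exact lin_ends (b7_24 h l23 u) l23 u (by norm_num) (by norm_num)
  rcases le_total R 0.14 with u | l25
  · exact lin_ends (b7_25 h l24 u) l24 u (by norm_num) (by norm_num)
  rcases le_total R 0.16 with u | l26
  · exact lin_ends (b7_26 h l25 u) l25 u (by norm_num) (by norm_num)
  rcases le_total R 0.18 with u | l27
  · exact lin_ends (b7_27 h l26 u) l26 u (by norm_num) (by norm_num)
  rcases le_total R 0.195 with u | l28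
  · exact lin_ends (b7_28 h l27 u) l27 u (by norm_num) (by norm_num)
  rcases le_total R 0.21 with u | l29
  · exact lin_ends (b7_29 h l28 u) l28 u (by norm_num) (by norm_num)
  rcases le_total R 0.22 with u | l30
  · exact lin_ends (b7_30 h l29 u) l29 u (by norm_num) (by norm_num)
  rcases le_total R 0.235 with u | l31
  · exact lin_ends (b7_31 h l30 u) l30 u (by norm_num) (by norm_num)
  exact lin_ends (b7_32 h l31 h2) l31 h2 (by norm_num) (by norm_num)

lemma d7_16 (h : Good 1 R p) (h1 : 0.0005 ≤ R) (h2 : R ≤ 0.03) : 0.00813 + 2.387 * R ≤ p := by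
  rcases le_total R 0.001 with u | l1
  · exact lin_ends (bs1 h h1 u) h1 u (by norm_num) (by norm_num)
  rcases le_total R 0.0015 with u | l2
  · exact lin_ends (bs2 h l1 u) l1 u (by norm_num) (by norm_num)
  rcases le_total R 0.002 with u | l3
  · exact lin_ends (bs3 h l2 u) l2 u (by norm_num) (by norm_num)
  rcases le_total R 0.003 with u | l4
  · exact lin_ends (bs4 h l3 u) l3 u (by norm_num) (by norm_num)
  rcases le_total R 0.004 with u | l5
  · exact lin_ends (bs5 h l4 u) l4 u (by norm_num) (by norm_num)
  rcases le_total R 0.005 with u | l6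
  · exact lin_ends (bs6 h l5 u) l5 u (by norm_num) (by norm_num)
  rcases le_total R 0.006 with u | l7
  · exact lin_ends (bs7 h l6 u) l6 u (by norm_num) (by norm_num)
  rcases le_total R 0.008 with u | l8
  · exact lin_ends (bs8 h l7 u) l7 u (by norm_num) (by norm_num)
  rcases le_total R 0.01 with u | l9
  · exact lin_ends (bs9 h l8 u) l8 u (by norm_num) (by norm_num)
  rcases le_total R 0.013 with u | l10
  · exact lin_ends (bs10 h l9 u) l9 u (by norm_num) (by norm_num)
  rcases le_total R 0.016 with u | l11
  · exact lin_ends (bs11 h l10 u) l10 u (by norm_num) (by norm_num)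
  rcases le_total R 0.02 with u | l12
  · exact lin_ends (bs12 h l11 u) l11 u (by norm_num) (by norm_num)
  rcases le_total R 0.025 with u | l13
  · exact lin_ends (bs13 h l12 u) l12 u (by norm_num) (by norm_num)
  exact lin_ends (bs14 h l13 h2) l13 h2 (by norm_num) (by norm_num)

lemma d7_17 (h : Good 1 R p) (h1 : 0.16 ≤ R) (h2 : R ≤ (4 / 9)) : (-0.25384) + 1.565 * R ≤ p := by
  rcases le_total R 0.18 with u | l27
  · exact lin_ends (b7_27 h h1 u) h1 u (by norm_num) (by norm_num)
  rcases le_total R 0.195 with u | l28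
  · exact lin_ends (b7_28 h l27 u) l27 u (by norm_num) (by norm_num)
  rcases le_total R 0.21 with u | l29
  · exact lin_ends (b7_29 h l28 u) l28 u (by norm_num) (by norm_num)
  rcases le_total R 0.22 with u | l30
  · exact lin_ends (b7_30 h l29 u) l29 u (by norm_num) (by norm_num)
  rcases le_total R 0.235 with u | l31
  · exact lin_ends (b7_31 h l30 u) l30 u (by norm_num) (by norm_num)
  rcases le_total R 0.25 with u | l32
  · exact lin_ends (b7_32 h l31 u) l31 u (by norm_num) (by norm_num)
  rcases le_total R 0.27 with u | l33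
  · exact lin_ends (b7_33 h l32 u) l32 u (by norm_num) (by norm_num)
  rcases le_total R 0.29 with u | l34
  · exact lin_ends (b7_34 h l33 u) l33 u (by norm_num) (by norm_num)
  rcases le_total R 0.31 with u | l35
  · exact lin_ends (b7_35 h l34 u) l34 u (by norm_num) (by norm_num)
  rcases le_total R 0.33 with u | l36
  · exact lin_ends (b7_36 h l35 u) l35 u (by norm_num) (by norm_num)
  rcases le_total R 0.345 with u | l37
  · exact lin_ends (b7_37 h l36 u) l36 u (by norm_num) (by norm_num)
  rcases le_total R 0.36 with u | l38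
  · exact lin_ends (b7_38 h l37 u) l37 u (by norm_num) (by norm_num)
  rcases le_total R 0.37 with u | l39
  · exact lin_ends (ba39_3 h l38 u) l38 u (by norm_num) (by norm_num)
  rcases le_total R 0.38 with u | l40
  · exact lin_ends (ba40_2 h l39 u) l39 u (by norm_num) (by norm_num)
  rcases le_total R 0.39 with u | l41
  · exact lin_ends (ba41_2 h l40 u) l40 u (by norm_num) (by norm_num)
  rcases le_total R 0.4 with u | l42
  · linarith only [ba42_1 h l41 u, ba42_2 h l41 u, l41, u]
  rcases le_total R 0.41 with u | l43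
  · exact lin_ends (ba43_1 h l42 u) l42 u (by norm_num) (by norm_num)
  rcases le_total R 0.42 with u | l44
  · linarith only [ba44_0 h l43 u, ba44_1 h l43 u, l43, u]
  rcases le_total R 0.43 with u | l45
  · exact lin_ends (ba45_0 h l44 u) l44 u (by norm_num) (by norm_num)
  exact lin_ends (ba46_0 h l45 h2) l45 h2 (by norm_num) (by norm_num)

lemma d7_18 (h : Good 1 R p) (h1 : 0.0005 ≤ R) (h2 : R ≤ 0.07) : 0.00848 + 1.652 * R ≤ p := by
  rcases le_total R 0.001 with u | l1
  · exact lin_ends (bs1 h h1 u) h1 u (by norm_num) (by norm_num)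
  rcases le_total R 0.0015 with u | l2
  · exact lin_ends (bs2 h l1 u) l1 u (by norm_num) (by norm_num)
  rcases le_total R 0.002 with u | l3
  · exact lin_ends (bs3 h l2 u) l2 u (by norm_num) (by norm_num)
  rcases le_total R 0.003 with u | l4
  · exact lin_ends (bs4 h l3 u) l3 u (by norm_num) (by norm_num)
  rcases le_total R 0.004 with u | l5
  · exact lin_ends (bs5 h l4 u) l4 u (by norm_num) (by norm_num)
  rcases le_total R 0.005 with u | l6
  · exact lin_ends (bs6 h l5 u) l5 u (by norm_num) (by norm_num)
  rcases le_total R 0.006 with u | l7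
  · exact lin_ends (bs7 h l6 u) l6 u (by norm_num) (by norm_num)
  rcases le_total R 0.008 with u | l8
  · exact lin_ends (bs8 h l7 u) l7 u (by norm_num) (by norm_num)
  rcases le_total R 0.01 with u | l9
  · exact lin_ends (bs9 h l8 u) l8 u (by norm_num) (by norm_num)
  rcases le_total R 0.013 with u | l10
  · exact lin_ends (bs10 h l9 u) l9 u (by norm_num) (by norm_num)
  rcases le_total R 0.016 with u | l11
  · exact lin_ends (bs11 h l10 u) l10 u (by norm_num) (by norm_num)
  rcases le_total R 0.02 with u | l12
  · exact lin_ends (bs12 h l11 u) l11 u (by norm_num) (by norm_num)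
  rcases le_total R 0.025 with u | l13
  · exact lin_ends (bs13 h l12 u) l12 u (by norm_num) (by norm_num)
  rcases le_total R 0.03 with u | l14
  · exact lin_ends (bs14 h l13 u) l13 u (by norm_num) (by norm_num)
  rcases le_total R 0.035 with u | l15
  · exact lin_ends (bs15 h l14 u) l14 u (by norm_num) (by norm_num)
  rcases le_total R 0.04 with u | l16
  · exact lin_ends (bs16 h l15 u) l15 u (by norm_num) (by norm_num)
  rcases le_total R 0.045 with u | l17
  · exact lin_ends (b7_17 h l16 u) l16 u (by norm_num) (by norm_num)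
  rcases le_total R 0.05 with u | l18
  · exact lin_ends (b7_18 h l17 u) l17 u (by norm_num) (by norm_num)
  rcases le_total R 0.06 with u | l19
  · exact lin_ends (b7_19 h l18 u) l18 u (by norm_num) (by norm_num)
  exact lin_ends (b7_20 h l19 h2) l19 h2 (by norm_num) (by norm_num)

lemma d7_19 (h : Good 1 R p) (h1 : 0.27 ≤ R) (h2 : R ≤ (4 / 9)) : (-0.00822) + 0.913 * R ≤ p := by
  rcases le_total R 0.29 with u | l34
  · exact lin_ends (b7_34 h h1 u) h1 u (by norm_num) (by norm_num)
  rcases le_total R 0.31 with u | l35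
  · exact lin_ends (b7_35 h l34 u) l34 u (by norm_num) (by norm_num)
  rcases le_total R 0.33 with u | l36
  · exact lin_ends (b7_36 h l35 u) l35 u (by norm_num) (by norm_num)
  rcases le_total R 0.345 with u | l37
  · linarith only [b7_37 h l36 u, ba37_4 h l36 u, l36, u]
  rcases le_total R 0.36 with u | l38
  · exact lin_ends (ba38_4 h l37 u) l37 u (by norm_num) (by norm_num)
  rcases le_total R 0.37 with u | l39
  · exact lin_ends (ba39_3 h l38 u) l38 u (by norm_num) (by norm_num)
  rcases le_total R 0.38 with u | l40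
  · exact lin_ends (ba40_2 h l39 u) l39 u (by norm_num) (by norm_num)
  rcases le_total R 0.39 with u | l41
  · exact lin_ends (ba41_2 h l40 u) l40 u (by norm_num) (by norm_num)
  rcases le_total R 0.4 with u | l42
  · exact lin_ends (ba42_1 h l41 u) l41 u (by norm_num) (by norm_num)
  rcases le_total R 0.41 with u | l43
  · exact lin_ends (ba43_1 h l42 u) l42 u (by norm_num) (by norm_num)
  rcases le_total R 0.42 with u | l44
  · exact lin_ends (ba44_0 h l43 u) l43 u (by norm_num) (by norm_num)
  rcases le_total R 0.43 with u | l45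
  · exact lin_ends (ba45_0 h l44 u) l44 u (by norm_num) (by norm_num)
  exact lin_ends (ba46_0 h l45 h2) l45 h2 (by norm_num) (by norm_num)

lemma d7_20 (h : Good 1 R p) (h1 : 0.07 ≤ R) (h2 : R ≤ 0.18) : 0.07057 + 0.765 * R ≤ p := by
  rcases le_total R 0.08 with u | l21
  · exact lin_ends (b7_21 h h1 u) h1 u (by norm_num) (by norm_num)
  rcases le_total R 0.09 with u | l22
  · exact lin_ends (b7_22 h l21 u) l21 u (by norm_num) (by norm_num)
  rcases le_total R 0.1 with u | l23
  · exact lin_ends (b7_23 h l22 u) l22 u (by norm_num) (by norm_num)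
  rcases le_total R 0.12 with u | l24
  · exact lin_ends (b7_24 h l23 u) l23 u (by norm_num) (by norm_num)
  rcases le_total R 0.14 with u | l25
  · exact lin_ends (b7_25 h l24 u) l24 u (by norm_num) (by norm_num)
  rcases le_total R 0.16 with u | l26
  · exact lin_ends (b7_26 h l25 u) l25 u (by norm_num) (by norm_num)
  exact lin_ends (b7_27 h l26 h2) l26 h2 (by norm_num) (by norm_num)

lemma d7_21 (h : Good 1 R p) (h1 : 0.18 ≤ R) (h2 : R ≤ 0.4) : (-0.11346) + 1.209 * R ≤ p := by
  rcases le_total R 0.195 with u | l28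
  · exact lin_ends (b7_28 h h1 u) h1 u (by norm_num) (by norm_num)
  rcases le_total R 0.21 with u | l29
  · exact lin_ends (b7_29 h l28 u) l28 u (by norm_num) (by norm_num)
  rcases le_total R 0.22 with u | l30
  · exact lin_ends (b7_30 h l29 u) l29 u (by norm_num) (by norm_num)
  rcases le_total R 0.235 with u | l31
  · exact lin_ends (b7_31 h l30 u) l30 u (by norm_num) (by norm_num)
  rcases le_total R 0.25 with u | l32
  · exact lin_ends (b7_32 h l31 u) l31 u (by norm_num) (by norm_num)
  rcases le_total R 0.27 with u | l33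
  · exact lin_ends (b7_33 h l32 u) l32 u (by norm_num) (by norm_num)
  rcases le_total R 0.29 with u | l34
  · exact lin_ends (b7_34 h l33 u) l33 u (by norm_num) (by norm_num)
  rcases le_total R 0.31 with u | l35
  · exact lin_ends (b7_35 h l34 u) l34 u (by norm_num) (by norm_num)
  rcases le_total R 0.33 with u | l36
  · exact lin_ends (b7_36 h l35 u) l35 u (by norm_num) (by norm_num)
  rcases le_total R 0.345 with u | l37
  · exact lin_ends (b7_37 h l36 u) l36 u (by norm_num) (by norm_num)
  rcases le_total R 0.36 with u | l38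
  · exact lin_ends (ba38_3 h l37 u) l37 u (by norm_num) (by norm_num)
  rcases le_total R 0.37 with u | l39
  · exact lin_ends (ba39_3 h l38 u) l38 u (by norm_num) (by norm_num)
  rcases le_total R 0.38 with u | l40
  · exact lin_ends (ba40_2 h l39 u) l39 u (by norm_num) (by norm_num)
  rcases le_total R 0.39 with u | l41
  · exact lin_ends (ba41_2 h l40 u) l40 u (by norm_num) (by norm_num)
  linarith only [ba42_1 h l41 h2, ba42_2 h l41 h2, l41, h2]

lemma d7_22 (h : Good 1 R p) (h1 : 0.016 ≤ R) (h2 : R ≤ 0.06) : 0.03692 + 1.291 * R ≤ p := by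
  rcases le_total R 0.02 with u | l12
  · exact lin_ends (bs12 h h1 u) h1 u (by norm_num) (by norm_num)
  rcases le_total R 0.025 with u | l13
  · exact lin_ends (bs13 h l12 u) l12 u (by norm_num) (by norm_num)
  rcases le_total R 0.03 with u | l14
  · exact lin_ends (bs14 h l13 u) l13 u (by norm_num) (by norm_num)
  rcases le_total R 0.035 with u | l15
  · exact lin_ends (bs15 h l14 u) l14 u (by norm_num) (by norm_num)
  rcases le_total R 0.04 with u | l16
  · exact lin_ends (bs16 h l15 u) l15 u (by norm_num) (by norm_num)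
  rcases le_total R 0.045 with u | l17
  · exact lin_ends (b7_17 h l16 u) l16 u (by norm_num) (by norm_num)
  rcases le_total R 0.05 with u | l18
  · exact lin_ends (b7_18 h l17 u) l17 u (by norm_num) (by norm_num)
  exact lin_ends (b7_19 h l18 h2) l18 h2 (by norm_num) (by norm_num)

lemma d7_23 (h : Good 1 R p) (h1 : 0.0005 ≤ R) (h2 : R ≤ 0.003) : 0.0063 + 6.048 * R ≤ p := by
  rcases le_total R 0.001 with u | l1
  · exact lin_ends (bs1 h h1 u) h1 u (by norm_num) (by norm_num)
  rcases le_total R 0.0015 with u | l2
  · exact lin_ends (bs2 h l1 u) l1 u (by norm_num) (by norm_num)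
  rcases le_total R 0.002 with u | l3
  · exact lin_ends (bs3 h l2 u) l2 u (by norm_num) (by norm_num)
  exact lin_ends (bs4 h l3 h2) l3 h2 (by norm_num) (by norm_num)

lemma d7_24 (h : Good 1 R p) (h1 : 0.27 ≤ R) (h2 : R ≤ (4 / 9)) : 0.09789 + 0.601 * R ≤ p := by
  rcases le_total R 0.29 with u | l34
  · exact lin_ends (b7_34 h h1 u) h1 u (by norm_num) (by norm_num)
  rcases le_total R 0.31 with u | l35
  · exact lin_ends (b7_35 h l34 u) l34 u (by norm_num) (by norm_num)
  rcases le_total R 0.33 with u | l36
  · exact lin_ends (b7_36 h l35 u) l35 u (by norm_num) (by norm_num)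
  rcases le_total R 0.345 with u | l37
  · linarith only [b7_37 h l36 u, ba37_4 h l36 u, l36, u]
  rcases le_total R 0.36 with u | l38
  · exact lin_ends (ba38_3 h l37 u) l37 u (by norm_num) (by norm_num)
  rcases le_total R 0.37 with u | l39
  · exact lin_ends (ba39_3 h l38 u) l38 u (by norm_num) (by norm_num)
  rcases le_total R 0.38 with u | l40
  · exact lin_ends (ba40_2 h l39 u) l39 u (by norm_num) (by norm_num)
  rcases le_total R 0.39 with u | l41
  · exact lin_ends (ba41_2 h l40 u) l40 u (by norm_num) (by norm_num)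
  rcases le_total R 0.4 with u | l42
  · exact lin_ends (ba42_1 h l41 u) l41 u (by norm_num) (by norm_num)
  rcases le_total R 0.41 with u | l43
  · exact lin_ends (ba43_1 h l42 u) l42 u (by norm_num) (by norm_num)
  rcases le_total R 0.42 with u | l44
  · exact lin_ends (ba44_0 h l43 u) l43 u (by norm_num) (by norm_num)
  rcases le_total R 0.43 with u | l45
  · exact lin_ends (ba45_0 h l44 u) l44 u (by norm_num) (by norm_num)
  exact lin_ends (ba46_0 h l45 h2) l45 h2 (by norm_num) (by norm_num)

lemma d7_25 (h : Good 1 R p) (h1 : 0.003 ≤ R) (h2 : R ≤ 0.06) : 0.0197 + 1.578 * R ≤ p := by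
  rcases le_total R 0.004 with u | l5
  · exact lin_ends (bs5 h h1 u) h1 u (by norm_num) (by norm_num)
  rcases le_total R 0.005 with u | l6
  · exact lin_ends (bs6 h l5 u) l5 u (by norm_num) (by norm_num)
  rcases le_total R 0.006 with u | l7
  · exact lin_ends (bs7 h l6 u) l6 u (by norm_num) (by norm_num)
  rcases le_total R 0.008 with u | l8
  · exact lin_ends (bs8 h l7 u) l7 u (by norm_num) (by norm_num)
  rcases le_total R 0.01 with u | l9
  · exact lin_ends (bs9 h l8 u) l8 u (by norm_num) (by norm_num)
  rcases le_total R 0.013 with u | l10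
  · exact lin_ends (bs10 h l9 u) l9 u (by norm_num) (by norm_num)
  rcases le_total R 0.016 with u | l11
  · exact lin_ends (bs11 h l10 u) l10 u (by norm_num) (by norm_num)
  rcases le_total R 0.02 with u | l12
  · exact lin_ends (bs12 h l11 u) l11 u (by norm_num) (by norm_num)
  rcases le_total R 0.025 with u | l13
  · exact lin_ends (bs13 h l12 u) l12 u (by norm_num) (by norm_num)
  rcases le_total R 0.03 with u | l14
  · exact lin_ends (bs14 h l13 u) l13 u (by norm_num) (by norm_num)
  rcases le_total R 0.035 with u | l15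
  · exact lin_ends (bs15 h l14 u) l14 u (by norm_num) (by norm_num)
  rcases le_total R 0.04 with u | l16
  · exact lin_ends (bs16 h l15 u) l15 u (by norm_num) (by norm_num)
  rcases le_total R 0.045 with u | l17
  · exact lin_ends (b7_17 h l16 u) l16 u (by norm_num) (by norm_num)
  rcases le_total R 0.05 with u | l18
  · exact lin_ends (b7_18 h l17 u) l17 u (by norm_num) (by norm_num)
  exact lin_ends (b7_19 h l18 h2) l18 h2 (by norm_num) (by norm_num)

lemma d7_26 (h : Good 1 R p) (h1 : 0.003 ≤ R) (h2 : R ≤ 0.01) : 0.01548 + 2.989 * R ≤ p := by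
  rcases le_total R 0.004 with u | l5
  · exact lin_ends (bs5 h h1 u) h1 u (by norm_num) (by norm_num)
  rcases le_total R 0.005 with u | l6
  · exact lin_ends (bs6 h l5 u) l5 u (by norm_num) (by norm_num)
  rcases le_total R 0.006 with u | l7
  · exact lin_ends (bs7 h l6 u) l6 u (by norm_num) (by norm_num)
  rcases le_total R 0.008 with u | l8
  · exact lin_ends (bs8 h l7 u) l7 u (by norm_num) (by norm_num)
  exact lin_ends (bs9 h l8 h2) l8 h2 (by norm_num) (by norm_num)

lemma d7_27 (h : Good 1 R p) (h1 : 0.33 ≤ R) (h2 : R ≤ (4 / 9)) : (-0.07485) + 1.105 * R ≤ p := by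
  rcases le_total R 0.345 with u | l37
  · exact lin_ends (ba37_4 h h1 u) h1 u (by norm_num) (by norm_num)
  rcases le_total R 0.36 with u | l38
  · linarith only [b7_38 h l37 u, ba38_3 h l37 u, ba38_4 h l37 u, l37, u]
  rcases le_total R 0.37 with u | l39
  · exact lin_ends (ba39_3 h l38 u) l38 u (by norm_num) (by norm_num)
  rcases le_total R 0.38 with u | l40
  · linarith only [ba40_2 h l39 u, ba40_3 h l39 u, l39, u]
  rcases le_total R 0.39 with u | l41
  · exact lin_ends (ba41_2 h l40 u) l40 u (by norm_num) (by norm_num)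
  rcases le_total R 0.4 with u | l42
  · exact lin_ends (ba42_1 h l41 u) l41 u (by norm_num) (by norm_num)
  rcases le_total R 0.41 with u | l43
  · exact lin_ends (ba43_1 h l42 u) l42 u (by norm_num) (by norm_num)
  rcases le_total R 0.42 with u | l44
  · exact lin_ends (ba44_0 h l43 u) l43 u (by norm_num) (by norm_num)
  rcases le_total R 0.43 with u | l45
  · exact lin_ends (ba45_0 h l44 u) l44 u (by norm_num) (by norm_num)
  exact lin_ends (ba46_0 h l45 h2) l45 h2 (by norm_num) (by norm_num)

lemma d7_28 (h : Good 1 R p) (h1 : 0.25 ≤ R) (h2 : R ≤ 0.37) : 0.10809 + 0.571 * R ≤ p := by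
  rcases le_total R 0.27 with u | l33
  · exact lin_ends (b7_33 h h1 u) h1 u (by norm_num) (by norm_num)
  rcases le_total R 0.29 with u | l34
  · exact lin_ends (b7_34 h l33 u) l33 u (by norm_num) (by norm_num)
  rcases le_total R 0.31 with u | l35
  · exact lin_ends (b7_35 h l34 u) l34 u (by norm_num) (by norm_num)
  rcases le_total R 0.33 with u | l36
  · exact lin_ends (b7_36 h l35 u) l35 u (by norm_num) (by norm_num)
  rcases le_total R 0.345 with u | l37
  · linarith only [b7_37 h l36 u, ba37_4 h l36 u, l36, u]
  rcases le_total R 0.36 with u | l38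
  · exact lin_ends (ba38_3 h l37 u) l37 u (by norm_num) (by norm_num)
  exact lin_ends (ba39_3 h l38 h2) l38 h2 (by norm_num) (by norm_num)

lemma d7_29 (h : Good 1 R p) (h1 : 0.02 ≤ R) (h2 : R ≤ 0.06) : 0.0398 + 1.243 * R ≤ p := by
  rcases le_total R 0.025 with u | l13
  · exact lin_ends (bs13 h h1 u) h1 u (by norm_num) (by norm_num)
  rcases le_total R 0.03 with u | l14
  · exact lin_ends (bs14 h l13 u) l13 u (by norm_num) (by norm_num)
  rcases le_total R 0.035 with u | l15
  · exact lin_ends (bs15 h l14 u) l14 u (by norm_num) (by norm_num)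
  rcases le_total R 0.04 with u | l16
  · exact lin_ends (bs16 h l15 u) l15 u (by norm_num) (by norm_num)
  rcases le_total R 0.045 with u | l17
  · exact lin_ends (b7_17 h l16 u) l16 u (by norm_num) (by norm_num)
  rcases le_total R 0.05 with u | l18
  · exact lin_ends (b7_18 h l17 u) l17 u (by norm_num) (by norm_num)
  exact lin_ends (b7_19 h l18 h2) l18 h2 (by norm_num) (by norm_num)

lemma d7_30 (h : Good 1 R p) (h1 : 0.01 ≤ R) (h2 : R ≤ 0.06) : 0.03157 + 1.38 * R ≤ p := by
  rcases le_total R 0.013 with u | l10
  · exact lin_ends (bs10 h h1 u) h1 u (by norm_num) (by norm_num)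
  rcases le_total R 0.016 with u | l11
  · exact lin_ends (bs11 h l10 u) l10 u (by norm_num) (by norm_num)
  rcases le_total R 0.02 with u | l12
  · exact lin_ends (bs12 h l11 u) l11 u (by norm_num) (by norm_num)
  rcases le_total R 0.025 with u | l13
  · exact lin_ends (bs13 h l12 u) l12 u (by norm_num) (by norm_num)
  rcases le_total R 0.03 with u | l14
  · exact lin_ends (bs14 h l13 u) l13 u (by norm_num) (by norm_num)
  rcases le_total R 0.035 with u | l15
  · exact lin_ends (bs15 h l14 u) l14 u (by norm_num) (by norm_num)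
  rcases le_total R 0.04 with u | l16
  · exact lin_ends (bs16 h l15 u) l15 u (by norm_num) (by norm_num)
  rcases le_total R 0.045 with u | l17
  · exact lin_ends (b7_17 h l16 u) l16 u (by norm_num) (by norm_num)
  rcases le_total R 0.05 with u | l18
  · exact lin_ends (b7_18 h l17 u) l17 u (by norm_num) (by norm_num)
  exact lin_ends (b7_19 h l18 h2) l18 h2 (by norm_num) (by norm_num)

lemma d7_31 (h : Good 1 R p) (h1 : 0.01 ≤ R) (h2 : R ≤ 0.03) : 0.02818 + 1.719 * R ≤ p := by
  rcases le_total R 0.013 with u | l10
  · exact lin_ends (bs10 h h1 u) h1 u (by norm_num) (by norm_num)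
  rcases le_total R 0.016 with u | l11
  · exact lin_ends (bs11 h l10 u) l10 u (by norm_num) (by norm_num)
  rcases le_total R 0.02 with u | l12
  · exact lin_ends (bs12 h l11 u) l11 u (by norm_num) (by norm_num)
  rcases le_total R 0.025 with u | l13
  · exact lin_ends (bs13 h l12 u) l12 u (by norm_num) (by norm_num)
  exact lin_ends (bs14 h l13 h2) l13 h2 (by norm_num) (by norm_num)

lemma d7_32 (h : Good 1 R p) (h1 : 0.31 ≤ R) (h2 : R ≤ (4 / 9)) : 0.10877 + 0.569 * R ≤ p := by
  rcases le_total R 0.33 with u | l36
  · exact lin_ends (b7_36 h h1 u) h1 u (by norm_num) (by norm_num)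
  rcases le_total R 0.345 with u | l37
  · linarith only [b7_37 h l36 u, ba37_4 h l36 u, l36, u]
  rcases le_total R 0.36 with u | l38
  · exact lin_ends (ba38_3 h l37 u) l37 u (by norm_num) (by norm_num)
  rcases le_total R 0.37 with u | l39
  · exact lin_ends (ba39_3 h l38 u) l38 u (by norm_num) (by norm_num)
  rcases le_total R 0.38 with u | l40
  · exact lin_ends (ba40_2 h l39 u) l39 u (by norm_num) (by norm_num)
  rcases le_total R 0.39 with u | l41
  · exact lin_ends (ba41_2 h l40 u) l40 u (by norm_num) (by norm_num)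
  rcases le_total R 0.4 with u | l42
  · exact lin_ends (ba42_1 h l41 u) l41 u (by norm_num) (by norm_num)
  rcases le_total R 0.41 with u | l43
  · exact lin_ends (ba43_1 h l42 u) l42 u (by norm_num) (by norm_num)
  rcases le_total R 0.42 with u | l44
  · exact lin_ends (ba44_0 h l43 u) l43 u (by norm_num) (by norm_num)
  rcases le_total R 0.43 with u | l45
  · exact lin_ends (ba45_0 h l44 u) l44 u (by norm_num) (by norm_num)
  exact lin_ends (ba46_0 h l45 h2) l45 h2 (by norm_num) (by norm_num)

lemma d7_33 (h : Good 1 R p) (h1 : 0.235 ≤ R) (h2 : R ≤ 0.33) : 0.10945 + 0.567 * R ≤ p := by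
  rcases le_total R 0.25 with u | l32
  · exact lin_ends (b7_32 h h1 u) h1 u (by norm_num) (by norm_num)
  rcases le_total R 0.27 with u | l33
  · exact lin_ends (b7_33 h l32 u) l32 u (by norm_num) (by norm_num)
  rcases le_total R 0.29 with u | l34
  · exact lin_ends (b7_34 h l33 u) l33 u (by norm_num) (by norm_num)
  rcases le_total R 0.31 with u | l35
  · exact lin_ends (b7_35 h l34 u) l34 u (by norm_num) (by norm_num)
  exact lin_ends (b7_36 h l35 h2) l35 h2 (by norm_num) (by norm_num)

lemma d7_34 (h : Good 1 R p) (h1 : 0.016 ≤ R) (h2 : R ≤ 0.03) : 0.03228 + 1.582 * R ≤ p := by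
  rcases le_total R 0.02 with u | l12
  · exact lin_ends (bs12 h h1 u) h1 u (by norm_num) (by norm_num)
  rcases le_total R 0.025 with u | l13
  · exact lin_ends (bs13 h l12 u) l12 u (by norm_num) (by norm_num)
  exact lin_ends (bs14 h l13 h2) l13 h2 (by norm_num) (by norm_num)

lemma d7_35 (h : Good 1 R p) (h1 : 0.01 ≤ R) (h2 : R ≤ 0.02) : 0.02608 + 1.929 * R ≤ p := by
  rcases le_total R 0.013 with u | l10
  · exact lin_ends (bs10 h h1 u) h1 u (by norm_num) (by norm_num)
  rcases le_total R 0.016 with u | l11
  · exact lin_ends (bs11 h l10 u) l10 u (by norm_num) (by norm_num)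
  exact lin_ends (bs12 h l11 h2) l11 h2 (by norm_num) (by norm_num)

lemma d7_36 (h : Good 1 R p) (h1 : 0.03 ≤ R) (h2 : R ≤ 0.06) : 0.04513 + 1.154 * R ≤ p := by
  rcases le_total R 0.035 with u | l15
  · exact lin_ends (bs15 h h1 u) h1 u (by norm_num) (by norm_num)
  rcases le_total R 0.04 with u | l16
  · exact lin_ends (bs16 h l15 u) l15 u (by norm_num) (by norm_num)
  rcases le_total R 0.045 with u | l17
  · exact lin_ends (b7_17 h l16 u) l16 u (by norm_num) (by norm_num)
  rcases le_total R 0.05 with u | l18
  · exact lin_ends (b7_18 h l17 u) l17 u (by norm_num) (by norm_num)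
  exact lin_ends (b7_19 h l18 h2) l18 h2 (by norm_num) (by norm_num)

lemma d7_37 (h : Good 1 R p) (h1 : 0.06 ≤ R) (h2 : R ≤ 0.25) : 0.07104 + 0.721 * R ≤ p := by
  rcases le_total R 0.07 with u | l20
  · exact lin_ends (b7_20 h h1 u) h1 u (by norm_num) (by norm_num)
  rcases le_total R 0.08 with u | l21
  · exact lin_ends (b7_21 h l20 u) l20 u (by norm_num) (by norm_num)
  rcases le_total R 0.09 with u | l22
  · exact lin_ends (b7_22 h l21 u) l21 u (by norm_num) (by norm_num)
  rcases le_total R 0.1 with u | l23
  · exact lin_ends (b7_23 h l22 u) l22 u (by norm_num) (by norm_num)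
  rcases le_total R 0.12 with u | l24
  · exact lin_ends (b7_24 h l23 u) l23 u (by norm_num) (by norm_num)
  rcases le_total R 0.14 with u | l25
  · exact lin_ends (b7_25 h l24 u) l24 u (by norm_num) (by norm_num)
  rcases le_total R 0.16 with u | l26
  · exact lin_ends (b7_26 h l25 u) l25 u (by norm_num) (by norm_num)
  rcases le_total R 0.18 with u | l27
  · exact lin_ends (b7_27 h l26 u) l26 u (by norm_num) (by norm_num)
  rcases le_total R 0.195 with u | l28
  · exact lin_ends (b7_28 h l27 u) l27 u (by norm_num) (by norm_num)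
  rcases le_total R 0.21 with u | l29
  · exact lin_ends (b7_29 h l28 u) l28 u (by norm_num) (by norm_num)
  rcases le_total R 0.22 with u | l30
  · exact lin_ends (b7_30 h l29 u) l29 u (by norm_num) (by norm_num)
  rcases le_total R 0.235 with u | l31
  · exact lin_ends (b7_31 h l30 u) l30 u (by norm_num) (by norm_num)
  exact lin_ends (b7_32 h l31 h2) l31 h2 (by norm_num) (by norm_num)

lemma d7_38 (h : Good 1 R p) (h1 : 0.27 ≤ R) (h2 : R ≤ (4 / 9)) : 0.10945 + 0.567 * R ≤ p := by
  rcases le_total R 0.29 with u | l34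
  · exact lin_ends (b7_34 h h1 u) h1 u (by norm_num) (by norm_num)
  rcases le_total R 0.31 with u | l35
  · exact lin_ends (b7_35 h l34 u) l34 u (by norm_num) (by norm_num)
  rcases le_total R 0.33 with u | l36
  · exact lin_ends (b7_36 h l35 u) l35 u (by norm_num) (by norm_num)
  rcases le_total R 0.345 with u | l37
  · linarith only [b7_37 h l36 u, ba37_4 h l36 u, l36, u]
  rcases le_total R 0.36 with u | l38
  · exact lin_ends (ba38_3 h l37 u) l37 u (by norm_num) (by norm_num)
  rcases le_total R 0.37 with u | l39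
  · exact lin_ends (ba39_3 h l38 u) l38 u (by norm_num) (by norm_num)
  rcases le_total R 0.38 with u | l40
  · exact lin_ends (ba40_2 h l39 u) l39 u (by norm_num) (by norm_num)
  rcases le_total R 0.39 with u | l41
  · exact lin_ends (ba41_2 h l40 u) l40 u (by norm_num) (by norm_num)
  rcases le_total R 0.4 with u | l42
  · exact lin_ends (ba42_1 h l41 u) l41 u (by norm_num) (by norm_num)
  rcases le_total R 0.41 with u | l43
  · exact lin_ends (ba43_1 h l42 u) l42 u (by norm_num) (by norm_num)
  rcases le_total R 0.42 with u | l44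
  · exact lin_ends (ba44_0 h l43 u) l43 u (by norm_num) (by norm_num)
  rcases le_total R 0.43 with u | l45
  · exact lin_ends (ba45_0 h l44 u) l44 u (by norm_num) (by norm_num)
  exact lin_ends (ba46_0 h l45 h2) l45 h2 (by norm_num) (by norm_num)

lemma d7_39 (h : Good 1 R p) (h1 : 0.05 ≤ R) (h2 : R ≤ (4 / 9)) : 0.05198 + 0.736 * R ≤ p := by
  rcases le_total R 0.06 with u | l19
  · exact lin_ends (b7_19 h h1 u) h1 u (by norm_num) (by norm_num)
  rcases le_total R 0.07 with u | l20
  · exact lin_ends (b7_20 h l19 u) l19 u (by norm_num) (by norm_num)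
  rcases le_total R 0.08 with u | l21
  · exact lin_ends (b7_21 h l20 u) l20 u (by norm_num) (by norm_num)
  rcases le_total R 0.09 with u | l22
  · exact lin_ends (b7_22 h l21 u) l21 u (by norm_num) (by norm_num)
  rcases le_total R 0.1 with u | l23
  · exact lin_ends (b7_23 h l22 u) l22 u (by norm_num) (by norm_num)
  rcases le_total R 0.12 with u | l24
  · exact lin_ends (b7_24 h l23 u) l23 u (by norm_num) (by norm_num)
  rcases le_total R 0.14 with u | l25
  · exact lin_ends (b7_25 h l24 u) l24 u (by norm_num) (by norm_num)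
  rcases le_total R 0.16 with u | l26
  · exact lin_ends (b7_26 h l25 u) l25 u (by norm_num) (by norm_num)
  rcases le_total R 0.18 with u | l27
  · exact lin_ends (b7_27 h l26 u) l26 u (by norm_num) (by norm_num)
  rcases le_total R 0.195 with u | l28
  · exact lin_ends (b7_28 h l27 u) l27 u (by norm_num) (by norm_num)
  rcases le_total R 0.21 with u | l29
  · exact lin_ends (b7_29 h l28 u) l28 u (by norm_num) (by norm_num)
  rcases le_total R 0.22 with u | l30
  · exact lin_ends (b7_30 h l29 u) l29 u (by norm_num) (by norm_num)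
  rcases le_total R 0.235 with u | l31
  · exact lin_ends (b7_31 h l30 u) l30 u (by norm_num) (by norm_num)
  rcases le_total R 0.25 with u | l32
  · exact lin_ends (b7_32 h l31 u) l31 u (by norm_num) (by norm_num)
  rcases le_total R 0.27 with u | l33
  · exact lin_ends (b7_33 h l32 u) l32 u (by norm_num) (by norm_num)
  rcases le_total R 0.29 with u | l34
  · exact lin_ends (b7_34 h l33 u) l33 u (by norm_num) (by norm_num)
  rcases le_total R 0.31 with u | l35
  · exact lin_ends (b7_35 h l34 u) l34 u (by norm_num) (by norm_num)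
  rcases le_total R 0.33 with u | l36
  · exact lin_ends (b7_36 h l35 u) l35 u (by norm_num) (by norm_num)
  rcases le_total R 0.345 with u | l37
  · linarith only [b7_37 h l36 u, ba37_4 h l36 u, l36, u]
  rcases le_total R 0.36 with u | l38
  · exact lin_ends (ba38_3 h l37 u) l37 u (by norm_num) (by norm_num)
  rcases le_total R 0.37 with u | l39
  · exact lin_ends (ba39_3 h l38 u) l38 u (by norm_num) (by norm_num)
  rcases le_total R 0.38 with u | l40
  · exact lin_ends (ba40_2 h l39 u) l39 u (by norm_num) (by norm_num)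
  rcases le_total R 0.39 with u | l41
  · exact lin_ends (ba41_2 h l40 u) l40 u (by norm_num) (by norm_num)
  rcases le_total R 0.4 with u | l42
  · exact lin_ends (ba42_1 h l41 u) l41 u (by norm_num) (by norm_num)
  rcases le_total R 0.41 with u | l43
  · exact lin_ends (ba43_1 h l42 u) l42 u (by norm_num) (by norm_num)
  rcases le_total R 0.42 with u | l44
  · exact lin_ends (ba44_0 h l43 u) l43 u (by norm_num) (by norm_num)
  rcases le_total R 0.43 with u | l45
  · exact lin_ends (ba45_0 h l44 u) l44 u (by norm_num) (by norm_num)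
  exact lin_ends (ba46_0 h l45 h2) l45 h2 (by norm_num) (by norm_num)

lemma d7_40 (h : Good 1 R p) (h1 : 0.05 ≤ R) (h2 : R ≤ 0.41) : 0.07034 + 0.682 * R ≤ p := by
  rcases le_total R 0.06 with u | l19
  · exact lin_ends (b7_19 h h1 u) h1 u (by norm_num) (by norm_num)
  rcases le_total R 0.07 with u | l20
  · exact lin_ends (b7_20 h l19 u) l19 u (by norm_num) (by norm_num)
  rcases le_total R 0.08 with u | l21
  · exact lin_ends (b7_21 h l20 u) l20 u (by norm_num) (by norm_num)
  rcases le_total R 0.09 with u | l22
  · exact lin_ends (b7_22 h l21 u) l21 u (by norm_num) (by norm_num)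
  rcases le_total R 0.1 with u | l23
  · exact lin_ends (b7_23 h l22 u) l22 u (by norm_num) (by norm_num)
  rcases le_total R 0.12 with u | l24
  · exact lin_ends (b7_24 h l23 u) l23 u (by norm_num) (by norm_num)
  rcases le_total R 0.14 with u | l25
  · exact lin_ends (b7_25 h l24 u) l24 u (by norm_num) (by norm_num)
  rcases le_total R 0.16 with u | l26
  · exact lin_ends (b7_26 h l25 u) l25 u (by norm_num) (by norm_num)
  rcases le_total R 0.18 with u | l27
  · exact lin_ends (b7_27 h l26 u) l26 u (by norm_num) (by norm_num)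
  rcases le_total R 0.195 with u | l28
  · exact lin_ends (b7_28 h l27 u) l27 u (by norm_num) (by norm_num)
  rcases le_total R 0.21 with u | l29
  · exact lin_ends (b7_29 h l28 u) l28 u (by norm_num) (by norm_num)
  rcases le_total R 0.22 with u | l30
  · exact lin_ends (b7_30 h l29 u) l29 u (by norm_num) (by norm_num)
  rcases le_total R 0.235 with u | l31
  · exact lin_ends (b7_31 h l30 u) l30 u (by norm_num) (by norm_num)
  rcases le_total R 0.25 with u | l32
  · exact lin_ends (b7_32 h l31 u) l31 u (by norm_num) (by norm_num)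
  rcases le_total R 0.27 with u | l33
  · exact lin_ends (b7_33 h l32 u) l32 u (by norm_num) (by norm_num)
  rcases le_total R 0.29 with u | l34
  · exact lin_ends (b7_34 h l33 u) l33 u (by norm_num) (by norm_num)
  rcases le_total R 0.31 with u | l35
  · exact lin_ends (b7_35 h l34 u) l34 u (by norm_num) (by norm_num)
  rcases le_total R 0.33 with u | l36
  · exact lin_ends (b7_36 h l35 u) l35 u (by norm_num) (by norm_num)
  rcases le_total R 0.345 with u | l37
  · linarith only [b7_37 h l36 u, ba37_4 h l36 u, l36, u]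
  rcases le_total R 0.36 with u | l38
  · exact lin_ends (ba38_3 h l37 u) l37 u (by norm_num) (by norm_num)
  rcases le_total R 0.37 with u | l39
  · exact lin_ends (ba39_3 h l38 u) l38 u (by norm_num) (by norm_num)
  rcases le_total R 0.38 with u | l40
  · exact lin_ends (ba40_2 h l39 u) l39 u (by norm_num) (by norm_num)
  rcases le_total R 0.39 with u | l41
  · exact lin_ends (ba41_2 h l40 u) l40 u (by norm_num) (by norm_num)
  rcases le_total R 0.4 with u | l42
  · exact lin_ends (ba42_1 h l41 u) l41 u (by norm_num) (by norm_num)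
  exact lin_ends (ba43_1 h l42 h2) l42 h2 (by norm_num) (by norm_num)

lemma d7_41 (h : Good 1 R p) (h1 : 0.05 ≤ R) (h2 : R ≤ 0.29) : 0.06899 + 0.709 * R ≤ p := by
  rcases le_total R 0.06 with u | l19
  · exact lin_ends (b7_19 h h1 u) h1 u (by norm_num) (by norm_num)
  rcases le_total R 0.07 with u | l20
  · exact lin_ends (b7_20 h l19 u) l19 u (by norm_num) (by norm_num)
  rcases le_total R 0.08 with u | l21
  · exact lin_ends (b7_21 h l20 u) l20 u (by norm_num) (by norm_num)
  rcases le_total R 0.09 with u | l22
  · exact lin_ends (b7_22 h l21 u) l21 u (by norm_num) (by norm_num)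
  rcases le_total R 0.1 with u | l23
  · exact lin_ends (b7_23 h l22 u) l22 u (by norm_num) (by norm_num)
  rcases le_total R 0.12 with u | l24
  · exact lin_ends (b7_24 h l23 u) l23 u (by norm_num) (by norm_num)
  rcases le_total R 0.14 with u | l25
  · exact lin_ends (b7_25 h l24 u) l24 u (by norm_num) (by norm_num)
  rcases le_total R 0.16 with u | l26
  · exact lin_ends (b7_26 h l25 u) l25 u (by norm_num) (by norm_num)
  rcases le_total R 0.18 with u | l27
  · exact lin_ends (b7_27 h l26 u) l26 u (by norm_num) (by norm_num)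
  rcases le_total R 0.195 with u | l28
  · exact lin_ends (b7_28 h l27 u) l27 u (by norm_num) (by norm_num)
  rcases le_total R 0.21 with u | l29
  · exact lin_ends (b7_29 h l28 u) l28 u (by norm_num) (by norm_num)
  rcases le_total R 0.22 with u | l30
  · exact lin_ends (b7_30 h l29 u) l29 u (by norm_num) (by norm_num)
  rcases le_total R 0.235 with u | l31
  · exact lin_ends (b7_31 h l30 u) l30 u (by norm_num) (by norm_num)
  rcases le_total R 0.25 with u | l32
  · exact lin_ends (b7_32 h l31 u) l31 u (by norm_num) (by norm_num)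
  rcases le_total R 0.27 with u | l33
  · exact lin_ends (b7_33 h l32 u) l32 u (by norm_num) (by norm_num)
  exact lin_ends (b7_34 h l33 h2) l33 h2 (by norm_num) (by norm_num)

lemma d7_42 (h : Good 1 R p) (h1 : 0 ≤ R) (h2 : R ≤ 0.22) : (-0.00004) + 1.061 * R ≤ p := by
  rcases le_total R 0.0005 with u | l0
  · exact lin_ends (bs0 h h1 u) h1 u (by norm_num) (by norm_num)
  rcases le_total R 0.001 with u | l1
  · exact lin_ends (bs1 h l0 u) l0 u (by norm_num) (by norm_num)
  rcases le_total R 0.0015 with u | l2
  · exact lin_ends (bs2 h l1 u) l1 u (by norm_num) (by norm_num)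
  rcases le_total R 0.002 with u | l3
  · exact lin_ends (bs3 h l2 u) l2 u (by norm_num) (by norm_num)
  rcases le_total R 0.003 with u | l4
  · exact lin_ends (bs4 h l3 u) l3 u (by norm_num) (by norm_num)
  rcases le_total R 0.004 with u | l5
  · exact lin_ends (bs5 h l4 u) l4 u (by norm_num) (by norm_num)
  rcases le_total R 0.005 with u | l6
  · exact lin_ends (bs6 h l5 u) l5 u (by norm_num) (by norm_num)
  rcases le_total R 0.006 with u | l7
  · exact lin_ends (bs7 h l6 u) l6 u (by norm_num) (by norm_num)
  rcases le_total R 0.008 with u | l8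
  · exact lin_ends (bs8 h l7 u) l7 u (by norm_num) (by norm_num)
  rcases le_total R 0.01 with u | l9
  · exact lin_ends (bs9 h l8 u) l8 u (by norm_num) (by norm_num)
  rcases le_total R 0.013 with u | l10
  · exact lin_ends (bs10 h l9 u) l9 u (by norm_num) (by norm_num)
  rcases le_total R 0.016 with u | l11
  · exact lin_ends (bs11 h l10 u) l10 u (by norm_num) (by norm_num)
  rcases le_total R 0.02 with u | l12
  · exact lin_ends (bs12 h l11 u) l11 u (by norm_num) (by norm_num)
  rcases le_total R 0.025 with u | l13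
  · exact lin_ends (bs13 h l12 u) l12 u (by norm_num) (by norm_num)
  rcases le_total R 0.03 with u | l14
  · exact lin_ends (bs14 h l13 u) l13 u (by norm_num) (by norm_num)
  rcases le_total R 0.035 with u | l15
  · exact lin_ends (bs15 h l14 u) l14 u (by norm_num) (by norm_num)
  rcases le_total R 0.04 with u | l16
  · exact lin_ends (bs16 h l15 u) l15 u (by norm_num) (by norm_num)
  rcases le_total R 0.045 with u | l17
  · exact lin_ends (b7_17 h l16 u) l16 u (by norm_num) (by norm_num)
  rcases le_total R 0.05 with u | l18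
  · exact lin_ends (b7_18 h l17 u) l17 u (by norm_num) (by norm_num)
  rcases le_total R 0.06 with u | l19
  · exact lin_ends (b7_19 h l18 u) l18 u (by norm_num) (by norm_num)
  rcases le_total R 0.07 with u | l20
  · exact lin_ends (b7_20 h l19 u) l19 u (by norm_num) (by norm_num)
  rcases le_total R 0.08 with u | l21
  · exact lin_ends (b7_21 h l20 u) l20 u (by norm_num) (by norm_num)
  rcases le_total R 0.09 with u | l22
  · exact lin_ends (b7_22 h l21 u) l21 u (by norm_num) (by norm_num)
  rcases le_total R 0.1 with u | l23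
  · exact lin_ends (b7_23 h l22 u) l22 u (by norm_num) (by norm_num)
  rcases le_total R 0.12 with u | l24
  · exact lin_ends (b7_24 h l23 u) l23 u (by norm_num) (by norm_num)
  rcases le_total R 0.14 with u | l25
  · exact lin_ends (b7_25 h l24 u) l24 u (by norm_num) (by norm_num)
  rcases le_total R 0.16 with u | l26
  · exact lin_ends (b7_26 h l25 u) l25 u (by norm_num) (by norm_num)
  rcases le_total R 0.18 with u | l27
  · exact lin_ends (b7_27 h l26 u) l26 u (by norm_num) (by norm_num)
  rcases le_total R 0.195 with u | l28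
  · exact lin_ends (b7_28 h l27 u) l27 u (by norm_num) (by norm_num)
  rcases le_total R 0.21 with u | l29
  · exact lin_ends (b7_29 h l28 u) l28 u (by norm_num) (by norm_num)
  exact lin_ends (b7_30 h l29 h2) l29 h2 (by norm_num) (by norm_num)

lemma d7_43 (h : Good 1 R p) (h1 : 0.03 ≤ R) (h2 : R ≤ 0.25) : 0.05629 + 0.78 * R ≤ p := by
  rcases le_total R 0.035 with u | l15
  · exact lin_ends (bs15 h h1 u) h1 u (by norm_num) (by norm_num)
  rcases le_total R 0.04 with u | l16
  · exact lin_ends (bs16 h l15 u) l15 u (by norm_num) (by norm_num)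
  rcases le_total R 0.045 with u | l17
  · exact lin_ends (b7_17 h l16 u) l16 u (by norm_num) (by norm_num)
  rcases le_total R 0.05 with u | l18
  · exact lin_ends (b7_18 h l17 u) l17 u (by norm_num) (by norm_num)
  rcases le_total R 0.06 with u | l19
  · exact lin_ends (b7_19 h l18 u) l18 u (by norm_num) (by norm_num)
  rcases le_total R 0.07 with u | l20
  · exact lin_ends (b7_20 h l19 u) l19 u (by norm_num) (by norm_num)
  rcases le_total R 0.08 with u | l21
  · exact lin_ends (b7_21 h l20 u) l20 u (by norm_num) (by norm_num)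
  rcases le_total R 0.09 with u | l22
  · exact lin_ends (b7_22 h l21 u) l21 u (by norm_num) (by norm_num)
  rcases le_total R 0.1 with u | l23
  · exact lin_ends (b7_23 h l22 u) l22 u (by norm_num) (by norm_num)
  rcases le_total R 0.12 with u | l24
  · exact lin_ends (b7_24 h l23 u) l23 u (by norm_num) (by norm_num)
  rcases le_total R 0.14 with u | l25
  · exact lin_ends (b7_25 h l24 u) l24 u (by norm_num) (by norm_num)
  rcases le_total R 0.16 with u | l26
  · exact lin_ends (b7_26 h l25 u) l25 u (by norm_num) (by norm_num)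
  rcases le_total R 0.18 with u | l27
  · exact lin_ends (b7_27 h l26 u) l26 u (by norm_num) (by norm_num)
  rcases le_total R 0.195 with u | l28
  · exact lin_ends (b7_28 h l27 u) l27 u (by norm_num) (by norm_num)
  rcases le_total R 0.21 with u | l29
  · exact lin_ends (b7_29 h l28 u) l28 u (by norm_num) (by norm_num)
  rcases le_total R 0.22 with u | l30
  · exact lin_ends (b7_30 h l29 u) l29 u (by norm_num) (by norm_num)
  rcases le_total R 0.235 with u | l31
  · exact lin_ends (b7_31 h l30 u) l30 u (by norm_num) (by norm_num)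
  exact lin_ends (b7_32 h l31 h2) l31 h2 (by norm_num) (by norm_num)

lemma d7_44 (h : Good 1 R p) (h1 : 0.03 ≤ R) (h2 : R ≤ 0.21) : 0.05517 + 0.819 * R ≤ p := by
  rcases le_total R 0.035 with u | l15
  · exact lin_ends (bs15 h h1 u) h1 u (by norm_num) (by norm_num)
  rcases le_total R 0.04 with u | l16
  · exact lin_ends (bs16 h l15 u) l15 u (by norm_num) (by norm_num)
  rcases le_total R 0.045 with u | l17
  · exact lin_ends (b7_17 h l16 u) l16 u (by norm_num) (by norm_num)
  rcases le_total R 0.05 with u | l18
  · exact lin_ends (b7_18 h l17 u) l17 u (by norm_num) (by norm_num)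
  rcases le_total R 0.06 with u | l19
  · exact lin_ends (b7_19 h l18 u) l18 u (by norm_num) (by norm_num)
  rcases le_total R 0.07 with u | l20
  · exact lin_ends (b7_20 h l19 u) l19 u (by norm_num) (by norm_num)
  rcases le_total R 0.08 with u | l21
  · exact lin_ends (b7_21 h l20 u) l20 u (by norm_num) (by norm_num)
  rcases le_total R 0.09 with u | l22
  · exact lin_ends (b7_22 h l21 u) l21 u (by norm_num) (by norm_num)
  rcases le_total R 0.1 with u | l23
  · exact lin_ends (b7_23 h l22 u) l22 u (by norm_num) (by norm_num)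
  rcases le_total R 0.12 with u | l24
  · exact lin_ends (b7_24 h l23 u) l23 u (by norm_num) (by norm_num)
  rcases le_total R 0.14 with u | l25
  · exact lin_ends (b7_25 h l24 u) l24 u (by norm_num) (by norm_num)
  rcases le_total R 0.16 with u | l26
  · exact lin_ends (b7_26 h l25 u) l25 u (by norm_num) (by norm_num)
  rcases le_total R 0.18 with u | l27
  · exact lin_ends (b7_27 h l26 u) l26 u (by norm_num) (by norm_num)
  rcases le_total R 0.195 with u | l28
  · exact lin_ends (b7_28 h l27 u) l27 u (by norm_num) (by norm_num)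
  exact lin_ends (b7_29 h l28 h2) l28 h2 (by norm_num) (by norm_num)

lemma g7_19 (h : Good 1 R p) (h2 : R ≤ 0.05) : 2.089 * R ≤ p := by
  have h1 : (0:ℝ) ≤ R := h.1.le
  suffices H : 0 + 2.089 * R ≤ p by rwa [zero_add] at H
  rcases le_total R 0.0005 with u | l0
  · exact lin_ends (bs0 h h1 u) h1 u (by norm_num) (by norm_num)
  rcases le_total R 0.001 with u | l1
  · exact lin_ends (bs1 h l0 u) l0 u (by norm_num) (by norm_num)
  rcases le_total R 0.0015 with u | l2
  · exact lin_ends (bs2 h l1 u) l1 u (by norm_num) (by norm_num)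
  rcases le_total R 0.002 with u | l3
  · exact lin_ends (bs3 h l2 u) l2 u (by norm_num) (by norm_num)
  rcases le_total R 0.003 with u | l4
  · exact lin_ends (bs4 h l3 u) l3 u (by norm_num) (by norm_num)
  rcases le_total R 0.004 with u | l5
  · exact lin_ends (bs5 h l4 u) l4 u (by norm_num) (by norm_num)
  rcases le_total R 0.005 with u | l6
  · exact lin_ends (bs6 h l5 u) l5 u (by norm_num) (by norm_num)
  rcases le_total R 0.006 with u | l7
  · exact lin_ends (bs7 h l6 u) l6 u (by norm_num) (by norm_num)
  rcases le_total R 0.008 with u | l8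
  · exact lin_ends (bs8 h l7 u) l7 u (by norm_num) (by norm_num)
  rcases le_total R 0.01 with u | l9
  · exact lin_ends (bs9 h l8 u) l8 u (by norm_num) (by norm_num)
  rcases le_total R 0.013 with u | l10
  · exact lin_ends (bs10 h l9 u) l9 u (by norm_num) (by norm_num)
  rcases le_total R 0.016 with u | l11
  · exact lin_ends (bs11 h l10 u) l10 u (by norm_num) (by norm_num)
  rcases le_total R 0.02 with u | l12
  · exact lin_ends (bs12 h l11 u) l11 u (by norm_num) (by norm_num)
  rcases le_total R 0.025 with u | l13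
  · exact lin_ends (bs13 h l12 u) l12 u (by norm_num) (by norm_num)
  rcases le_total R 0.03 with u | l14
  · exact lin_ends (bs14 h l13 u) l13 u (by norm_num) (by norm_num)
  rcases le_total R 0.035 with u | l15
  · exact lin_ends (bs15 h l14 u) l14 u (by norm_num) (by norm_num)
  rcases le_total R 0.04 with u | l16
  · exact lin_ends (bs16 h l15 u) l15 u (by norm_num) (by norm_num)
  rcases le_total R 0.045 with u | l17
  · exact lin_ends (b7_17 h l16 u) l16 u (by norm_num) (by norm_num)
  exact lin_ends (b7_18 h l17 h2) l17 h2 (by norm_num) (by norm_num)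

lemma g7_1 (h : Good 1 R p) (h2 : R ≤ 0.0005) : 18.659 * R ≤ p := by
  have h1 : (0:ℝ) ≤ R := h.1.le
  suffices H : 0 + 18.659 * R ≤ p by rwa [zero_add] at H
  exact lin_ends (bs0 h h1 h2) h1 h2 (by norm_num) (by norm_num)

lemma g7_15 (h : Good 1 R p) (h2 : R ≤ 0.03) : 2.658 * R ≤ p := by
  have h1 : (0:ℝ) ≤ R := h.1.le
  suffices H : 0 + 2.658 * R ≤ p by rwa [zero_add] at H
  rcases le_total R 0.0005 with u | l0
  · exact lin_ends (bs0 h h1 u) h1 u (by norm_num) (by norm_num)
  rcases le_total R 0.001 with u | l1
  · exact lin_ends (bs1 h l0 u) l0 u (by norm_num) (by norm_num)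
  rcases le_total R 0.0015 with u | l2
  · exact lin_ends (bs2 h l1 u) l1 u (by norm_num) (by norm_num)
  rcases le_total R 0.002 with u | l3
  · exact lin_ends (bs3 h l2 u) l2 u (by norm_num) (by norm_num)
  rcases le_total R 0.003 with u | l4
  · exact lin_ends (bs4 h l3 u) l3 u (by norm_num) (by norm_num)
  rcases le_total R 0.004 with u | l5
  · exact lin_ends (bs5 h l4 u) l4 u (by norm_num) (by norm_num)
  rcases le_total R 0.005 with u | l6
  · exact lin_ends (bs6 h l5 u) l5 u (by norm_num) (by norm_num)
  rcases le_total R 0.006 with u | l7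
  · exact lin_ends (bs7 h l6 u) l6 u (by norm_num) (by norm_num)
  rcases le_total R 0.008 with u | l8
  · exact lin_ends (bs8 h l7 u) l7 u (by norm_num) (by norm_num)
  rcases le_total R 0.01 with u | l9
  · exact lin_ends (bs9 h l8 u) l8 u (by norm_num) (by norm_num)
  rcases le_total R 0.013 with u | l10
  · exact lin_ends (bs10 h l9 u) l9 u (by norm_num) (by norm_num)
  rcases le_total R 0.016 with u | l11
  · exact lin_ends (bs11 h l10 u) l10 u (by norm_num) (by norm_num)
  rcases le_total R 0.02 with u | l12
  · exact lin_ends (bs12 h l11 u) l11 u (by norm_num) (by norm_num)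
  rcases le_total R 0.025 with u | l13
  · exact lin_ends (bs13 h l12 u) l12 u (by norm_num) (by norm_num)
  exact lin_ends (bs14 h l13 h2) l13 h2 (by norm_num) (by norm_num)

lemma g7_5 (h : Good 1 R p) (h2 : R ≤ 0.003) : 8.15 * R ≤ p := by
  have h1 : (0:ℝ) ≤ R := h.1.le
  suffices H : 0 + 8.15 * R ≤ p by rwa [zero_add] at H
  rcases le_total R 0.0005 with u | l0
  · exact lin_ends (bs0 h h1 u) h1 u (by norm_num) (by norm_num)
  rcases le_total R 0.001 with u | l1
  · exact lin_ends (bs1 h l0 u) l0 u (by norm_num) (by norm_num)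
  rcases le_total R 0.0015 with u | l2
  · exact lin_ends (bs2 h l1 u) l1 u (by norm_num) (by norm_num)
  rcases le_total R 0.002 with u | l3
  · exact lin_ends (bs3 h l2 u) l2 u (by norm_num) (by norm_num)
  exact lin_ends (bs4 h l3 h2) l3 h2 (by norm_num) (by norm_num)

lemma g7_10 (h : Good 1 R p) (h2 : R ≤ 0.01) : 4.537 * R ≤ p := by
  have h1 : (0:ℝ) ≤ R := h.1.le
  suffices H : 0 + 4.537 * R ≤ p by rwa [zero_add] at H
  rcases le_total R 0.0005 with u | l0
  · exact lin_ends (bs0 h h1 u) h1 u (by norm_num) (by norm_num)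
  rcases le_total R 0.001 with u | l1
  · exact lin_ends (bs1 h l0 u) l0 u (by norm_num) (by norm_num)
  rcases le_total R 0.0015 with u | l2
  · exact lin_ends (bs2 h l1 u) l1 u (by norm_num) (by norm_num)
  rcases le_total R 0.002 with u | l3
  · exact lin_ends (bs3 h l2 u) l2 u (by norm_num) (by norm_num)
  rcases le_total R 0.003 with u | l4
  · exact lin_ends (bs4 h l3 u) l3 u (by norm_num) (by norm_num)
  rcases le_total R 0.004 with u | l5
  · exact lin_ends (bs5 h l4 u) l4 u (by norm_num) (by norm_num)
  rcases le_total R 0.005 with u | l6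
  · exact lin_ends (bs6 h l5 u) l5 u (by norm_num) (by norm_num)
  rcases le_total R 0.006 with u | l7
  · exact lin_ends (bs7 h l6 u) l6 u (by norm_num) (by norm_num)
  rcases le_total R 0.008 with u | l8
  · exact lin_ends (bs8 h l7 u) l7 u (by norm_num) (by norm_num)
  exact lin_ends (bs9 h l8 h2) l8 h2 (by norm_num) (by norm_num)

lemma g7_11 (h : Good 1 R p) (h2 : R ≤ 0.013) : 3.983 * R ≤ p := by
  have h1 : (0:ℝ) ≤ R := h.1.le
  suffices H : 0 + 3.983 * R ≤ p by rwa [zero_add] at H
  rcases le_total R 0.0005 with u | l0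
  · exact lin_ends (bs0 h h1 u) h1 u (by norm_num) (by norm_num)
  rcases le_total R 0.001 with u | l1
  · exact lin_ends (bs1 h l0 u) l0 u (by norm_num) (by norm_num)
  rcases le_total R 0.0015 with u | l2
  · exact lin_ends (bs2 h l1 u) l1 u (by norm_num) (by norm_num)
  rcases le_total R 0.002 with u | l3
  · exact lin_ends (bs3 h l2 u) l2 u (by norm_num) (by norm_num)
  rcases le_total R 0.003 with u | l4
  · exact lin_ends (bs4 h l3 u) l3 u (by norm_num) (by norm_num)
  rcases le_total R 0.004 with u | l5
  · exact lin_ends (bs5 h l4 u) l4 u (by norm_num) (by norm_num)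
  rcases le_total R 0.005 with u | l6
  · exact lin_ends (bs6 h l5 u) l5 u (by norm_num) (by norm_num)
  rcases le_total R 0.006 with u | l7
  · exact lin_ends (bs7 h l6 u) l6 u (by norm_num) (by norm_num)
  rcases le_total R 0.008 with u | l8
  · exact lin_ends (bs8 h l7 u) l7 u (by norm_num) (by norm_num)
  rcases le_total R 0.01 with u | l9
  · exact lin_ends (bs9 h l8 u) l8 u (by norm_num) (by norm_num)
  exact lin_ends (bs10 h l9 h2) l9 h2 (by norm_num) (by norm_num)

lemma g7_13 (h : Good 1 R p) (h2 : R ≤ 0.02) : 3.233 * R ≤ p := by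
  have h1 : (0:ℝ) ≤ R := h.1.le
  suffices H : 0 + 3.233 * R ≤ p by rwa [zero_add] at H
  rcases le_total R 0.0005 with u | l0
  · exact lin_ends (bs0 h h1 u) h1 u (by norm_num) (by norm_num)
  rcases le_total R 0.001 with u | l1
  · exact lin_ends (bs1 h l0 u) l0 u (by norm_num) (by norm_num)
  rcases le_total R 0.0015 with u | l2
  · exact lin_ends (bs2 h l1 u) l1 u (by norm_num) (by norm_num)
  rcases le_total R 0.002 with u | l3
  · exact lin_ends (bs3 h l2 u) l2 u (by norm_num) (by norm_num)
  rcases le_total R 0.003 with u | l4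
  · exact lin_ends (bs4 h l3 u) l3 u (by norm_num) (by norm_num)
  rcases le_total R 0.004 with u | l5
  · exact lin_ends (bs5 h l4 u) l4 u (by norm_num) (by norm_num)
  rcases le_total R 0.005 with u | l6
  · exact lin_ends (bs6 h l5 u) l5 u (by norm_num) (by norm_num)
  rcases le_total R 0.006 with u | l7
  · exact lin_ends (bs7 h l6 u) l6 u (by norm_num) (by norm_num)
  rcases le_total R 0.008 with u | l8
  · exact lin_ends (bs8 h l7 u) l7 u (by norm_num) (by norm_num)
  rcases le_total R 0.01 with u | l9
  · exact lin_ends (bs9 h l8 u) l8 u (by norm_num) (by norm_num)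
  rcases le_total R 0.013 with u | l10
  · exact lin_ends (bs10 h l9 u) l9 u (by norm_num) (by norm_num)
  rcases le_total R 0.016 with u | l11
  · exact lin_ends (bs11 h l10 u) l10 u (by norm_num) (by norm_num)
  exact lin_ends (bs12 h l11 h2) l11 h2 (by norm_num) (by norm_num)

lemma g7_12 (h : Good 1 R p) (h2 : R ≤ 0.016) : 3.6 * R ≤ p := by
  have h1 : (0:ℝ) ≤ R := h.1.le
  suffices H : 0 + 3.6 * R ≤ p by rwa [zero_add] at H
  rcases le_total R 0.0005 with u | l0
  · exact lin_ends (bs0 h h1 u) h1 u (by norm_num) (by norm_num)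
  rcases le_total R 0.001 with u | l1
  · exact lin_ends (bs1 h l0 u) l0 u (by norm_num) (by norm_num)
  rcases le_total R 0.0015 with u | l2
  · exact lin_ends (bs2 h l1 u) l1 u (by norm_num) (by norm_num)
  rcases le_total R 0.002 with u | l3
  · exact lin_ends (bs3 h l2 u) l2 u (by norm_num) (by norm_num)
  rcases le_total R 0.003 with u | l4
  · exact lin_ends (bs4 h l3 u) l3 u (by norm_num) (by norm_num)
  rcases le_total R 0.004 with u | l5
  · exact lin_ends (bs5 h l4 u) l4 u (by norm_num) (by norm_num)
  rcases le_total R 0.005 with u | l6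
  · exact lin_ends (bs6 h l5 u) l5 u (by norm_num) (by norm_num)
  rcases le_total R 0.006 with u | l7
  · exact lin_ends (bs7 h l6 u) l6 u (by norm_num) (by norm_num)
  rcases le_total R 0.008 with u | l8
  · exact lin_ends (bs8 h l7 u) l7 u (by norm_num) (by norm_num)
  rcases le_total R 0.01 with u | l9
  · exact lin_ends (bs9 h l8 u) l8 u (by norm_num) (by norm_num)
  rcases le_total R 0.013 with u | l10
  · exact lin_ends (bs10 h l9 u) l9 u (by norm_num) (by norm_num)
  exact lin_ends (bs11 h l10 h2) l10 h2 (by norm_num) (by norm_num)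

lemma g7_8 (h : Good 1 R p) (h2 : R ≤ 0.006) : 5.813 * R ≤ p := by
  have h1 : (0:ℝ) ≤ R := h.1.le
  suffices H : 0 + 5.813 * R ≤ p by rwa [zero_add] at H
  rcases le_total R 0.0005 with u | l0
  · exact lin_ends (bs0 h h1 u) h1 u (by norm_num) (by norm_num)
  rcases le_total R 0.001 with u | l1
  · exact lin_ends (bs1 h l0 u) l0 u (by norm_num) (by norm_num)
  rcases le_total R 0.0015 with u | l2
  · exact lin_ends (bs2 h l1 u) l1 u (by norm_num) (by norm_num)
  rcases le_total R 0.002 with u | l3
  · exact lin_ends (bs3 h l2 u) l2 u (by norm_num) (by norm_num)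
  rcases le_total R 0.003 with u | l4
  · exact lin_ends (bs4 h l3 u) l3 u (by norm_num) (by norm_num)
  rcases le_total R 0.004 with u | l5
  · exact lin_ends (bs5 h l4 u) l4 u (by norm_num) (by norm_num)
  rcases le_total R 0.005 with u | l6
  · exact lin_ends (bs6 h l5 u) l5 u (by norm_num) (by norm_num)
  exact lin_ends (bs7 h l6 h2) l6 h2 (by norm_num) (by norm_num)

lemma g7_30 (h : Good 1 R p) (h2 : R ≤ 0.21) : 1.081 * R ≤ p := by
  have h1 : (0:ℝ) ≤ R := h.1.le
  suffices H : 0 + 1.081 * R ≤ p by rwa [zero_add] at H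
  rcases le_total R 0.0005 with u | l0
  · exact lin_ends (bs0 h h1 u) h1 u (by norm_num) (by norm_num)
  rcases le_total R 0.001 with u | l1
  · exact lin_ends (bs1 h l0 u) l0 u (by norm_num) (by norm_num)
  rcases le_total R 0.0015 with u | l2
  · exact lin_ends (bs2 h l1 u) l1 u (by norm_num) (by norm_num)
  rcases le_total R 0.002 with u | l3
  · exact lin_ends (bs3 h l2 u) l2 u (by norm_num) (by norm_num)
  rcases le_total R 0.003 with u | l4
  · exact lin_ends (bs4 h l3 u) l3 u (by norm_num) (by norm_num)
  rcases le_total R 0.004 with u | l5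
  · exact lin_ends (bs5 h l4 u) l4 u (by norm_num) (by norm_num)
  rcases le_total R 0.005 with u | l6
  · exact lin_ends (bs6 h l5 u) l5 u (by norm_num) (by norm_num)
  rcases le_total R 0.006 with u | l7
  · exact lin_ends (bs7 h l6 u) l6 u (by norm_num) (by norm_num)
  rcases le_total R 0.008 with u | l8
  · exact lin_ends (bs8 h l7 u) l7 u (by norm_num) (by norm_num)
  rcases le_total R 0.01 with u | l9
  · exact lin_ends (bs9 h l8 u) l8 u (by norm_num) (by norm_num)
  rcases le_total R 0.013 with u | l10
  · exact lin_ends (bs10 h l9 u) l9 u (by norm_num) (by norm_num)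
  rcases le_total R 0.016 with u | l11
  · exact lin_ends (bs11 h l10 u) l10 u (by norm_num) (by norm_num)
  rcases le_total R 0.02 with u | l12
  · exact lin_ends (bs12 h l11 u) l11 u (by norm_num) (by norm_num)
  rcases le_total R 0.025 with u | l13
  · exact lin_ends (bs13 h l12 u) l12 u (by norm_num) (by norm_num)
  rcases le_total R 0.03 with u | l14
  · exact lin_ends (bs14 h l13 u) l13 u (by norm_num) (by norm_num)
  rcases le_total R 0.035 with u | l15
  · exact lin_ends (bs15 h l14 u) l14 u (by norm_num) (by norm_num)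
  rcases le_total R 0.04 with u | l16
  · exact lin_ends (bs16 h l15 u) l15 u (by norm_num) (by norm_num)
  rcases le_total R 0.045 with u | l17
  · exact lin_ends (b7_17 h l16 u) l16 u (by norm_num) (by norm_num)
  rcases le_total R 0.05 with u | l18
  · exact lin_ends (b7_18 h l17 u) l17 u (by norm_num) (by norm_num)
  rcases le_total R 0.06 with u | l19
  · exact lin_ends (b7_19 h l18 u) l18 u (by norm_num) (by norm_num)
  rcases le_total R 0.07 with u | l20
  · exact lin_ends (b7_20 h l19 u) l19 u (by norm_num) (by norm_num)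
  rcases le_total R 0.08 with u | l21
  · exact lin_ends (b7_21 h l20 u) l20 u (by norm_num) (by norm_num)
  rcases le_total R 0.09 with u | l22
  · exact lin_ends (b7_22 h l21 u) l21 u (by norm_num) (by norm_num)
  rcases le_total R 0.1 with u | l23
  · exact lin_ends (b7_23 h l22 u) l22 u (by norm_num) (by norm_num)
  rcases le_total R 0.12 with u | l24
  · exact lin_ends (b7_24 h l23 u) l23 u (by norm_num) (by norm_num)
  rcases le_total R 0.14 with u | l25
  · exact lin_ends (b7_25 h l24 u) l24 u (by norm_num) (by norm_num)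
  rcases le_total R 0.16 with u | l26
  · exact lin_ends (b7_26 h l25 u) l25 u (by norm_num) (by norm_num)
  rcases le_total R 0.18 with u | l27
  · exact lin_ends (b7_27 h l26 u) l26 u (by norm_num) (by norm_num)
  rcases le_total R 0.195 with u | l28
  · exact lin_ends (b7_28 h l27 u) l27 u (by norm_num) (by norm_num)
  exact lin_ends (b7_29 h l28 h2) l28 h2 (by norm_num) (by norm_num)

end Crest.Agent.Prp
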